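import Vale.Agent.P240.R2.H490.P5Comb

/-!
Diagonal forms, their projections and frames; systems of reflections.
-/

set_option autoImplicit false
set_option linter.all false

namespace Vale.Agent.P240.R2.H490

open Subgroup Vale.Agent.P240.R2.AS Matrix

universe u v w

section
variable {K : Type u} [Field K] {n : ℕ} (d : Fin n → K)

/-- the diagonal form -/
def ip (x y : Fin n → K) : K := ∑ i, d i * x i * y i

lemma ip_comm (x y : Fin n → K) : ip d x y = ip d y x := by
  unfold ip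
  exact Finset.sum_congr rfl fun i _ => by ring

lemma ip_add_left (x x' y : Fin n → K) : ip d (x + x') y = ip d x y + ip d x' y := by
  unfold ip
  rw [← Finset.sum_add_distrib]
  exact Finset.sum_congr rfl fun i _ => by rw [Pi.add_apply]; ring

lemma ip_smul_left (c : K) (x y : Fin n → K) : ip d (c • x) y = c * ip d x y := by
  unfold ip
  rw [Finset.mul_sum]
  exact Finset.sum_congr rfl fun i _ => by rw [Pi.smul_apply, smul_eq_mul]; ring

lemma ip_add_right (x y y' : Fin n → K) : ip d x (y + y') = ip d x y + ip d x y' := by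
  rw [ip_comm, ip_add_left, ip_comm d y, ip_comm d y']

lemma ip_smul_right (c : K) (x y : Fin n → K) : ip d x (c • y) = c * ip d x y := by
  rw [ip_comm, ip_smul_left, ip_comm]

lemma ip_sub_left (x x' y : Fin n → K) : ip d (x - x') y = ip d x y - ip d x' y := by
  rw [sub_eq_add_neg, ← neg_one_smul K x', ip_add_left, ip_smul_left]
  ring

lemma ip_sub_right (x y y' : Fin n → K) : ip d x (y - y') = ip d x y - ip d x y' := by
  rw [ip_comm, ip_sub_left, ip_comm d y, ip_comm d y']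

lemma ip_zero_left (y : Fin n → K) : ip d 0 y = 0 := by
  simp [ip]

lemma ip_zero_right (y : Fin n → K) : ip d y 0 = 0 := by
  simp [ip]

lemma ip_single_right (x : Fin n → K) (i : Fin n) : ip d x (Pi.single i 1) = d i * x i := by
  unfold ip
  rw [Finset.sum_eq_single i]
  · rw [Pi.single_eq_same, mul_one]
  · intro j _ hj
    rw [Pi.single_eq_of_ne hj, mul_zero]
  · intro h
    exact absurd (Finset.mem_univ _) h

lemma ip_ext (hd : ∀ i, d i ≠ 0) {x y : Fin n → K} (h : ∀ z, ip d x z = ip d y z) : x = y := by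
  funext i
  have h1 := h (Pi.single i 1)
  rw [ip_single_right, ip_single_right] at h1
  exact mul_left_cancel₀ (hd i) h1

/-- the projection onto a line -/
def pj (x : Fin n → K) : Matrix (Fin n) (Fin n) K :=
  (ip d x x)⁻¹ • vecMulVec x (fun j => d j * x j)

lemma pj_mulVec (x y : Fin n → K) : pj d x *ᵥ y = ((ip d x x)⁻¹ * ip d x y) • x := by
  rw [pj, smul_mulVec, vecMulVec_mulVec, op_smul_eq_smul, smul_smul]
  congr 2

lemma pj_mul (x : Fin n → K) (A : Matrix (Fin n) (Fin n) K) (y : Fin n → K) :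
    (pj d x * A) *ᵥ y = ((ip d x x)⁻¹ * ip d x (A *ᵥ y)) • x := by
  rw [← mulVec_mulVec, pj_mulVec]

lemma mat_ext {A B : Matrix (Fin n) (Fin n) K} (h : ∀ y, A *ᵥ y = B *ᵥ y) : A = B :=
  Matrix.mulVec_injective (funext h)

lemma pj_self {x : Fin n → K} (hx : ip d x x ≠ 0) : pj d x *ᵥ x = x := by
  rw [pj_mulVec, inv_mul_cancel₀ hx, one_smul]

lemma pj_idem {x : Fin n → K} (hx : ip d x x ≠ 0) : pj d x * pj d x = pj d x := by
  refine mat_ext fun y => ?_
  rw [pj_mul, pj_mulVec, ip_smul_right]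
  congr 1
  field_simp

lemma ip_ne {x : Fin n → K} (hx : ip d x x ≠ 0) : x ≠ 0 := by
  rintro rfl
  exact hx (ip_zero_left d 0)

lemma pj_ne {x : Fin n → K} (hx : ip d x x ≠ 0) : pj d x ≠ 0 := by
  intro h
  have h1 := pj_self d hx
  rw [h, zero_mulVec] at h1
  exact ip_ne d hx h1.symm

lemma pj_mul_eq_zero {x y : Fin n → K} (hx : ip d x x ≠ 0) (hy : ip d y y ≠ 0) :
    pj d x * pj d y = 0 ↔ ip d x y = 0 := by
  constructor
  · intro h
    have h1 : (pj d x * pj d y) *ᵥ y = 0 := by rw [h, zero_mulVec]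
    rw [pj_mul, pj_self d hy] at h1
    rcases smul_eq_zero.1 h1 with h2 | h2
    · exact (mul_eq_zero.1 h2).resolve_left (inv_ne_zero hx)
    · exact absurd h2 (ip_ne d hx)
  · intro h
    refine mat_ext fun z => ?_
    rw [pj_mul, pj_mulVec, ip_smul_right, h, mul_zero, mul_zero, zero_smul, zero_mulVec]

lemma pj_smul {x : Fin n → K} {c : K} (hc : c ≠ 0) : pj d (c • x) = pj d x := by
  refine mat_ext fun z => ?_
  rw [pj_mulVec, pj_mulVec, ip_smul_left, ip_smul_left, ip_smul_right, smul_smul]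
  by_cases h : ip d x x = 0
  · simp [h]
  · congr 1
    field_simp

/-- a vector on the line of another -/
lemma pj_eq {x y : Fin n → K} (hy : ip d y y ≠ 0) (h : pj d x *ᵥ y = y) :
    ∃ c : K, c ≠ 0 ∧ y = c • x := by
  rw [pj_mulVec] at h
  refine ⟨_, ?_, h.symm⟩
  intro h0
  rw [h0, zero_smul] at h
  exact ip_ne d hy h.symm

/-- the letters -/
def Lt : Type u := {P : Matrix (Fin n) (Fin n) K // ∃ x, ip d x x ≠ 0 ∧ P = pj d x}

instance [Finite K] : Finite (Lt d) :=
  inferInstanceAs (Finite {P : Matrix (Fin n) (Fin n) K // ∃ x, ip d x x ≠ 0 ∧ P = pj d x})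

noncomputable instance [Finite K] : Fintype (Lt d) := Fintype.ofFinite _

variable {d}

/-- the projection -/
def Lt.v (P : Lt d) : Matrix (Fin n) (Fin n) K := P.1

/-- a vector on the line -/
noncomputable def Lt.x (P : Lt d) : Fin n → K := P.2.choose

lemma Lt.hx (P : Lt d) : ip d P.x P.x ≠ 0 := P.2.choose_spec.1

lemma Lt.v_eq (P : Lt d) : P.v = pj d P.x := P.2.choose_spec.2

/-- the letter of a vector -/
def lt {x : Fin n → K} (hx : ip d x x ≠ 0) : Lt d := ⟨pj d x, x, hx, rfl⟩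

lemma lt_v {x : Fin n → K} (hx : ip d x x ≠ 0) : (lt hx).v = pj d x := rfl

lemma lt_x {x : Fin n → K} (hx : ip d x x ≠ 0) : ∃ c : K, c ≠ 0 ∧ (lt hx).x = c • x := by
  have h1 := (lt hx).v_eq
  rw [lt_v] at h1
  refine pj_eq d (lt hx).hx ?_
  rw [h1, pj_self d (lt hx).hx]

lemma Lt.ext' {P Q : Lt d} (h : P.v = Q.v) : P = Q := Subtype.ext h

lemma Lt.orth_iff (P Q : Lt d) : P.v * Q.v = 0 ↔ ip d P.x Q.x = 0 := by
  rw [P.v_eq, Q.v_eq]
  exact pj_mul_eq_zero d P.hx Q.hx

variable (d)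

open Classical in
/-- the frames -/
noncomputable def FrD [Finite K] : Finset (List (Lt d)) :=
  (wds (Lt d) n).filter (fun w => w.Pairwise (fun P Q => P.v * Q.v = 0))

variable {d}

lemma mem_FrD [Finite K] {w : List (Lt d)} :
    w ∈ FrD d ↔ w.length = n ∧ w.Pairwise (fun P Q => P.v * Q.v = 0) := by
  classical
  simp [FrD, mem_wds]

lemma v_symm (P Q : Lt d) (h : P.v * Q.v = 0) : Q.v * P.v = 0 := by
  rw [Lt.orth_iff] at h ⊢
  rw [ip_comm, h]

lemma v_idem (P : Lt d) : P.v * P.v = P.v := by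
  rw [P.v_eq]
  exact pj_idem d P.hx

lemma v_ne (P : Lt d) : P.v ≠ 0 := by
  rw [P.v_eq]
  exact pj_ne d P.hx

lemma v_eqm (hd : ∀ i, d i ≠ 0) (P Q : Lt d) (h : P.v * Q.v = P.v) : P = Q := by
  apply Lt.ext'
  have h1 : ∀ z, ip d P.x z = ip d (((ip d Q.x Q.x)⁻¹ * ip d P.x Q.x) • Q.x) z := by
    intro z
    have h2 : (P.v * Q.v) *ᵥ z = P.v *ᵥ z := by rw [h]
    rw [P.v_eq, Q.v_eq, pj_mul, pj_mulVec, pj_mulVec] at h2
    have h3 := sub_eq_zero.2 h2
    rw [← sub_smul] at h3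
    rcases smul_eq_zero.1 h3 with h4 | h4
    · have h5 := sub_eq_zero.1 h4
      have h6 := mul_left_cancel₀ (inv_ne_zero P.hx) h5
      rw [← h6, ip_smul_right, ip_smul_left]
      ring
    · exact absurd h4 (ip_ne d P.hx)
  have h2 := ip_ext d hd h1
  have hc0 : (ip d Q.x Q.x)⁻¹ * ip d P.x Q.x ≠ 0 := by
    intro h0
    rw [h0, zero_smul] at h2
    exact ip_ne d P.hx h2
  rw [P.v_eq, h2, pj_smul d hc0, Q.v_eq]

/-- the form as a linear map -/
def ipL (d : Fin n → K) (y : Fin n → K) : (Fin n → K) →ₗ[K] K where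
  toFun x := ip d x y
  map_add' x x' := ip_add_left d x x' y
  map_smul' c x := ip_smul_left d c x y

lemma ipL_apply (x y : Fin n → K) : ipL d y x = ip d x y := rfl

/-- orthogonal vectors -/
lemma linInd {k : ℕ} (x : Fin k → Fin n → K) (h1 : ∀ i, ip d (x i) (x i) ≠ 0)
    (h2 : ∀ i j, i ≠ j → ip d (x i) (x j) = 0) : LinearIndependent K x := by
  rw [Fintype.linearIndependent_iff]
  intro g hg j
  have h3 := congrArg (ipL d (x j)) hg
  rw [map_sum, map_zero, Finset.sum_eq_single j] at h3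
  · rw [map_smul, smul_eq_mul, ipL_apply] at h3
    exact (mul_eq_zero.1 h3).resolve_right (h1 j)
  · intro i _ hi
    rw [map_smul, smul_eq_mul, ipL_apply, h2 i j hi, mul_zero]
  · intro h
    exact absurd (Finset.mem_univ _) h

lemma Sm_mulVec {w : List (Lt d)} (hw : w.Pairwise (fun P Q => P.v * Q.v = 0)) {P : Lt d}
    (hP : P ∈ w) : Sm Lt.v w *ᵥ P.x = P.x := by
  induction w with
  | nil => simp at hP
  | cons a w ih =>
    have h1 := List.pairwise_cons.1 hw
    have hzero : ∀ {a : Lt d} {w : List (Lt d)}, (∀ Q ∈ w, a.v * Q.v = 0) →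
        Sm Lt.v w *ᵥ a.x = 0 := by
      intro a w
      induction w with
      | nil => intro _; rw [Sm_nil, zero_mulVec]
      | cons b w ih =>
        intro h
        rw [Sm_cons, add_mulVec, ih fun Q hQ => h Q (List.mem_cons_of_mem _ hQ), add_zero,
          b.v_eq, pj_mulVec, (b.orth_iff a).1 (v_symm _ _ (h b (by simp))), mul_zero, zero_smul]
    rw [Sm_cons, add_mulVec]
    rcases List.mem_cons.1 hP with rfl | h2
    · rw [hzero h1.1, add_zero, P.v_eq, pj_self d P.hx]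
    · rw [ih h1.2 h2, a.v_eq, pj_mulVec, (a.orth_iff P).1 (h1.1 P h2), mul_zero, zero_smul,
        zero_add]

/-- the sum of the projections of a frame -/
lemma Sm_eq_one {w : List (Lt d)} (hw : w.Pairwise (fun P Q => P.v * Q.v = 0))
    (hn : w.length = n) : Sm Lt.v w = 1 := by
  have hli : LinearIndependent K (fun i : Fin w.length => (w.get i).x) := by
    refine linInd (d := d) _ (fun i => (w.get i).hx) fun i j hij => ?_
    have h1 := List.pairwise_iff_get.1 hw
    rcases lt_or_gt_of_ne hij with h2 | h2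
    · exact (Lt.orth_iff _ _).1 (h1 i j h2)
    · rw [ip_comm]
      exact (Lt.orth_iff _ _).1 (h1 j i h2)
  have hsp := hli.span_eq_top_of_card_eq_finrank' (by
    rw [Module.finrank_fintype_fun_eq_card, Fintype.card_fin, Fintype.card_fin, hn])
  refine mat_ext fun y => ?_
  rw [one_mulVec]
  have hy : y ∈ Submodule.span K (Set.range fun i : Fin w.length => (w.get i).x) := by
    rw [hsp]
    trivial
  induction hy using Submodule.span_induction with
  | mem z hz =>
    obtain ⟨i, rfl⟩ := hz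
    exact Sm_mulVec hw (List.get_mem w i)
  | zero => rw [mulVec_zero]
  | add a b _ _ ha hb => rw [mulVec_add, ha, hb]
  | smul c a _ ha => rw [mulVec_smul, ha]

/-- the reflection -/
def rf (d : Fin n → K) (x y : Fin n → K) : Fin n → K := y - (2 * (ip d x x)⁻¹ * ip d x y) • x

lemma rf_eq (x y : Fin n → K) : rf d x y = (1 - (2 : K) • pj d x) *ᵥ y := by
  rw [rf, sub_mulVec, one_mulVec, smul_mulVec, pj_mulVec, smul_smul, mul_assoc]

lemma ip_rf {x : Fin n → K} (hx : ip d x x ≠ 0) (y z : Fin n → K) :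
    ip d (rf d x y) (rf d x z) = ip d y z := by
  rw [rf, rf, ip_sub_left, ip_sub_right, ip_sub_right, ip_smul_left, ip_smul_left, ip_smul_right,
    ip_smul_right, ip_comm d y x]
  field_simp
  ring

end

section
variable {K : Type u} [Field K] {n : ℕ} {d : Fin n → K} {G : Type w} [Group G]

/-- a system of reflections -/
structure VR (d : Fin n → K) (R : (Fin n → K) → G) : Prop where
  smul : ∀ (c : K) x, c ≠ 0 → ip d x x ≠ 0 → R (c • x) = R x
  inj : ∀ x y, ip d x x ≠ 0 → ip d y y ≠ 0 → R x = R y → ∃ c : K, y = c • x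
  sq : ∀ x, ip d x x ≠ 0 → R x * R x = 1
  cnj : ∀ x y, ip d x x ≠ 0 → ip d y y ≠ 0 → R x * R y * R x = R (rf d x y)
  plane : ∀ x y x' y', ip d x x ≠ 0 → ip d y y ≠ 0 → ip d x' x' ≠ 0 → ip d y' y' ≠ 0 →
    ip d x y = 0 → ip d x' y' = 0 → (∃ a b : K, x' = a • x + b • y) →
    (∃ a b : K, y' = a • x + b • y) → R x * R y = R x' * R y'

namespace VR

variable {R : (Fin n → K) → G} (h : VR d R)
include h

/-- conjugation by products -/
lemma Ew_conj {w : List (Lt d)} (hw : w.Pairwise (fun P Q => P.v * Q.v = 0)) {y : Fin n → K}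
    (hy : ip d y y ≠ 0) :
    ip d ((1 - (2 : K) • Sm Lt.v w) *ᵥ y) ((1 - (2 : K) • Sm Lt.v w) *ᵥ y) = ip d y y ∧
    Ew (fun P : Lt d => R P.x) w * R y * (Ew (fun P : Lt d => R P.x) w)⁻¹ =
      R ((1 - (2 : K) • Sm Lt.v w) *ᵥ y) := by
  induction w with
  | nil => simp
  | cons a w ih =>
    have h1 := List.pairwise_cons.1 hw
    obtain ⟨ih1, ih2⟩ := ih h1.2
    have h2 : (1 - (2 : K) • Sm Lt.v (a :: w)) *ᵥ y =
        rf d a.x ((1 - (2 : K) • Sm Lt.v w) *ᵥ y) := by
      rw [rf_eq, mulVec_mulVec, ← a.v_eq]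
      congr 1
      have h3 : a.v * Sm Lt.v w = 0 := by
        have h4 : ∀ w : List (Lt d), (∀ Q ∈ w, a.v * Q.v = 0) → a.v * Sm Lt.v w = 0 := by
          intro w
          induction w with
          | nil => intro _; rw [Sm_nil, mul_zero]
          | cons b w ih =>
            intro h
            rw [Sm_cons, mul_add, ih fun Q hQ => h Q (List.mem_cons_of_mem _ hQ), add_zero,
              h b (by simp)]
        exact h4 w h1.1
      rw [sub_mul, one_mul, mul_sub, mul_one, smul_mul_smul_comm, h3, smul_zero, sub_zero, Sm_cons,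
        smul_add]
      abel
    have h5 : (R a.x)⁻¹ = R a.x := inv_eq_of_mul_eq_one_left (h.sq _ a.hx)
    rw [h2]
    refine ⟨by rw [ip_rf a.hx, ih1], ?_⟩
    rw [← h.cnj _ _ a.hx (by rw [ih1]; exact hy), ← ih2, Ew_cons, _root_.mul_inv_rev, h5]
    group

omit h in
/-- matrices for which all anisotropic vectors are eigenvectors -/
lemma scal (hd : ∀ i, d i ≠ 0) (h2 : (2 : K) ≠ 0) (h3 : (3 : K) ≠ 0) {T : Matrix (Fin n) (Fin n) K}
    (hT : ∀ y, ip d y y ≠ 0 → ∃ c : K, T *ᵥ y = c • y) : ∃ c : K, T = c • 1 := by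
  have hs : ∀ i, ip d (Pi.single i 1) (Pi.single i 1) ≠ 0 := fun i => by
    rw [ip_single_right, Pi.single_eq_same, mul_one]
    exact hd i
  choose! c hc using hT
  have hij : ∀ i j, i ≠ j → c (Pi.single i 1) = c (Pi.single j 1) := by
    intro i j hij
    obtain ⟨t, ht0, ht⟩ : ∃ t : K, t ≠ 0 ∧ d i + t * t * d j ≠ 0 := by
      by_cases h4 : d i + d j = 0
      · refine ⟨2, h2, fun h5 => ?_⟩
        have h6 : 3 * d j = 0 := by linear_combination h5 - h4
        exact (mul_ne_zero h3 (hd j)) h6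
      · exact ⟨1, one_ne_zero, by rwa [one_mul, one_mul]⟩
    have hy : ip d (Pi.single i 1 + t • Pi.single j 1) (Pi.single i 1 + t • Pi.single j 1) ≠ 0 := by
      rw [ip_add_right, ip_smul_right, ip_single_right, ip_single_right, Pi.add_apply,
        Pi.add_apply, Pi.smul_apply, Pi.smul_apply, Pi.single_eq_same, Pi.single_eq_same,
        Pi.single_eq_of_ne hij, Pi.single_eq_of_ne hij.symm, smul_zero, add_zero, mul_one,
        zero_add, smul_eq_mul, mul_one]
      have : t * (d j * t) = t * t * d j := by ring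
      rw [this]
      exact ht
    have h4 := hc _ hy
    rw [mulVec_add, mulVec_smul, hc _ (hs i), hc _ (hs j)] at h4
    have h5 := congrFun h4 i
    have h6 := congrFun h4 j
    simp only [Pi.add_apply, Pi.smul_apply, Pi.single_eq_same, Pi.single_eq_of_ne hij,
      Pi.single_eq_of_ne hij.symm, smul_eq_mul, mul_zero, add_zero, mul_one, zero_add] at h5 h6
    rw [h5]
    have h7 : t * c (Pi.single j 1) = t * c (Pi.single i 1 + t • Pi.single j 1) := by
      rw [h6, mul_comm]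
    exact (mul_left_cancel₀ ht0 h7).symm
  rcases isEmpty_or_nonempty (Fin n) with he | ⟨⟨i₀⟩⟩
  · exact ⟨0, by ext i; exact he.elim i⟩
  · refine ⟨c (Pi.single i₀ 1), Matrix.ext_of_mulVec_single fun i => ?_⟩
    rw [hc _ (hs i), smul_mulVec, one_mulVec]
    by_cases hi : i = i₀
    · rw [hi]
    · rw [hij i i₀ hi]

omit h in
lemma inv_sq {w : List (Lt d)} (hw : w.Pairwise (fun P Q => P.v * Q.v = 0)) :
    (1 - (2 : K) • Sm Lt.v w) * (1 - (2 : K) • Sm Lt.v w) = 1 := by
  have h1 : Sm Lt.v w * Sm Lt.v w = Sm Lt.v w := by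
    induction w with
    | nil => rw [Sm_nil, mul_zero]
    | cons a w ih =>
      have h1 := List.pairwise_cons.1 hw
      have h4 : ∀ w : List (Lt d), (∀ Q ∈ w, a.v * Q.v = 0) →
          a.v * Sm Lt.v w = 0 ∧ Sm Lt.v w * a.v = 0 := by
        intro w
        induction w with
        | nil => intro _; rw [Sm_nil, mul_zero, zero_mul]; exact ⟨rfl, rfl⟩
        | cons b w ih =>
          intro h
          obtain ⟨ih1, ih2⟩ := ih fun Q hQ => h Q (List.mem_cons_of_mem _ hQ)
          rw [Sm_cons, mul_add, add_mul, ih1, ih2, h b (by simp), v_symm _ _ (h b (by simp))]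
          simp
      obtain ⟨h5, h6⟩ := h4 w h1.1
      rw [Sm_cons, add_mul, mul_add, mul_add, h5, h6, ih h1.2, v_idem]
      simp
  rw [sub_mul, mul_sub, mul_sub, one_mul, one_mul, mul_one, smul_mul_smul_comm, h1]
  module

/-- separation -/
lemma sepa (hd : ∀ i, d i ≠ 0) (h2 : (2 : K) ≠ 0) (h3 : (3 : K) ≠ 0) {u w : List (Lt d)}
    (hu : u.Pairwise (fun P Q => P.v * Q.v = 0)) (hw : w.Pairwise (fun P Q => P.v * Q.v = 0))
    (he : Ew (fun P : Lt d => R P.x) u = Ew (fun P : Lt d => R P.x) w) :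
    Sm Lt.v u = Sm Lt.v w ∨ Sm Lt.v u + Sm Lt.v w = 1 := by
  obtain ⟨c, hc⟩ := scal (T := (1 - (2 : K) • Sm Lt.v u) * (1 - (2 : K) • Sm Lt.v w)) hd h2 h3 (by
    intro y hy
    obtain ⟨h4, h5⟩ := h.Ew_conj hu hy
    obtain ⟨h6, h7⟩ := h.Ew_conj hw hy
    rw [he, h7] at h5
    obtain ⟨c, hc⟩ := h.inj _ _ (by rw [h4]; exact hy) (by rw [h6]; exact hy) h5.symm
    refine ⟨c, ?_⟩
    rw [← mulVec_mulVec, hc, mulVec_smul, mulVec_mulVec, inv_sq hu, one_mulVec])
  rcases Nat.eq_zero_or_pos n with hn | hn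
  · subst hn
    exact Or.inl (Subsingleton.elim _ _)
  have h4 : 1 - (2 : K) • Sm Lt.v w = c • (1 - (2 : K) • Sm Lt.v u) := by
    calc 1 - (2 : K) • Sm Lt.v w =
        (1 - (2 : K) • Sm Lt.v u) * ((1 - (2 : K) • Sm Lt.v u) * (1 - (2 : K) • Sm Lt.v w)) := by
          rw [← mul_assoc, inv_sq hu, one_mul]
      _ = _ := by rw [hc, mul_smul_comm, mul_one]
  have h5 : c * c = 1 := by
    have h6 := inv_sq hw
    rw [h4, smul_mul_smul_comm, inv_sq hu] at h6
    have h7 := congrFun (congrFun h6 ⟨0, hn⟩) ⟨0, hn⟩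
    rwa [Matrix.smul_apply, Matrix.one_apply_eq, smul_eq_mul, mul_one] at h7
  have hinj : ∀ {A B : Matrix (Fin n) (Fin n) K}, (2 : K) • A = (2 : K) • B → A = B := by
    intro A B hAB
    have h8 := congrArg (fun A => (2 : K)⁻¹ • A) hAB
    simpa only [smul_smul, inv_mul_cancel₀ h2, one_smul] using h8
  rcases mul_self_eq_one_iff.1 h5 with h6 | h6
  · left
    rw [h6, one_smul] at h4
    exact (hinj (sub_right_injective h4)).symm
  · right
    rw [h6, neg_one_smul] at h4
    apply hinj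
    rw [smul_add]
    have h7 : (2 : K) • (1 : Matrix (Fin n) (Fin n) K) = 1 + 1 := two_smul K _
    rw [h7]
    have h8 := congrArg (fun A => A + (2 : K) • Sm Lt.v w + 1) h4
    simp only [sub_add_cancel] at h8
    rw [h8]
    abel

/-- letters of a frame commute -/
lemma com' [Finite K] {w : List (Lt d)} (hw : w ∈ FrD d) {P Q : Lt d} (hP : P ∈ w) (hQ : Q ∈ w) :
    R P.x * R Q.x = R Q.x * R P.x := by
  by_cases hPQ : P = Q
  · rw [hPQ]
  · have : Std.Symm (fun P Q : Lt d => P.v * Q.v = 0) := ⟨v_symm⟩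
    have h4 := (mem_FrD.1 hw).2.forall hP hQ hPQ
    have h5 := h.cnj _ _ P.hx Q.hx
    have h6 : rf d P.x Q.x = Q.x := by
      rw [rf, (Lt.orth_iff P Q).1 h4, mul_zero, zero_smul, sub_zero]
    rw [h6] at h5
    calc R P.x * R Q.x = R P.x * R Q.x * (R P.x * R P.x) := by rw [h.sq _ P.hx, mul_one]
      _ = (R P.x * R Q.x * R P.x) * R P.x := by group
      _ = R Q.x * R P.x := by rw [h5]

omit h in
lemma Ew_perm' {L : Type*} {R : L → G} {x y : List L}
    (hc : ∀ P ∈ x, ∀ Q ∈ x, R P * R Q = R Q * R P) (hxy : x.Perm y) : Ew R x = Ew R y := by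
  induction hxy with
  | nil => rfl
  | cons a _ ih =>
    rw [Ew_cons, Ew_cons, ih fun P hP Q hQ =>
      hc P (List.mem_cons_of_mem _ hP) Q (List.mem_cons_of_mem _ hQ)]
  | swap a b l =>
    rw [Ew_cons, Ew_cons, Ew_cons, Ew_cons, ← mul_assoc, ← mul_assoc,
      hc b (by simp) a (by simp)]
  | trans h1 _ ih1 ih2 =>
    rw [ih1 hc, ih2 fun P hP Q hQ => hc P (h1.mem_iff.2 hP) Q (h1.mem_iff.2 hQ)]

/-- **The system of involutions of a system of reflections.** -/
theorem rs' [Finite K] (hd : ∀ i, d i ≠ 0) (h2 : (2 : K) ≠ 0) (h3 : (3 : K) ≠ 0)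
    {F : Finset (List (Lt d))} (hF : F ⊆ FrD d) (hperm : ∀ w ∈ F, ∀ w', w.Perm w' → w' ∈ F)
    (hfull : ∀ w ∈ F, Ew (fun P : Lt d => R P.x) w = 1) :
    RS n (Lt.v (d := d)) 1 F (fun P : Lt d => R P.x) where
  ne := v_ne
  idem := v_idem
  eqm := v_eqm hd
  symm := v_symm
  len w hw := (mem_FrD.1 (hF hw)).1
  orth w hw := (mem_FrD.1 (hF hw)).2
  sum w hw := Sm_eq_one (mem_FrD.1 (hF hw)).2 (mem_FrD.1 (hF hw)).1
  perm := hperm
  sq w hw P hP := h.sq _ P.hx
  com w hw P hP Q hQ := h.com' (hF hw) hP hQ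
  plane u a b c e h4 h5 := by
    have h6 := (mem_FrD.1 (hF h4))
    have h7 := (mem_FrD.1 (hF h5))
    have h8 := Sm_eq_one h6.2 h6.1
    have h9 := Sm_eq_one h7.2 h7.1
    have hab : a.v * b.v = 0 := (List.pairwise_cons.1 h6.2).1 b (by simp)
    have hce : c.v * e.v = 0 := (List.pairwise_cons.1 h7.2).1 e (by simp)
    rw [Sm_cons, Sm_cons, ← add_assoc] at h8 h9
    have h10 : a.v + b.v = c.v + e.v := add_right_cancel (h8.trans h9.symm)
    refine h.plane _ _ _ _ a.hx b.hx c.hx e.hx ((Lt.orth_iff _ _).1 hab) ((Lt.orth_iff _ _).1 hce)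
      ?_ ?_
    · have h11 : (c.v + e.v) *ᵥ c.x = c.x := by
        rw [add_mulVec, c.v_eq, pj_self d c.hx, e.v_eq, pj_mulVec, ip_comm d e.x c.x,
          (Lt.orth_iff _ _).1 hce, mul_zero, zero_smul, add_zero]
      rw [← h10, add_mulVec, a.v_eq, b.v_eq, pj_mulVec, pj_mulVec] at h11
      exact ⟨_, _, h11.symm⟩
    · have h11 : (c.v + e.v) *ᵥ e.x = e.x := by
        rw [add_mulVec, e.v_eq, pj_self d e.hx, c.v_eq, pj_mulVec,
          (Lt.orth_iff _ _).1 hce, mul_zero, zero_smul, zero_add]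
      rw [← h10, add_mulVec, a.v_eq, b.v_eq, pj_mulVec, pj_mulVec] at h11
      exact ⟨_, _, h11.symm⟩
  full := hfull
  sepa u u' w w' h4 h5 he := by
    refine h.sepa hd h2 h3 ?_ ?_ he
    · exact (List.pairwise_append.1 (mem_FrD.1 (hF h4)).2).1
    · exact (List.pairwise_append.1 (mem_FrD.1 (hF h5)).2).1

theorem rs [Finite K] (hd : ∀ i, d i ≠ 0) (h2 : (2 : K) ≠ 0) (h3 : (3 : K) ≠ 0)
    (hfull : ∀ w ∈ FrD d, Ew (fun P : Lt d => R P.x) w = 1) :
    RS n (Lt.v (d := d)) 1 (FrD d) (fun P : Lt d => R P.x) :=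
  h.rs' hd h2 h3 (Finset.Subset.refl _) (fun w hw w' hww' => by
    obtain ⟨h4, h5⟩ := mem_FrD.1 hw
    exact mem_FrD.2 ⟨hww'.length_eq ▸ h4, (hww'.pairwise_iff fun {P Q} h => v_symm P Q h).1 h5⟩)
    hfull

/-- products of frames commute with the reflections -/
lemma Ew_full_comm [Finite K] {w : List (Lt d)} (hw : w ∈ FrD d) {y : Fin n → K}
    (hy : ip d y y ≠ 0) : Ew (fun P : Lt d => R P.x) w * R y = R y * Ew (fun P : Lt d => R P.x) w := by
  obtain ⟨h1, h2⟩ := mem_FrD.1 hw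
  obtain ⟨-, h3⟩ := h.Ew_conj h2 hy
  have h4 : (1 - (2 : K) • Sm Lt.v w) *ᵥ y = (-1 : K) • y := by
    rw [Sm_eq_one h2 h1, sub_mulVec, smul_mulVec, one_mulVec, two_smul]
    module
  rw [h4, h.smul _ _ (neg_ne_zero.2 one_ne_zero) hy] at h3
  exact mul_inv_eq_iff_eq_mul.1 h3

end VR

end

end Vale.Agent.P240.R2.H490
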