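import Vale.Agent.P240.R2.H487.AD2
import Vale.Agent.P240.R2.H487.N.D

/-!
The simple groups of Lie type, without restrictions.
-/

set_option autoImplicit false

namespace Vale.Agent.P240.R2.H490

open Vale.Agent.P240.R2.H487.N

/-- Groups of exceptional type over `F`: `G₂(F)`, `F₄(F)`, `E₈(F)` (`IsChevU`), `E₆(F)`, `E₇(F)`,
`³D₄(q)`, `²E₆(q)`, `²F₄(q)`, `Sz(q)`, `²G₂(q)`. -/
def ExcAll (F : Type) [Field F] (L : Type*) [Group L] : Prop :=
  H165.IsChevU F L ∨ H165.IsChevA CartanMatrix.E₆ F L ∨ H165.IsChevA CartanMatrix.E₇ F L ∨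
    H945.Is3D4 F L ∨ H945.Is2E6 F L ∨ H387.Is2F4 F L ∨ IsSz F L ∨ H775.Re.IsRee F L

/-- `L` is an alternating group of degree `n ≥ 5`, or a classical group or a group of exceptional type
over a finite field `F`. -/
def AltLieAll (L : Type*) [Group L] : Prop :=
  Alt L ∨ ∃ (F : Type) (_ : Field F) (_ : Finite F), (∃ n : ℕ, PSLn n F L) ∨ PSp F L ∨
    (∃ n : ℕ, 3 ≤ n ∧ PSUn n F L) ∨ (∃ n : ℕ, 5 ≤ n ∧ POn n F L) ∨ ExcAll F L

/-- `L` is `E₆(F)` for a finite field `F`. -/
def IsE6 (L : Type*) [Group L] : Prop :=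
  ∃ (F : Type) (_ : Field F) (_ : Finite F), H165.IsChevA CartanMatrix.E₆ F L

/-- The group `Out(L)` has order at most `2`, and `𝒜ₚ(A)` is not `ℚ`-acyclic for all groups `A` with
`Inn(L) ≤ A ≤ Aut(L)`. -/
def SmallOut (p : ℕ) (L : Type*) [Group L] : Prop :=
  (MulAut.conj (G := L)).range.index ≤ 2 ∧ H487.AlmHQ ℚ p L

/-- The known simple groups: alternating groups, groups of Lie type, and groups as in `SmallOut` (for
example the sporadic groups). -/
def Known (p : ℕ) (L : Type*) [Group L] : Prop := AltLieAll L ∨ SmallOut p L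

end Vale.Agent.P240.R2.H490
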