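import Vale.Agent.P240.Bdl.B1
import Vale.Agent.P240.R2.H490.D

/-!
Simple groups with few outer automorphisms.
-/

set_option autoImplicit false
set_option linter.all false

namespace Vale.Agent.P240.R2.H490

open Subgroup Vale.Agent.P240 Vale.Agent.P240.K Vale.Agent.P240.H195
open Vale.Agent.P240.R2.H487 (Other AlmHQ)

universe u v

lemma fewAut_of_index {p : ℕ} {L : Type*} [Group L] [Finite L]
    (h : (MulAut.conj (G := L)).range.index ≤ 2) : FewAut p L := by
  have key : ∀ f g : MulAut L, OutAut p f → OutAut p g →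
      g ∈ zpowers f ⊔ (MulAut.conj (G := L)).range := by
    intro f g hf hg
    have h0 : (MulAut.conj (G := L)).range.index ≠ 0 := Subgroup.index_ne_zero_of_finite
    have h1 : (MulAut.conj (G := L)).range.index ≠ 1 := by
      intro h1
      rw [Subgroup.index_eq_one] at h1
      exact hf.2 (by rw [h1]; exact mem_top f)
    have h2 : (MulAut.conj (G := L)).range.index = 2 := by omega
    have h3 : f⁻¹ * g ∈ (MulAut.conj (G := L)).range := by
      rw [Subgroup.mul_mem_iff_of_index_two h2, inv_mem_iff]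
      exact iff_of_false hf.2 hg.2
    have h4 : g = f * (f⁻¹ * g) := by group
    rw [h4]
    exact mul_mem (mem_sup_left (mem_zpowers f)) (mem_sup_right h3)
  exact ⟨fun f g h hf hg _ => Or.inl (key f g hf hg), Or.inl key⟩

lemma hq_of_rat {𝕜 : Type v} [Field 𝕜] {p : ℕ} {G : Type*} [Group G] [Finite G]
    (h : HQ ℚ p G) : HQ 𝕜 p G := by
  rw [HQ_iff] at h ⊢
  exact NA_of_rat (Set.toFinite _) h

lemma SmallOut.other {𝕜 : Type v} [Field 𝕜] {p l : ℕ} {L : Type*} [Group L] [Finite L]
    (h : SmallOut p L) : Other 𝕜 p l L :=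
  Or.inr ⟨fewAut_of_index h.1, fun A hA => hq_of_rat (h.2 A hA)⟩

end Vale.Agent.P240.R2.H490
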