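import Mathlib.FieldTheory.Galois.Basic
import Vale.Agent.P240.R2.H487.N.M4
import Vale.Agent.P240.R2.H490.Few
import Vale.Agent.P240.R2.H493.Data
import Vale.Agent.P240.R2.H630.E6b

/-!
The main theorem for odd primes, without exceptions.
-/

set_option autoImplicit false
set_option linter.all false

namespace Vale.Agent.P240.R2.H490

open Subgroup Matrix Vale.Agent.P240 Vale.Agent.P240.K Vale.Agent.P240.H195
open Vale.Agent.P240.R2.H63 Vale.Agent.P240.R2.H275 Vale.Agent.P240.R2.H487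
open Vale.Agent.P240.R2.H487.N

universe u v

lemma nine_dvd {q m : ℕ} (hq : q = m ^ 3) (h3 : 3 ∣ q - 1) (hq0 : 0 < q) : 9 ∣ q - 1 := by
  subst hq
  have hm : 0 < m := Nat.pos_of_ne_zero (by rintro rfl; simp at hq0)
  have h1 : m ^ 3 % 3 = 1 := by
    have : m ^ 3 - 1 + 1 = m ^ 3 := by omega
    omega
  have h2 : m % 3 = 1 := by
    have h3 : m ^ 3 % 3 = (m % 3) ^ 3 % 3 := Nat.pow_mod _ _ _
    rw [h3] at h1
    have h4 : m % 3 < 3 := Nat.mod_lt _ (by norm_num)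
    interval_cases h5 : m % 3
    · simp at h1
    · rfl
    · norm_num at h1
  obtain ⟨j, hj⟩ : ∃ j, m = 3 * j + 1 := ⟨m / 3, by omega⟩
  refine ⟨3 * j ^ 3 + 3 * j ^ 2 + j, ?_⟩
  subst hj
  have : (3 * j + 1) ^ 3 = 9 * (3 * j ^ 3 + 3 * j ^ 2 + j) + 1 := by ring
  omega

section
variable {L : Type u} [Group L] {F : Type} [Field F] [Finite F]

/-- `E₆(F)` -/
lemma e6_odd (𝕜 : Type v) [Field 𝕜] {p : ℕ} [hp : Fact p.Prime] (hp2 : p ≠ 2)
    (h : H165.IsChevA CartanMatrix.E₆ F L) (hs : IsSimpleGroup L)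
    (hab : ∃ x y : L, x * y ≠ y * x) : ExcFew p F L ∨ TopFac 𝕜 p L := by
  have hp3 : p = 3 ∨ 5 ≤ p := by
    have h2 := hp.out.two_le
    by_contra hcon
    have : p = 4 := by omega
    exact absurd (this ▸ hp.out) (by decide)
  rcases hp3 with rfl | hp3
  · by_cases h3 : 3 ∣ Nat.card F - 1 ∧ ∃ m : ℕ, Nat.card F = m ^ 3
    · obtain ⟨h3, m, hm⟩ := h3
      exact Or.inr (H630.topFac_E6 𝕜 h hs hab (nine_dvd hm h3 Nat.card_pos))
    · refine Or.inl (Or.inr (Or.inr (Or.inl ⟨h, Or.inr (Or.inl ⟨rfl, ?_⟩)⟩)))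
      by_cases h4 : 3 ∣ Nat.card F - 1
      · exact Or.inr fun m hm => h3 ⟨h4, m, hm⟩
      · exact Or.inl h4
  · exact Or.inl (Or.inr (Or.inr (Or.inl ⟨h, Or.inl hp3⟩)))

/-- `²E₆(q)` -/
lemma tw_odd [Finite L] {p : ℕ} [hp : Fact p.Prime] (hp2 : p ≠ 2) (h : H945.Is2E6 F L)
    (hs : IsSimpleGroup L) (hab : ∃ x y : L, x * y ≠ y * x) :
    Exc p ((p : F) = 0 ∨ (2 : F) = 0) F L ∨ EuFree p L := by
  by_cases h2 : (2 : F) = 0
  · exact Or.inl (Or.inr ⟨Or.inr h2, Or.inr h⟩)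
  by_cases hpF : (p : F) = 0
  · exact Or.inl (Or.inr ⟨Or.inl hpF, Or.inr h⟩)
  have hp3 : p = 3 ∨ 5 ≤ p := by
    have h2 := hp.out.two_le
    by_contra hcon
    have : p = 4 := by omega
    exact absurd (this ▸ hp.out) (by decide)
  have few : H945.Is2E6Few p F L → Exc p ((p : F) = 0 ∨ (2 : F) = 0) F L :=
    fun h => Or.inl (Or.inr (Or.inr (Or.inr (Or.inr (Or.inl h)))))
  rcases hp3 with rfl | hp3
  · obtain ⟨q, hq⟩ : ∃ q : ℕ, Nat.card F = q ^ 2 := by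
      obtain ⟨_, _, _, _, _, _, _, K₀, _, _, _, _, _, h, _⟩ := h
      exact ⟨_, h⟩
    by_cases h3 : 3 ∣ q + 1
    · by_cases h4 : 3 ∣ Nat.card (F ≃+* F)
      · obtain ⟨r, hrc⟩ := CharP.exists F
        have hr : Fact r.Prime := ⟨(CharP.char_is_prime_or_zero F r).resolve_right
          (CharP.char_ne_zero_of_finite F r)⟩
        have hr3 : r ≠ 3 := by
          rintro rfl
          exact hpF (CharP.cast_eq_zero F 3)
        have h8 : q ≠ 8 := by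
          rintro rfl
          apply h2
          have : Fintype F := Fintype.ofFinite F
          have h5 : ((Nat.card F : ℕ) : F) = 0 := by
            rw [Nat.card_eq_fintype_card]
            exact Nat.cast_card_eq_zero F
          rw [hq] at h5
          have h6 : (2 : F) ^ 6 = 0 := by
            rw [← h5]
            norm_num
          exact pow_eq_zero_iff (by norm_num) |>.1 h6
        exact Or.inr (h.euFree3 hs hab hr3 hq h3 h4 h8)
      · exact Or.inl (few ⟨h, Or.inr (Or.inr ⟨rfl, h4⟩)⟩)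
    · exact Or.inl (few ⟨h, Or.inr (Or.inl ⟨q, hq, h3⟩)⟩)
  · exact Or.inl (few ⟨h, Or.inl hp3⟩)

end

section
variable {G : Type u} [Group G]

/-- the groups for odd primes -/
lemma AltLieAll.facS {𝕜 : Type v} [Field 𝕜] [Finite G] {p : ℕ}
    [hp : Fact p.Prime] (hp2 : p ≠ 2) {L : Type u} [Group L] (hL : CompFactor G L)
    (hd : p ∣ Nat.card L)
    (h : AltLieAll L ∨ OrdFree p L ∨ CycAut p L ∨ Other 𝕜 p 2 L) : FacS 𝕜 p 2 L := by
  have := finite_of_factor hL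
  have old : AltLieOdd p L ∨ Other 𝕜 p 2 L → FacS 𝕜 p 2 L := AltLieOdd.facS hp2 hL hd
  have exc : ∀ (F : Type) (_ : Field F) (_ : Finite F),
      Exc p ((p : F) = 0 ∨ (2 : F) = 0) F L → FacS 𝕜 p 2 L := fun F _ _ h =>
    old (Or.inl (Or.inr (Or.inr (Or.inr ⟨F, _, ‹_›, Or.inr (Or.inr (Or.inr (Or.inr h)))⟩))))
  rcases h with (h | ⟨F, hF1, hF2, h | h | h | h | h⟩) | h | h | h
  · exact old (Or.inl (Or.inl h))
  · exact old (Or.inl (Or.inr (Or.inr (Or.inr ⟨F, hF1, hF2, Or.inl h⟩))))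
  · exact old (Or.inl (Or.inr (Or.inr (Or.inr ⟨F, hF1, hF2, Or.inr (Or.inl h)⟩))))
  · exact old (Or.inl (Or.inr (Or.inr (Or.inr ⟨F, hF1, hF2, Or.inr (Or.inr (Or.inl h))⟩))))
  · exact old (Or.inl (Or.inr (Or.inr (Or.inr ⟨F, hF1, hF2,
      Or.inr (Or.inr (Or.inr (Or.inl h)))⟩))))
  · rcases h with h | h | h | h | h | h | h | h
    · exact exc F _ hF2 (Or.inl (Or.inl h))
    · rcases e6_odd 𝕜 hp2 h hL.1 hL.2.1 with h | h
      · exact exc F _ hF2 (Or.inl h)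
      · exact Or.inl (Or.inl fun _ => h)
    · exact exc F _ hF2 (Or.inl (Or.inr (Or.inl h)))
    · exact exc F _ hF2 (Or.inl (Or.inr (Or.inr (Or.inr (Or.inl h)))))
    · rcases tw_odd hp2 h hL.1 hL.2.1 with h | h
      · exact exc F _ hF2 h
      · exact old (Or.inr (Or.inl (Or.inr (Or.inr (Or.inl ⟨h, hd⟩)))))
    · exact exc F _ hF2 (Or.inl (Or.inr (Or.inr (Or.inr (Or.inr (Or.inr (Or.inl h)))))))
    · exact exc F _ hF2 (Or.inl (Or.inr (Or.inr (Or.inr (Or.inr (Or.inr (Or.inr (Or.inl h))))))))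
    · exact exc F _ hF2 (Or.inl (Or.inr (Or.inr (Or.inr (Or.inr (Or.inr (Or.inr (Or.inr h))))))))
  · exact old (Or.inl (Or.inr (Or.inl h)))
  · exact old (Or.inl (Or.inr (Or.inr (Or.inl h))))
  · exact old (Or.inr h)

/-- the groups for odd primes -/
lemma known_facS {𝕜 : Type v} [Field 𝕜] [Finite G] {p : ℕ}
    [hp : Fact p.Prime] (hp2 : p ≠ 2) {L : Type u} [Group L] (hL : CompFactor G L)
    (hd : p ∣ Nat.card L)
    (h : Known p L ∨ OrdFree p L ∨ CycAut p L ∨ Other 𝕜 p 2 L) : FacS 𝕜 p 2 L := by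
  have := finite_of_factor hL
  refine AltLieAll.facS hp2 hL hd ?_
  rcases h with (h | h) | h
  · exact Or.inl h
  · exact Or.inr (Or.inr (Or.inr h.other))
  · exact Or.inr h

/-- **Main theorem**, odd primes, components -/
theorem odd_comp {p : ℕ} (hp : p.Prime) (hp2 : p ≠ 2) [Finite G] {𝕜 : Type v}
    [Field 𝕜] (hO : OpTrivial p G) (N : Subgroup G) [N.Normal]
    (h : RedComp p N fun L _ => Known p L ∨ OrdFree p L ∨ CycAut p L ∨ Other 𝕜 p 2 L) :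
    HQ 𝕜 p G := by
  have : Fact p.Prime := ⟨hp⟩
  have hO2 := reduced_op' N h.1 h.2.1
  exact comp_mainS Nat.prime_two hO N h.1 h.2.1 fun L hL hc =>
    known_facS hp2 hc (l2_dvd hO2 L hL) (h.2.2 L hL)

/-- **Main theorem**, odd primes, composition factors -/
theorem odd_all {p : ℕ} (hp : p.Prime) (hp2 : p ≠ 2) [Finite G] {𝕜 : Type v}
    [Field 𝕜] (hO : OpTrivial p G)
    (h : Factors p G fun L _ => Known p L ∨ OrdFree p L ∨ CycAut p L ∨ Other 𝕜 p 2 L) :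
    HQ 𝕜 p G := by
  have : Fact p.Prime := ⟨hp⟩
  exact factor_mainS Nat.prime_two hO fun L _ hL hd => known_facS hp2 hL hd (h L hL hd)

/-- the groups that can be eliminated, odd primes -/
lemma elimOdd (𝕜 : Type v) [Field 𝕜] [Finite G] {p : ℕ} [hp : Fact p.Prime] (hp2 : p ≠ 2)
    {L : Subgroup G} (hs : IsSimpleGroup L) (hn : ∃ x y : L, x * y ≠ y * x)
    (hd : p ∣ Nat.card L) (h : ElimOdd p L ∨ IsE6 L) :
    TopFac 𝕜 p L ∨ LocN p L ∨ Removable 𝕜 p L ∨ RigidLie p L ∨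
      ((p : 𝕜) = 0 ∧ JumpSub 𝕜 p L) ∨ (p = 2 ∧ IsSimpleGroup L ∧ PauliPSL L) := by
  rcases h with h | ⟨F, hF1, hF2, h⟩
  · exact h.elim 𝕜 hp2 hs hn hd
  · rcases e6_odd 𝕜 hp2 h hs hn with h | h
    · refine ElimOdd.elim 𝕜 hp2 hs hn hd ?_
      exact Or.inr (Or.inr ⟨F, hF1, hF2, Or.inr (Or.inr (Or.inr (Or.inl h)))⟩)
    · exact Or.inl h

/-- **Elimination** -/
theorem odd_family [Finite G] {𝕜 : Type v} [Field 𝕜] {p : ℕ} (hp : p.Prime) (hp2 : p ≠ 2)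
    {D : Set (Subgroup G)} (hD : N.Family D)
    (h : ∀ L ∈ D, SimpleDiv p L ∧ (ElimOdd p L ∨ IsE6 L))
    (hC : HQ 𝕜 p (CenFam D)) : HQ 𝕜 p G := by
  have : Fact p.Prime := ⟨hp⟩
  refine family_elimT hD.1 hD.2 (fun L hL x hx hxy => ?_) (fun L hL => (h L hL).1.2.2)
    (fun L hL => elimOdd 𝕜 hp2 (h L hL).1.1 (h L hL).1.2.1 (h L hL).1.2.2 (h L hL).2) hC
  have h1 := centreless_of_simple (h L hL).1.1 (h L hL).1.2.1 ⟨x, hx⟩ fun y =>
    Subtype.ext (hxy y y.2)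
  exact congrArg Subtype.val h1

/-- **Minimal counterexamples** -/
theorem odd_minimal [Finite G] {𝕜 : Type v} [Field 𝕜] {p : ℕ} (hp : p.Prime) (hp2 : p ≠ 2)
    (h : MinCounter 𝕜 p G) : ∀ L ∈ Q.Comp G, ¬ (ElimOdd p L ∨ IsE6 L) := by
  have : Fact p.Prime := ⟨hp⟩
  obtain ⟨hO, hG, hmin⟩ := h
  intro L hL h
  have hO' := (H612.minimal_main hO hG hmin).1
  have hf := comp_factor hO hO' hL
  exact minimal_top hO hG hmin hL (elimOdd 𝕜 hp2 hf.1 hf.2.1 (l2_dvd hO' L hL) h)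

end

end Vale.Agent.P240.R2.H490
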