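import Vale.Agent.P240.Bdl.B1
import Mathlib.Topology.MetricSpace.Pseudo.Pi
import Mathlib.Analysis.Convex.Basic

/-!
Acyclic carriers for chains of lists; prisms; small chains in convex sets.
-/

set_option autoImplicit false
set_option linter.all false

namespace Vale.Agent.P240.R2.H490

open Finsupp Vale.Agent.P240.K

variable {𝕜 : Type*} [Field 𝕜] {α β : Type*}

/-- acyclic carriers -/
structure Car (P : List α → Prop) (C : List α → Submodule 𝕜 (Ch 𝕜 β)) : Prop where
  sub : ∀ l l' : List α, l'.Sublist l → P l → P l'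
  mono : ∀ l l' : List α, l'.Sublist l → P l → C l' ≤ C l
  acyc : ∀ l, P l → l ≠ [] → ∀ z ∈ C l, bd z = 0 → ∃ c ∈ C l, bd c = z

lemma bd_sub (l : List α) :
    bd (single l (1 : 𝕜)) ∈ Sp 𝕜 (fun m : List α => m.Sublist l ∧ m.length + 1 = l.length) :=
  mem_Sp_inf (bd_mem (P := fun m : List α => m.Sublist l) (fun _ _ h h' => h.trans h')
    (single_mem_Sp (P := fun m : List α => m.Sublist l) (List.Sublist.refl l) (1 : 𝕜)))
    (bd_single_len l)

/-- extension along carriers, lists of bounded length -/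
def Good (P : List α → Prop) (C : List α → Submodule 𝕜 (Ch 𝕜 β)) (ε : 𝕜)
    (c0 : Ch 𝕜 β) (e : Ch 𝕜 α →ₗ[𝕜] Ch 𝕜 β) (n : ℕ) (F : Ch 𝕜 α →ₗ[𝕜] Ch 𝕜 β) : Prop :=
  F (single [] 1) = c0 ∧ ∀ l, P l → l.length ≤ n →
      F (single l 1) ∈ C l ∧ bd (F (single l 1)) = ε • F (bd (single l 1)) + e (single l 1)

lemma Good.step {P : List α → Prop} {C : List α → Submodule 𝕜 (Ch 𝕜 β)} (h : Car P C) {ε : 𝕜}
    {c0 : Ch 𝕜 β} {e : Ch 𝕜 α →ₗ[𝕜] Ch 𝕜 β}
    (he : ∀ l, P l → e (single l 1) ∈ C l)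
    (heb : ∀ l, P l → bd (e (single l 1)) = - (ε • e (bd (single l 1)))) {n : ℕ}
    {F : Ch 𝕜 α →ₗ[𝕜] Ch 𝕜 β} (hG : Good P C ε c0 e n F) :
    ∃ F', Good P C ε c0 e (n + 1) F' ∧ ∀ l : List α, l.length ≤ n →
      F' (single l 1) = F (single l 1) := by
  classical
  obtain ⟨hF0, hF⟩ := hG
  have key : ∀ l, P l → l.length = n + 1 →
      ∃ c ∈ C l, bd c = ε • F (bd (single l 1)) + e (single l 1) := by
    intro l hP hl
    have hb := bd_sub (𝕜 := 𝕜) l
    have hb' : bd (single l (1 : 𝕜)) ∈ Sp 𝕜 (fun m : List α => P m ∧ m.length ≤ n) :=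
      Sp_mono (fun m hm => ⟨h.sub _ _ hm.1 hP, by omega⟩) hb
    have h1 : F (bd (single l (1 : 𝕜))) ∈ C l := by
      refine map_mem F (fun m hm => ?_) hb
      exact h.mono _ _ hm.1 hP (hF m (h.sub _ _ hm.1 hP) (by omega)).1
    have h2 : bd (F (bd (single l (1 : 𝕜)))) = e (bd (single l 1)) := by
      have h3 := eq_of_Sp (F := bd.comp F) (G := ε • (F.comp bd) + e)
        (fun m (hm : P m ∧ m.length ≤ n) => by
          simpa using (hF m hm.1 hm.2).2) hb'
      simpa [bd_bd] using h3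
    refine h.acyc l hP (by rintro rfl; simp at hl) _
      (Submodule.add_mem _ (Submodule.smul_mem _ _ h1) (he l hP)) ?_
    rw [map_add, map_smul, h2, heb l hP]
    abel
  choose! c hc hbc using key
  set F' : Ch 𝕜 α →ₗ[𝕜] Ch 𝕜 β := Finsupp.linearCombination 𝕜 fun l : List α =>
    if l.length ≤ n then F (single l 1) else c l with hF'
  have h2 : ∀ l : List α, l.length ≤ n → F' (single l 1) = F (single l 1) := by
    intro l hl'
    simp [hF', Finsupp.linearCombination_single, hl']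
  refine ⟨F', ⟨by rw [h2 _ (by simp), hF0], ?_⟩, h2⟩
  have h1 : ∀ l : List α, l.length ≤ n + 1 → F' (bd (single l 1)) = F (bd (single l 1)) := by
    intro l hl
    refine eq_of_Sp (P := fun m : List α => m.length ≤ n) (fun m hm => h2 m hm)
      (Sp_mono (fun m hm => ?_) (bd_sub (𝕜 := 𝕜) l))
    have := hm.2
    omega
  intro l hP hl
  rcases Nat.lt_or_ge n l.length with hl' | hl'
  · have h2 : F' (single l 1) = c l := by
      simp [hF', Finsupp.linearCombination_single, Nat.not_le.2 hl']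
    have h3 : l.length = n + 1 := by omega
    rw [h1 l hl, h2]
    exact ⟨hc l hP h3, hbc l hP h3⟩
  · rw [h1 l hl, h2 l hl']
    exact hF l hP hl'

/-- extension along carriers -/
theorem Car.ext {P : List α → Prop} {C : List α → Submodule 𝕜 (Ch 𝕜 β)} (h : Car P C) (ε : 𝕜)
    (c0 : Ch 𝕜 β) (hc0 : c0 ∈ C []) (e : Ch 𝕜 α →ₗ[𝕜] Ch 𝕜 β)
    (he : ∀ l, P l → e (single l 1) ∈ C l)
    (heb : ∀ l, P l → bd (e (single l 1)) = - (ε • e (bd (single l 1))))
    (h0 : bd c0 = e (single [] 1)) :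
    ∃ F : Ch 𝕜 α →ₗ[𝕜] Ch 𝕜 β, F (single [] 1) = c0 ∧ ∀ l, P l →
      F (single l 1) ∈ C l ∧ bd (F (single l 1)) = ε • F (bd (single l 1)) + e (single l 1) := by
  classical
  have hstart : ∃ F, Good P C ε c0 e 0 F := by
    refine ⟨Finsupp.linearCombination 𝕜 fun l : List α => if l = [] then c0 else 0, by simp, ?_⟩
    intro l _ hl
    have : l = [] := List.length_eq_zero_iff.1 (Nat.le_zero.1 hl)
    subst this
    simp [hc0, h0]
  have hstep : ∀ n F, Good P C ε c0 e n F → ∃ F', Good P C ε c0 e (n + 1) F' ∧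
      ∀ l : List α, l.length ≤ n → F' (single l 1) = F (single l 1) :=
    fun n F hF => Good.step h he heb hF
  obtain ⟨F0, hF0⟩ := hstart
  choose! st hst1 hst2 using hstep
  let sq : ℕ → (Ch 𝕜 α →ₗ[𝕜] Ch 𝕜 β) := fun n => Nat.rec F0 (fun n F => st n F) n
  have hsq : ∀ n, Good P C ε c0 e n (sq n) := by
    intro n
    induction n with
    | zero => exact hF0
    | succ n ih => exact hst1 n _ ih
  have hsq2 : ∀ n k, ∀ l : List α, l.length ≤ n → sq (n + k) (single l 1) = sq n (single l 1) := by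
    intro n k l hl
    induction k with
    | zero => rfl
    | succ k ih =>
      rw [← ih]
      exact hst2 (n + k) _ (hsq (n + k)) l (by omega)
  set F : Ch 𝕜 α →ₗ[𝕜] Ch 𝕜 β := Finsupp.linearCombination 𝕜 fun l : List α =>
    sq l.length (single l 1) with hF
  have h1 : ∀ (l : List α) (n : ℕ), l.length ≤ n → F (single l 1) = sq n (single l 1) := by
    intro l n hl
    have h2 : F (single l 1) = sq l.length (single l 1) := by
      simp [hF, Finsupp.linearCombination_single]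
    obtain ⟨k, rfl⟩ := Nat.exists_eq_add_of_le hl
    rw [h2, hsq2 _ k l le_rfl]
  refine ⟨F, by rw [h1 [] 0 (by simp)]; exact (hsq 0).1, fun l hP => ?_⟩
  have h2 : F (bd (single l 1)) = sq l.length (bd (single l 1)) := by
    refine eq_of_Sp (P := fun m : List α => m.length ≤ l.length) (fun m hm => h1 m _ hm)
      (Sp_mono (fun m hm => ?_) (bd_sub (𝕜 := 𝕜) l))
    have := hm.2
    omega
  rw [h1 l _ le_rfl, h2]
  exact (hsq l.length).2 l hP le_rfl

/-- chain maps -/
theorem Car.exists_map {P : List α → Prop} {C : List α → Submodule 𝕜 (Ch 𝕜 β)} (h : Car P C)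
    (hC : single [] 1 ∈ C []) :
    ∃ F : Ch 𝕜 α →ₗ[𝕜] Ch 𝕜 β, F (single [] 1) = single [] 1 ∧ ∀ l, P l →
      F (single l 1) ∈ C l ∧ bd (F (single l 1)) = F (bd (single l 1)) := by
  obtain ⟨F, h1, h2⟩ := h.ext 1 (single [] 1) hC 0 (fun l _ => Submodule.zero_mem _)
    (fun l _ => by simp) (by simp)
  exact ⟨F, h1, fun l hP => ⟨(h2 l hP).1, by simpa using (h2 l hP).2⟩⟩

/-- uniqueness up to homotopy -/
theorem Car.homotopy {P : List α → Prop} {C : List α → Submodule 𝕜 (Ch 𝕜 β)} (h : Car P C)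
    {F G : Ch 𝕜 α →ₗ[𝕜] Ch 𝕜 β} (h0 : F (single [] 1) = G (single [] 1))
    {z : Ch 𝕜 α}
    (hF : ∀ l, P l → F (single l 1) ∈ C l ∧ bd (F (single l 1)) = F (bd (single l 1)))
    (hG : ∀ l, P l → G (single l 1) ∈ C l ∧ bd (G (single l 1)) = G (bd (single l 1)))
    (hz : z ∈ Sp 𝕜 P) (hbz : bd z = 0) :
    ∃ D : Ch 𝕜 α →ₗ[𝕜] Ch 𝕜 β, (∀ l, P l → D (single l 1) ∈ C l) ∧
      bd (D z) = F z - G z := by
  obtain ⟨D, h1, h2⟩ := h.ext (-1) 0 (Submodule.zero_mem _) (F - G)
    (fun l hl => Submodule.sub_mem _ (hF l hl).1 (hG l hl).1)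
    (fun l hl => by
      simp only [LinearMap.sub_apply, map_sub, (hF l hl).2, (hG l hl).2]
      simp) (by simp [h0])
  refine ⟨D, fun l hP => (h2 l hP).1, ?_⟩
  have h3 := eq_of_Sp (F := bd.comp D) (G := - (D.comp bd) + (F - G))
    (fun l (hl : P l) => by
      simpa using (h2 l hl).2) hz
  simpa [hbz] using h3

/-- chain maps commute with the boundary -/
lemma bd_comm {P : List α → Prop} {F : Ch 𝕜 α →ₗ[𝕜] Ch 𝕜 β}
    (hF : ∀ l, P l → bd (F (single l 1)) = F (bd (single l 1))) {z : Ch 𝕜 α}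
    (hz : z ∈ Sp 𝕜 P) : bd (F z) = F (bd z) :=
  eq_of_Sp (F := bd.comp F) (G := F.comp bd) (fun l hl => by simpa using hF l hl) hz

/-! ### Prisms -/

/-- prism operator -/
noncomputable def prL (f g : α → β) : List α → Ch 𝕜 β
  | [] => 0
  | x :: l => cons (f x) (cons (g x) (mp g (single l 1))) - cons (f x) (prL f g l)

/-- prism operator -/
noncomputable def pr (f g : α → β) : Ch 𝕜 α →ₗ[𝕜] Ch 𝕜 β := Finsupp.linearCombination 𝕜 (prL f g)

lemma pr_single (f g : α → β) (l : List α) : pr f g (single l (1 : 𝕜)) = prL f g l := by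
  simp [pr, Finsupp.linearCombination_single]

lemma pr_cons (f g : α → β) (x : α) (c : Ch 𝕜 α) :
    pr f g (cons x c) = cons (f x) (cons (g x) (mp g c)) - cons (f x) (pr f g c) := by
  have := lin_ext_apply (f := (pr f g).comp (cons x))
    (g := (cons (f x)).comp ((cons (g x)).comp (mp g)) - (cons (f x)).comp (pr f g))
    (fun l => by simp [pr_single, prL]) c
  simpa using this

lemma bd_pr (f g : α → β) (c : Ch 𝕜 α) : bd (pr f g c) + pr f g (bd c) = mp g c - mp f c := by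
  have := ch_ext_apply (F := bd.comp (pr f g) + (pr f g).comp bd)
    (G := mp g - mp f) (by simp [pr_single, prL])
    (fun y c h => by
      simp only [LinearMap.comp_apply, LinearMap.sub_apply, LinearMap.add_apply] at h
      simp only [LinearMap.comp_apply, LinearMap.sub_apply, 
        LinearMap.add_apply, pr_cons, map_sub, bd_cons, mp_cons, bd_mp]
      have h' : bd (pr f g c) = mp g c - mp f c - pr f g (bd c) := by rw [← h]; abel
      rw [h']
      simp only [map_sub]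
      abel) c
  simpa using this

lemma prL_mem (f g : α → β) (l : List α) :
    prL f g l ∈ Sp 𝕜 (fun m : List β => ∀ a ∈ m, ∃ x ∈ l, a = f x ∨ a = g x) := by
  induction l with
  | nil => exact Submodule.zero_mem _
  | cons x l ih =>
    rw [prL]
    refine Submodule.sub_mem _ ?_ (cons_mem ?_ ih)
    · rw [mp_single, cons_single, cons_single]
      refine single_mem_Sp ?_ _
      intro a ha
      simp only [List.mem_cons, List.mem_map] at ha
      rcases ha with rfl | rfl | ⟨y, hy, rfl⟩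
      · exact ⟨x, by simp, Or.inl rfl⟩
      · exact ⟨x, by simp, Or.inr rfl⟩
      · exact ⟨y, by simp [hy], Or.inr rfl⟩
    · intro m hm a ha
      rcases List.mem_cons.1 ha with rfl | ha
      · exact ⟨x, by simp, Or.inl rfl⟩
      · obtain ⟨y, hy, h⟩ := hm a ha
        exact ⟨y, by simp [hy], h⟩

/-- contiguous maps -/
lemma pr_homotopy {f g : α → β} {P : List α → Prop} {Q : List β → Prop}
    (hPQ : ∀ l, P l → ∀ m : List β, (∀ a ∈ m, ∃ x ∈ l, a = f x ∨ a = g x) → Q m) {z : Ch 𝕜 α}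
    (hz : z ∈ Sp 𝕜 P) (hbz : bd z = 0) : ∃ c ∈ Sp 𝕜 Q, bd c = mp g z - mp f z := by
  refine ⟨pr f g z, map_mem _ (fun l hl => ?_) hz, ?_⟩
  · rw [pr_single]
    exact Sp_mono (hPQ l hl) (prL_mem f g l)
  · rw [← bd_pr, hbz, map_zero, add_zero]

/-- a sequence of contiguous maps -/
lemma pr_chain {f : ℕ → α → β} {P : List α → Prop} {Q : List β → Prop} {n : ℕ}
    (hPQ : ∀ i < n, ∀ l, P l → ∀ m : List β,
      (∀ a ∈ m, ∃ x ∈ l, a = f i x ∨ a = f (i + 1) x) → Q m) {z : Ch 𝕜 α}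
    (hz : z ∈ Sp 𝕜 P) (hbz : bd z = 0) : ∃ c ∈ Sp 𝕜 Q, bd c = mp (f n) z - mp (f 0) z := by
  induction n with
  | zero => exact ⟨0, Submodule.zero_mem _, by simp⟩
  | succ n ih =>
    obtain ⟨c, hc, hbc⟩ := ih fun i hi => hPQ i (Nat.lt_succ_of_lt hi)
    obtain ⟨d, hd, hbd⟩ := pr_homotopy (hPQ n (Nat.lt_succ_self n)) hz hbz
    refine ⟨c + d, Submodule.add_mem _ hc hd, ?_⟩
    rw [map_add, hbc, hbd]
    abel

/-- the constant map -/
lemma const_bd {b : β} {P : List α → Prop} {Q : List β → Prop}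
    (hPQ : ∀ m : List β, (∀ a ∈ m, a = b) → Q m) {z : Ch 𝕜 α}
    (hbz : bd z = 0) : ∃ c ∈ Sp 𝕜 Q, bd c = mp (fun _ => b) z := by
  refine ⟨cons b (mp (fun _ => b) z), ?_, ?_⟩
  · have h1 : mp (fun _ => b) z ∈ Sp 𝕜 (fun m : List β => ∀ a ∈ m, a = b) := by
      refine mp_mem (P := fun _ => True) ?_ (by rw [mem_Sp]; exact fun _ _ => trivial)
      intro l _ a ha
      obtain ⟨_, _, rfl⟩ := List.mem_map.1 ha
      rfl
    refine cons_mem (fun l hl => hPQ _ ?_) h1
    intro a ha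
    rcases List.mem_cons.1 ha with h | h
    · exact h
    · exact hl a h
  · rw [bd_cons, bd_mp, hbz, map_zero, map_zero, sub_zero]

end Vale.Agent.P240.R2.H490
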