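import Mathlib.Algebra.BigOperators.Finprod
import Mathlib.Topology.Homotopy.Contractible
import Mathlib.Topology.MetricSpace.Pseudo.Pi

/-!
The geometric realization of the order complex of a finite poset.
-/

set_option autoImplicit false

namespace Vale.Agent.P240.R2.H490

/-- The geometric realization of the order complex of a finite poset `α`: the functions `t : α → ℝ`
with values `≥ 0` and sum `1` such that `{a | t a ≠ 0}` is a chain in `α`. -/
def Realization (α : Type*) [LE α] : Set (α → ℝ) :=
  {t | (∀ a, 0 ≤ t a) ∧ ∑ᶠ a, t a = 1 ∧ ∀ a b, t a ≠ 0 → t b ≠ 0 → a ≤ b ∨ b ≤ a}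

end Vale.Agent.P240.R2.H490
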