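import Mathlib.Analysis.Normed.Module.Convex
import Mathlib.Analysis.Normed.Lp.PiLp
import Mathlib.Topology.MetricSpace.ProperSpace.Real
import Vale.Agent.P240.R2.H490.Car
import Vale.Agent.P240.R2.H490.TDefs

/-!
A finite poset with nonzero reduced homology has a noncontractible order complex.
-/

set_option autoImplicit false
set_option linter.all false

namespace Vale.Agent.P240.R2.H490

open Finsupp Vale.Agent.P240.K Filter

/-! ### Small chains in convex sets -/

/-- lists of points in `C` of mutual distance less than `δ` -/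
def Sml {E : Type*} [PseudoMetricSpace E] (C : Set E) (δ : ℝ) (l : List E) : Prop :=
  (∀ a ∈ l, a ∈ C) ∧ ∀ a ∈ l, ∀ b ∈ l, dist a b < δ

lemma Sml.mono {E : Type*} [PseudoMetricSpace E] {C C' : Set E} {δ δ' : ℝ} (hC : C ⊆ C')
    (hδ : δ ≤ δ') (l : List E) (h : Sml C δ l) : Sml C' δ' l :=
  ⟨fun a ha => hC (h.1 a ha), fun a ha b hb => (h.2 a ha b hb).trans_le hδ⟩

lemma Sml.sub {E : Type*} [PseudoMetricSpace E] {C : Set E} {δ : ℝ} (l l' : List E)
    (hs : l'.Sublist l) (h : Sml C δ l) : Sml C δ l' :=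
  ⟨fun a ha => h.1 a (hs.subset ha), fun a ha b hb => h.2 a (hs.subset ha) b (hs.subset hb)⟩

section
variable {𝕜 : Type*} [Field 𝕜] {E : Type*} [NormedAddCommGroup E] [NormedSpace ℝ E]

lemma mp_id' {α : Type*} (z : Ch 𝕜 α) {f : α → α} (hf : ∀ x, f x = x) : mp f z = z := by
  have := lin_ext_apply (f := mp f) (g := (LinearMap.id : Ch 𝕜 α →ₗ[𝕜] Ch 𝕜 α))
    (fun l => by
      have : l.map f = l := by
        rw [show f = id from funext hf, List.map_id]
      simp [this]) z
  simpa using this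

lemma mp_congr {α β : Type*} {P : List α → Prop} {z : Ch 𝕜 α} (hz : z ∈ Sp 𝕜 P) {f g : α → β}
    (hf : ∀ l, P l → ∀ x ∈ l, f x = g x) : mp f z = mp g z :=
  eq_of_Sp (fun l hl => by
    rw [mp_single, mp_single, List.map_congr_left (hf l hl)]) hz

/-- small chains in a convex set -/
theorem small_acyclic {C : Set E} (hC : Convex ℝ C) (hne : C.Nonempty) {δ : ℝ}
    {z : Ch 𝕜 E} (hz : z ∈ Sp 𝕜 (Sml C δ)) (hδ : 0 < δ) (hbz : bd z = 0) :
    ∃ c ∈ Sp 𝕜 (Sml C δ), bd c = z := by
  obtain ⟨b, hb⟩ := hne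
  rw [mem_Sp] at hz
  have hev : ∀ᶠ N : ℕ in atTop, ∀ l ∈ z.support, ∀ x ∈ l, ∀ y ∈ l,
      dist x y + dist y b / N < δ := by
    rw [Filter.eventually_all_finset]
    intro l hl
    have h1 := (Filter.eventually_all_finite (l := (atTop : Filter ℕ)) (List.finite_toSet l)
      (p := fun x N => ∀ y ∈ l, dist x y + dist y b / N < δ)).2 fun x hx => by
        refine (Filter.eventually_all_finite (l := (atTop : Filter ℕ)) (List.finite_toSet l)
          (p := fun y N => dist x y + dist y b / N < δ)).2 fun y hy => ?_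
        have h2 : Tendsto (fun N : ℕ => dist x y + dist y b / N) atTop (nhds (dist x y + 0)) :=
          (tendsto_const_div_atTop_nhds_zero_nat (dist y b)).const_add _
        rw [add_zero] at h2
        exact h2.eventually (gt_mem_nhds ((hz l hl).2 x hx y hy))
    exact h1
  obtain ⟨N, hN, hN1⟩ := (hev.and (eventually_ge_atTop 1)).exists
  have hN0 : (0 : ℝ) < N := by exact_mod_cast hN1
  set g : ℕ → E → E := fun i x => x + ((i : ℝ) / N) • (b - x) with hg
  have hstep : ∀ i < N, ∀ l, l ∈ z.support → ∀ m : List E,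
      (∀ a ∈ m, ∃ x ∈ l, a = g i x ∨ a = g (i + 1) x) → Sml C δ m := by
    intro i hi l hl m hm
    have hi0 : (0 : ℝ) ≤ (i : ℝ) / N := by positivity
    have hi1 : ((i + 1 : ℕ) : ℝ) / N ≤ 1 := by
      rw [div_le_one hN0]
      exact_mod_cast hi
    have hi2 : (i : ℝ) / N ≤ ((i + 1 : ℕ) : ℝ) / N := by
      gcongr
      exact_mod_cast Nat.le_succ i
    have hi3 : ((i + 1 : ℕ) : ℝ) / N - (i : ℝ) / N = 1 / N := by
      push_cast
      ring
    have hm' : ∀ a ∈ m, ∃ x ∈ l, ∃ s : ℝ, (i : ℝ) / N ≤ s ∧ s ≤ ((i + 1 : ℕ) : ℝ) / N ∧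
        a = x + s • (b - x) := by
      intro a ha
      obtain ⟨x, hx, h | h⟩ := hm a ha
      · exact ⟨x, hx, _, le_rfl, hi2, h⟩
      · exact ⟨x, hx, _, hi2, le_rfl, h⟩
    refine ⟨fun a ha => ?_, fun a ha a' ha' => ?_⟩
    · obtain ⟨x, hx, s, hs0, hs1, rfl⟩ := hm' a ha
      exact hC.add_smul_sub_mem ((hz l hl).1 x hx) hb ⟨hi0.trans hs0, hs1.trans hi1⟩
    · obtain ⟨x, hx, s, hs0, hs1, rfl⟩ := hm' a ha
      obtain ⟨y, hy, t, ht0, ht1, rfl⟩ := hm' a' ha'
      have e : x + s • (b - x) - (y + t • (b - y)) = (1 - s) • (x - y) + (s - t) • (b - y) := by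
        module
      rw [dist_eq_norm, e]
      refine lt_of_le_of_lt (norm_add_le _ _) (lt_of_le_of_lt ?_ (hN l hl x hx y hy))
      rw [norm_smul, norm_smul, Real.norm_eq_abs, Real.norm_eq_abs, dist_eq_norm, dist_eq_norm,
        norm_sub_rev y b]
      have h1 : |1 - s| ≤ 1 := by
        rw [abs_le]
        constructor <;> linarith
      have h2 : |s - t| ≤ 1 / N := by
        rw [← hi3, abs_le]
        constructor <;> linarith
      calc _ ≤ 1 * ‖x - y‖ + 1 / N * ‖b - y‖ := by gcongr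
        _ = _ := by ring
  obtain ⟨c, hc, hbc⟩ := pr_chain hstep (z := z) (by rw [mem_Sp]; exact fun _ h => h) hbz
  obtain ⟨d, hd, hbd⟩ := const_bd (b := b) (P := fun _ => True) (Q := Sml C δ) (fun m hm =>
    ⟨fun a ha => by rw [hm a ha]; exact hb, fun a ha a' ha' => by
      rw [hm a ha, hm a' ha', dist_self]; exact hδ⟩) hbz
  refine ⟨d - c, Submodule.sub_mem _ hd hc, ?_⟩
  have h0 : mp (g 0) z = z := mp_id' z fun x => by simp [hg]
  have h1 : g N = fun _ => b := by
    funext x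
    simp [hg, div_self hN0.ne']
  rw [map_sub, hbd, hbc, h0, h1]
  abel

end

/-! ### Chains in finite posets -/

section
variable {𝕜 : Type*} [Field 𝕜] {α : Type*} [PartialOrder α]

lemma chain_acyclic {T : Set α} (hfin : T.Finite) (hne : T.Nonempty)
    (hT : ∀ a ∈ T, ∀ b ∈ T, a ≤ b ∨ b ≤ a) {z : Ch 𝕜 α} (hz : z ∈ Sp 𝕜 (st T))
    (hbz : bd z = 0) : ∃ c ∈ Sp 𝕜 (st T), bd c = z := by
  obtain ⟨F, hF⟩ := hfin.exists_minimal hne
  have hmin : ∀ x ∈ T, F ≤ x := fun x hx => (hT F hF.1 x hx).elim id fun h => hF.2 hx h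
  have hz' : z ∈ Sp 𝕜 (wk T) := Sp_mono st_wk hz
  have h1 : hc id F z ∈ Sp 𝕜 (wk T) :=
    hc_mem subset_rfl hF.1 (fun x hx => hx) hmin (fun x _ => le_rfl) (fun x _ y _ h => h) hz'
  refine ⟨pi (hc id F z), pi_mem h1, ?_⟩
  have h2 := bd_hc id F z
  rw [hbz, map_zero, add_zero] at h2
  rw [bd_pi h1, h2, pi_of_st hz]

lemma st_comp {l : List α} (hl : st (Set.univ : Set α) l) : ∀ a ∈ l, ∀ b ∈ l, a ≤ b ∨ b ≤ a :=
  fun a ha b hb => List.Pairwise.forall_of_forall_of_flip (R := fun a b : α => a ≤ b ∨ b ≤ a)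
    (fun a _ => Or.inl le_rfl) (hl.1.imp fun h => Or.inr (le_of_lt h))
    (hl.1.imp fun h => Or.inl (le_of_lt h)) ha hb

end

section
variable {α : Type*} [PartialOrder α] [Fintype α]

/-- the face of the realization spanned by a list of elements -/
def face (l : List α) : Set (α → ℝ) :=
  {t | (∀ a, 0 ≤ t a) ∧ ∑ a, t a = 1 ∧ ∀ a, t a ≠ 0 → a ∈ l}

omit [PartialOrder α] in
lemma face_mono (l l' : List α) (h : l'.Sublist l) : face l' ⊆ face l :=
  fun _ ht => ⟨ht.1, ht.2.1, fun a ha => h.subset (ht.2.2 a ha)⟩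

omit [PartialOrder α] in
lemma face_convex (l : List α) : Convex ℝ (face l) := by
  intro x hx y hy a b ha hb hab
  refine ⟨fun c => ?_, ?_, fun c hc => ?_⟩
  · have := hx.1 c
    have := hy.1 c
    simp only [Pi.add_apply, Pi.smul_apply, smul_eq_mul]
    positivity
  · simp only [Pi.add_apply, Pi.smul_apply, smul_eq_mul]
    rw [Finset.sum_add_distrib, ← Finset.mul_sum, ← Finset.mul_sum, hx.2.1, hy.2.1]
    linarith
  · by_contra hcl
    have h1 : x c = 0 := by
      by_contra h
      exact hcl (hx.2.2 c h)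
    have h2 : y c = 0 := by
      by_contra h
      exact hcl (hy.2.2 c h)
    simp [h1, h2] at hc

omit [PartialOrder α] in
lemma face_nonempty {l : List α} (hl : l ≠ []) : (face l).Nonempty := by
  classical
  obtain ⟨a, ha⟩ := List.exists_mem_of_ne_nil l hl
  refine ⟨Pi.single a 1, fun c => ?_, by simp, fun c hc => ?_⟩
  · by_cases h : c = a
    · subst h; simp
    · simp [Pi.single_eq_of_ne h]
  · by_cases h : c = a
    · rw [h]; exact ha
    · simp [Pi.single_eq_of_ne h] at hc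

lemma face_sub {l : List α} (hl : st (Set.univ : Set α) l) : face l ⊆ Realization α := by
  intro t ht
  refine ⟨ht.1, ?_, fun a b ha hb => st_comp hl a (ht.2.2 a ha) b (ht.2.2 b hb)⟩
  rw [finsum_eq_sum_of_fintype]
  exact ht.2.1

lemma real_le_one {t : α → ℝ} (ht : t ∈ Realization α) (a : α) : t a ≤ 1 := by
  rw [← ht.2.1, finsum_eq_sum_of_fintype]
  exact Finset.single_le_sum (fun b _ => ht.1 b) (Finset.mem_univ a)

lemma real_compact : IsCompact (Realization α) := by
  have h1 : IsCompact (Set.Icc (0 : α → ℝ) 1) := isCompact_Icc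
  refine h1.of_isClosed_subset ?_ fun t ht => ⟨fun a => ht.1 a, fun a => real_le_one ht a⟩
  have h2 : Realization α = (⋂ a, {t : α → ℝ | 0 ≤ t a}) ∩ {t | ∑ a, t a = 1} ∩
      ⋂ a, ⋂ b, {t | (a ≤ b ∨ b ≤ a) ∨ t a = 0 ∨ t b = 0} := by
    ext t
    simp only [Realization, Set.mem_setOf_eq, Set.mem_inter_iff, Set.mem_iInter,
      finsum_eq_sum_of_fintype]
    constructor
    · rintro ⟨h1, h2, h3⟩
      refine ⟨⟨h1, h2⟩, fun a b => ?_⟩
      by_cases ha : t a = 0
      · exact Or.inr (Or.inl ha)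
      by_cases hb : t b = 0
      · exact Or.inr (Or.inr hb)
      exact Or.inl (h3 a b ha hb)
    · rintro ⟨⟨h1, h2⟩, h3⟩
      refine ⟨h1, h2, fun a b ha hb => ?_⟩
      rcases h3 a b with h | h | h
      · exact h
      · exact absurd h ha
      · exact absurd h hb
  rw [h2]
  refine IsClosed.inter (IsClosed.inter ?_ ?_) ?_
  · exact isClosed_iInter fun a => isClosed_le continuous_const (continuous_apply a)
  · exact isClosed_eq (continuous_finsetSum _ fun a _ => continuous_apply a) continuous_const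
  · refine isClosed_iInter fun a => isClosed_iInter fun b => ?_
    by_cases h : a ≤ b ∨ b ≤ a
    · have : {t : α → ℝ | (a ≤ b ∨ b ≤ a) ∨ t a = 0 ∨ t b = 0} = Set.univ := by
        ext t; simp [h]
      rw [this]
      exact isClosed_univ
    · have : {t : α → ℝ | (a ≤ b ∨ b ≤ a) ∨ t a = 0 ∨ t b = 0} =
          {t | t a = 0} ∪ {t | t b = 0} := by
        ext t; simp [h]
      rw [this]
      exact (isClosed_eq (continuous_apply a) continuous_const).union
        (isClosed_eq (continuous_apply b) continuous_const)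

/-- a coordinate that is not small -/
lemma real_large {t : α → ℝ} (ht : t ∈ Realization α) :
    ∃ a, 1 / (Fintype.card α : ℝ) ≤ t a := by
  by_contra hcon
  push Not at hcon
  have h1 := ht.2.1
  rw [finsum_eq_sum_of_fintype] at h1
  have hne : (Finset.univ : Finset α).Nonempty := by
    rw [Finset.nonempty_iff_ne_empty]
    intro h
    rw [h, Finset.sum_empty] at h1
    norm_num at h1
  have h2 := Finset.sum_lt_sum_of_nonempty hne (fun a _ => hcon a)
  have h3 : (0 : ℝ) < Fintype.card α := by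
    have := Finset.card_pos.2 hne
    rw [Finset.card_univ] at this
    exact_mod_cast this
  rw [h1, Finset.sum_const, Finset.card_univ, nsmul_eq_mul, mul_one_div, div_self h3.ne'] at h2
  exact lt_irrefl _ h2

end

section
variable {𝕜 : Type*} [Field 𝕜]

/-- **A finite poset with nonzero reduced homology has a noncontractible order complex.** -/
theorem not_contractible {α : Type*} [PartialOrder α] [Finite α] (h : HomologyNonzero 𝕜 α) :
    ¬ ContractibleSpace (Realization α) := by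
  classical
  intro hcon
  have hfin : Fintype α := Fintype.ofFinite α
  rw [official_iff] at h
  obtain ⟨z, hz, hbz, hne⟩ := h
  have hcomp : CompactSpace (Realization α) := isCompact_iff_compactSpace.1 real_compact
  obtain ⟨y, ⟨H⟩⟩ := id_nullhomotopic (Realization α)
  have hcard : (0 : ℝ) < Fintype.card α := by
    obtain ⟨a, -⟩ := real_large y.2
    exact_mod_cast Fintype.card_pos_iff.2 ⟨a⟩
  have hlarge : ∀ t : α → ℝ, ∃ a, t ∈ Realization α → 1 / (Fintype.card α : ℝ) ≤ t a := by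
    intro t
    by_cases ht : t ∈ Realization α
    · obtain ⟨a, ha⟩ := real_large ht
      exact ⟨a, fun _ => ha⟩
    · obtain ⟨a, -⟩ := real_large y.2
      exact ⟨a, fun h => absurd h ht⟩
  choose v hv using hlarge
  set ε : ℝ := 1 / (Fintype.card α : ℝ) with hε
  have hε0 : 0 < ε := by positivity
  -- uniform continuity
  have huc : UniformContinuous (H : unitInterval × Realization α → Realization α) :=
    CompactSpace.uniformContinuous_of_continuous H.continuous
  obtain ⟨δ₀, hδ₀, hδ⟩ := Metric.uniformContinuous_iff.1 huc ε hε0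
  set δ : ℝ := min δ₀ ε with hδd
  have hδ0 : 0 < δ := lt_min hδ₀ hε0
  obtain ⟨k, hk⟩ := exists_nat_one_div_lt hδ₀
  set τ : ℕ → unitInterval := fun i => Set.projIcc 0 1 zero_le_one ((i : ℝ) / (k + 1)) with hτ
  have hτd : ∀ i, dist (τ i) (τ (i + 1)) < δ₀ := by
    intro i
    refine lt_of_le_of_lt ?_ hk
    rw [Subtype.dist_eq, Real.dist_eq]
    refine (Set.abs_projIcc_sub_projIcc zero_le_one).trans ?_
    have : ((i : ℝ) / (k + 1)) - (((i + 1 : ℕ) : ℝ) / (k + 1)) = - (1 / (k + 1)) := by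
      push_cast
      ring
    rw [this, abs_neg, abs_of_nonneg (by positivity)]
  have hτ0 : τ 0 = 0 := by
    simp only [hτ, Nat.cast_zero, zero_div]
    exact Set.projIcc_left _
  have hτ1 : τ (k + 1) = 1 := by
    have : ((k + 1 : ℕ) : ℝ) / (k + 1) = 1 := by
      push_cast
      exact div_self (by positivity)
    simp only [hτ, this]
    exact Set.projIcc_right _
  set g : ℕ → (α → ℝ) → (α → ℝ) := fun i x =>
    if hx : x ∈ Realization α then (H (τ i, ⟨x, hx⟩)).1 else x with hg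
  have hgR : ∀ i x (hx : x ∈ Realization α), g i x = (H (τ i, ⟨x, hx⟩)).1 := fun i x hx => by
    simp only [hg, dif_pos hx]
  have hstep : ∀ i < k + 1, ∀ l, Sml (Realization α) δ l → ∀ m : List (α → ℝ),
      (∀ a ∈ m, ∃ x ∈ l, a = g i x ∨ a = g (i + 1) x) → Sml (Realization α) ε m := by
    intro i _ l hl m hm
    have hm' : ∀ a ∈ m, ∃ (x : α → ℝ) (hx : x ∈ Realization α), x ∈ l ∧
        ∃ j, (j = i ∨ j = i + 1) ∧ a = (H (τ j, ⟨x, hx⟩)).1 := by
      intro a ha
      obtain ⟨x, hx, h | h⟩ := hm a ha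
      · exact ⟨x, hl.1 x hx, hx, i, Or.inl rfl, by rw [h, hgR i x (hl.1 x hx)]⟩
      · exact ⟨x, hl.1 x hx, hx, i + 1, Or.inr rfl, by rw [h, hgR (i + 1) x (hl.1 x hx)]⟩
    refine ⟨fun a ha => ?_, fun a ha a' ha' => ?_⟩
    · obtain ⟨x, hx, -, j, -, rfl⟩ := hm' a ha
      exact (H (τ j, ⟨x, hx⟩)).2
    · obtain ⟨x, hx, hxl, j, hj, rfl⟩ := hm' a ha
      obtain ⟨x', hx', hxl', j', hj', rfl⟩ := hm' a' ha'
      have h1 : dist (τ j) (τ j') < δ₀ := by
        rcases hj with rfl | rfl <;> rcases hj' with rfl | rfl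
        · rw [dist_self]; exact hδ₀
        · exact hτd _
        · rw [dist_comm]; exact hτd _
        · rw [dist_self]; exact hδ₀
      have h2 : dist x x' < δ₀ := (hl.2 x hxl x' hxl').trans_le (min_le_left _ _)
      have h3 := hδ (a := ((τ j, ⟨x, hx⟩) : unitInterval × Realization α))
        (b := (τ j', ⟨x', hx'⟩)) (by
          rw [Prod.dist_eq]
          exact max_lt h1 h2)
      exact h3
  -- subdivision
  have hcar : Car (𝕜 := 𝕜) (st (Set.univ : Set α)) (fun l => Sp 𝕜 (Sml (face l) δ)) :=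
    { sub := fun l l' h => st_sub l l' h
      mono := fun l l' h _ => Sp_mono (Sml.mono (face_mono l l' h) le_rfl)
      acyc := fun l _ hl z hz hbz =>
        small_acyclic (face_convex l) (face_nonempty hl) hz hδ0 hbz }
  obtain ⟨s, hs0, hs⟩ := hcar.exists_map (single_mem_Sp ⟨by simp, by simp⟩ _)
  have hsz : s z ∈ Sp 𝕜 (Sml (Realization α) δ) :=
    map_mem s (fun l hl => Sp_mono (Sml.mono (face_sub hl) le_rfl) (hs l hl).1) hz
  have hbs : bd (s z) = 0 := by
    rw [bd_comm (fun l hl => (hs l hl).2) hz, hbz, map_zero]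
  -- the homotopy
  obtain ⟨c1, hc1, hbc1⟩ := pr_chain hstep hsz hbs
  obtain ⟨c2, hc2, hbc2⟩ := const_bd (b := y.1) (P := fun _ => True)
    (Q := Sml (Realization α) ε) (fun m hm =>
      ⟨fun a ha => by rw [hm a ha]; exact y.2, fun a ha a' ha' => by
        rw [hm a ha, hm a' ha', dist_self]; exact hε0⟩) hbs
  have hg0 : mp (g 0) (s z) = s z := by
    refine (mp_congr (g := id) hsz fun l hl x hx => ?_).trans (mp_id' _ fun _ => rfl)
    rw [hgR 0 x (hl.1 x hx), hτ0]
    exact congrArg Subtype.val (H.apply_zero _)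
  have hg1 : mp (g (k + 1)) (s z) = mp (fun _ => y.1) (s z) := by
    refine mp_congr hsz fun l hl x hx => ?_
    rw [hgR (k + 1) x (hl.1 x hx), hτ1]
    exact congrArg Subtype.val (H.apply_one _)
  have hw : c2 - c1 ∈ Sp 𝕜 (Sml (Realization α) ε) := Submodule.sub_mem _ hc2 hc1
  have hbw : bd (c2 - c1) = s z := by
    rw [map_sub, hbc2, hbc1, hg0, hg1]
    abel
  -- back to the poset
  have hcar2 : Car (𝕜 := 𝕜) (Sml (Realization α) ε)
      (fun m => Sp 𝕜 (st {b : α | ∃ x ∈ m, v x = b})) :=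
    { sub := fun l l' h => Sml.sub l l' h
      mono := fun l l' h _ => Sp_mono (st_mono (by
        rintro _ ⟨x, hx, rfl⟩
        exact ⟨x, h.subset hx, rfl⟩))
      acyc := by
        intro m hm hm0 z hz hbz
        refine chain_acyclic (Set.toFinite _) ?_ ?_ hz hbz
        · obtain ⟨x, hx⟩ := List.exists_mem_of_ne_nil m hm0
          exact ⟨v x, x, hx, rfl⟩
        · rintro _ ⟨x, hx, rfl⟩ _ ⟨x', hx', rfl⟩
          refine (hm.1 x hx).2.2 _ _ ?_ ?_
          · exact (hε0.trans_le (hv x (hm.1 x hx))).ne'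
          · have h1 := hv x' (hm.1 x' hx')
            have h2 : dist (x (v x')) (x' (v x')) < ε :=
              (dist_le_pi_dist x x' (v x')).trans_lt (hm.2 x hx x' hx')
            rw [Real.dist_eq, abs_lt] at h2
            intro h3
            linarith [h2.1] }
  obtain ⟨φ, hφ0, hφ⟩ := hcar2.exists_map (single_mem_Sp ⟨by simp, by simp⟩ _)
  have hcar3 : Car (𝕜 := 𝕜) (st (Set.univ : Set α)) (fun l => Sp 𝕜 (st {b : α | b ∈ l})) :=
    { sub := fun l l' h => st_sub l l' h
      mono := fun l l' h _ => Sp_mono (st_mono fun b hb => h.subset hb)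
      acyc := fun l hl hl0 z hz hbz => chain_acyclic (Set.toFinite _)
        (List.exists_mem_of_ne_nil l hl0) (fun a ha b hb => st_comp hl a ha b hb) hz hbz }
  have hδε : δ ≤ ε := min_le_right _ _
  have hF : ∀ l, st (Set.univ : Set α) l → (φ.comp s) (single l 1) ∈ Sp 𝕜 (st {b : α | b ∈ l}) ∧
      bd ((φ.comp s) (single l 1)) = (φ.comp s) (bd (single l 1)) := by
    intro l hl
    have h1 := (hs l hl).1
    have h2 : s (single l 1) ∈ Sp 𝕜 (Sml (Realization α) ε) :=
      Sp_mono (Sml.mono (face_sub hl) hδε) h1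
    refine ⟨map_mem φ (fun m hm => ?_) h1, ?_⟩
    · have h3 : Sml (Realization α) ε m := Sml.mono (face_sub hl) hδε m hm
      refine Sp_mono (st_mono ?_) (hφ m h3).1
      rintro _ ⟨x, hx, rfl⟩
      exact (hm.1 x hx).2.2 _ (hε0.trans_le (hv x (h3.1 x hx))).ne'
    · rw [LinearMap.comp_apply, LinearMap.comp_apply, bd_comm (fun m hm => (hφ m hm).2) h2,
        (hs l hl).2]
  obtain ⟨D, hD, hbD⟩ := hcar3.homotopy (F := φ.comp s) (G := LinearMap.id) (z := z)
    (by simp [hs0, hφ0]) hF (fun l hl => ⟨single_mem_Sp ⟨hl.1, fun a ha => ha⟩ _, rfl⟩) hz hbz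
  refine hne (φ (c2 - c1) - D z) (Submodule.sub_mem _ ?_ ?_) ?_
  · exact map_mem φ (fun m hm => Sp_mono (st_mono (Set.subset_univ _)) (hφ m hm).1) hw
  · exact map_mem D (fun l hl => Sp_mono (st_mono (Set.subset_univ _)) (hD l hl)) hz
  · rw [map_sub, bd_comm (fun m hm => (hφ m hm).2) hw, hbw, hbD]
    simp

/-- `𝒜ₚ(G)` -/
theorem hq_not_contractible {p : ℕ} {G : Type*} [Group G] [Finite G] (h : HQ 𝕜 p G) :
    ¬ ContractibleSpace (Realization (Ap p G)) :=
  not_contractible h

end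

end Vale.Agent.P240.R2.H490
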