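import Vale.Agent.P240.R2.H490.P5W4
import Vale.Agent.P240.R2.H979.Num
import Vale.Agent.P240.H138.T6

/-!
Block (L): `PSL_n(F)`, `n ≥ 8` a power of two, `|F| = 5, 25`.
-/

set_option autoImplicit false
set_option linter.all false

namespace Vale.Agent.P240.R2.H490

open Subgroup Matrix Vale.Agent.P240 Vale.Agent.P240.K Vale.Agent.P240.H195 Vale.Agent.P240.R2.H487

universe u v w

section
variable {F : Type} [Field F] (ι : ZMod 5 →+* F)

lemma ra_iota (τ : RingAut F) (x : ZMod 5) : τ (ι x) = ι x := by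
  have h1 : (τ : F →+* F).comp ι = ι := Subsingleton.elim _ _
  exact DFunLike.congr_fun h1 x

/-- the automorphisms of the fields with 5 and 25 elements -/
lemma exists_tau [Finite F] (hq : Nat.card F = 5 ∨ Nat.card F = 25) :
    ∃ τ : RingAut F, τ * τ = 1 ∧ (∀ τ' : RingAut F, τ' = 1 ∨ τ' = τ) ∧
      (τ ≠ 1 → ∃ α : F, α * α = ι 2 ∧ τ α = -α) := by
  classical
  have := Fintype.ofFinite F
  rcases hq with hq | hq
  · have hbij : Function.Bijective ι := by
      rw [Fintype.bijective_iff_injective_and_card]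
      refine ⟨ι.injective, ?_⟩
      rw [ZMod.card, ← Nat.card_eq_fintype_card, hq]
    refine ⟨1, one_mul 1, fun τ' => Or.inl ?_, fun h => absurd rfl h⟩
    ext x
    obtain ⟨y, rfl⟩ := hbij.2 x
    exact ra_iota ι τ' y
  · have h2 : (2 : F) ≠ 0 := two_ne0 ι
    have hch : ringChar F ≠ 2 := by
      intro h0
      have h3 : ((2 : ℕ) : F) = 0 := by
        rw [← h0]
        exact ringChar.Nat.cast_ringChar
      exact h2 (by exact_mod_cast h3)
    obtain ⟨α, hα⟩ : IsSquare (ι 2) := by
      rw [FiniteField.isSquare_iff hch]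
      · rw [← Nat.card_eq_fintype_card, hq, ← map_pow]
        have h3 : (2 : ZMod 5) ^ (25 / 2) = 1 := by decide
        rw [h3, map_one]
      · rw [Ne, map_eq_zero]
        decide
    have hαι : ∀ b : ZMod 5, α ≠ ι b := by
      rintro b rfl
      have h3 : b * b = 2 := ι.injective (by rw [map_mul, hα])
      have h4 : ∀ b : ZMod 5, b * b ≠ 2 := by decide
      exact h4 b h3
    have hbij : Function.Bijective (fun p : ZMod 5 × ZMod 5 => ι p.1 + ι p.2 * α) := by
      rw [Fintype.bijective_iff_injective_and_card]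
      constructor
      · rintro ⟨s, t⟩ ⟨s', t'⟩ h
        simp only at h
        by_cases ht : t = t'
        · subst ht
          have h3 : ι s = ι s' := add_right_cancel h
          rw [ι.injective h3]
        · exfalso
          have ht' : t - t' ≠ 0 := sub_ne_zero.2 ht
          refine hαι ((s' - s) / (t - t')) ?_
          have h3 : ι (t - t') ≠ 0 := by rwa [Ne, map_eq_zero]
          rw [map_div₀, eq_div_iff h3, map_sub, map_sub]
          linear_combination h
      · rw [Fintype.card_prod, ZMod.card, ← Nat.card_eq_fintype_card, hq]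
    have hdet : ∀ τ' τ'' : RingAut F, τ' α = τ'' α → τ' = τ'' := by
      intro τ' τ'' h
      ext x
      obtain ⟨⟨s, t⟩, rfl⟩ := hbij.2 x
      simp only [map_add, map_mul, ra_iota, h]
    have hpm : ∀ τ' : RingAut F, τ' α = α ∨ τ' α = -α := by
      intro τ'
      apply mul_self_eq_mul_self_iff.1
      rw [← map_mul, ← hα, ra_iota]
    by_cases hex : ∃ τ : RingAut F, τ α = -α
    · obtain ⟨τ, hτ⟩ := hex
      refine ⟨τ, hdet _ _ ?_, fun τ' => ?_, fun _ => ⟨α, hα.symm, hτ⟩⟩
      · show τ (τ α) = α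
        rw [hτ, map_neg, hτ, neg_neg]
      · rcases hpm τ' with h | h
        · exact Or.inl (hdet _ _ h)
        · exact Or.inr (hdet _ _ (h.trans hτ.symm))
    · push Not at hex
      exact ⟨1, one_mul 1, fun τ' => Or.inl (hdet _ _ ((hpm τ').resolve_right (hex τ'))),
        fun h => absurd rfl h⟩

end

/-- **`AutTop` for `PSL_n(F)`.** -/
theorem psl_autTop5 {𝕜 : Type v} [Field 𝕜] {F : Type} [Field F] [Finite F] {a m : ℕ}
    (hn : m + 1 = 2 ^ a) (ha : 3 ≤ a) (hq : Nat.card F = 5 ∨ Nat.card F = 25)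
    (hs : IsSimpleGroup (PL m F)) : AutTop 𝕜 (PL m F) := by
  obtain ⟨r, hr, hchar⟩ := exists_char F
  have hr5 : r = 5 := by
    have := Fintype.ofFinite F
    obtain ⟨n, -, hn⟩ := FiniteField.card F r
    rw [← Nat.card_eq_fintype_card] at hn
    have h1 : r ∣ Nat.card F := by
      rw [hn]
      exact dvd_pow_self r n.ne_zero
    have h2 : r ∣ 5 ^ 2 := by
      rcases hq with hq | hq
      · rw [hq] at h1
        exact h1.trans (by norm_num)
      · rw [hq] at h1
        exact h1
    exact (Nat.prime_dvd_prime_iff_eq hr.out (by norm_num)).1 (hr.out.dvd_of_dvd_pow h2)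
  subst hr5
  have hm : 2 ≤ m := by
    have : 2 ^ 3 ≤ 2 ^ a := Nat.pow_le_pow_right (by norm_num) ha
    omega
  obtain ⟨τ, h1, h2, h3⟩ := exists_tau (ZMod.castHom (dvd_refl 5) F) hq
  have σ : Fin (m + 1) ≃ (Fin a → Fin 2) := (Fintype.equivFinOfCardEq (by
    rw [Fintype.card_fun, Fintype.card_fin, Fintype.card_fin, hn])).symm
  exact autTop5 (ZMod.castHom (dvd_refl 5) F) σ ha (by omega)
    (fun g => aut_psl (r := 5) hm hs g) h1 h2 h3

/-- the case of a number `n` -/
lemma stmtL_aux {F : Type} [Field F] [Finite F] (𝕜 : Type w) [Field 𝕜] {a : ℕ} (ha : 3 ≤ a)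
    (hq : Nat.card F = 5 ∨ Nat.card F = 25) {L : Type v} [Group L] (hL : IsSimpleGroup L) (n : ℕ)
    (hn : n = 2 ^ a) (e : L ≃* ProjectiveSpecialLinearGroup (Fin n) F) {G : Type v} [Group G]
    [Finite G] {M : Subgroup G} (e' : L ≃* M) : LocTopF 𝕜 2 M := by
  obtain ⟨m, rfl⟩ : ∃ m, n = m + 1 := ⟨n - 1, by
    have : 0 < n := by rw [hn]; positivity
    omega⟩
  have hs : IsSimpleGroup (PL m F) := e.symm.isSimpleGroup
  obtain ⟨r, hr, hchar⟩ := exists_char F
  have hm : 1 ≤ m := by
    have : 2 ^ 3 ≤ 2 ^ a := Nat.pow_le_pow_right (by norm_num) ha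
    omega
  exact H979.locTopF_of_autTop (e.symm.trans e') (psl_centreless (F := F) (m := m) (r := r) hm)
    (psl_autTop5 hn ha hq hs)

/-- **Block (L).** -/
theorem stmtL : H138.T6.StmtL.{v, w} := by
  intro F _ _ 𝕜 _ a ha hq L _ hL e G _ _ M ⟨e'⟩
  have key : ∀ n : ℕ, n = 2 ^ a → (L ≃* ProjectiveSpecialLinearGroup (Fin n) F) →
      LocTopF 𝕜 2 M := by
    intro n hn e
    exact stmtL_aux 𝕜 ha hq hL n hn e e'
  exact key _ rfl e

end Vale.Agent.P240.R2.H490
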