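import Vale.Agent.P240.R2.H490.P5T

/-!
The twisted Pauli group, the graph automorphism, the field automorphisms.
-/

set_option autoImplicit false
set_option linter.all false

namespace Vale.Agent.P240.R2.H490

open Subgroup Matrix Vale.Agent.P240 Vale.Agent.P240.H195 Vale.Agent.P240.R2.H487

universe u v w

instance fact5 : Fact (Nat.Prime 5) := ⟨by norm_num⟩

/-- the base matrices -/
def bb : Fin 3 → M2 (ZMod 5) := ![!![0, 1; 2, 0], !![1, 0; 0, -1], !![0, -1; 2, 0]]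

/-- the values -/
def db : Fin 3 → ZMod 5 := ![3, 4, 2]

lemma bb_sq : ∀ i, bb i * bb i = (-(db i)) • 1 := by decide

lemma bb_anti : ∀ i j, i ≠ j → bb i * bb j = -(bb j * bb i) := by decide

lemma bb_two : bb 0 * bb 1 = bb 2 := by decide

section
variable {F : Type*} [Field F] (ι : ZMod 5 →+* F)

/-- the base matrices over `F` -/
def bF (i : Fin 3) : M2 F := (bb i).map ι

lemma map_mulR {F' : Type*} [Field F'] {R : Type*} [CommRing R] (τ : R →+* F') (x y : M2 R) :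
    (x * y).map τ = x.map τ * y.map τ := Matrix.map_mul

lemma bF_sq (i : Fin 3) : bF ι i * bF ι i = (-(ι (db i))) • 1 := by
  rw [bF, ← map_mulR, bb_sq]
  ext b c
  rw [Matrix.map_apply, Matrix.smul_apply, Matrix.smul_apply, Matrix.one_apply, Matrix.one_apply]
  split_ifs
  · simp
  · simp

lemma bF_anti (i j : Fin 3) (h : i ≠ j) : bF ι i * bF ι j = -(bF ι j * bF ι i) := by
  rw [bF, bF, ← map_mulR, ← map_mulR, bb_anti i j h]
  ext b c
  rw [Matrix.map_apply, Matrix.neg_apply, Matrix.neg_apply, Matrix.map_apply, map_neg]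

lemma bF_two' : bF ι 0 * bF ι 1 = bF ι 2 := by
  rw [bF, bF, bF, ← map_mulR, bb_two]

lemma bF_0 : bF ι 0 = !![0, 1; 2, 0] := by
  have h2 : ι 2 = 2 := map_ofNat ι 2
  ext b c
  fin_cases b <;> fin_cases c <;> simp [bF, bb, h2]

lemma bF_1 : bF ι 1 = !![1, 0; 0, -1] := by
  ext b c
  fin_cases b <;> fin_cases c <;> simp [bF, bb]

lemma bF_2 : bF ι 2 = !![0, -1; 2, 0] := by
  have h2 : ι 2 = 2 := map_ofNat ι 2
  ext b c
  fin_cases b <;> fin_cases c <;> simp [bF, bb, h2]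

lemma db_ne : ∀ i, db i ≠ 0 := by decide

include ι in
lemma two_ne0 : (2 : F) ≠ 0 := by
  have h1 : ι 2 = 2 := map_ofNat ι 2
  rw [← h1, Ne, map_eq_zero]
  decide

/-- the base matrices as units -/
def uB (i : Fin 3) : GL (Fin 2) F where
  val := bF ι i
  inv := (-(ι (db i)))⁻¹ • bF ι i
  val_inv := by
    rw [mul_smul_comm, bF_sq, smul_smul, inv_mul_cancel₀, one_smul]
    rw [neg_ne_zero, Ne, map_eq_zero]
    exact db_ne i
  inv_val := by
    rw [smul_mul_assoc, bF_sq, smul_smul, inv_mul_cancel₀, one_smul]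
    rw [neg_ne_zero, Ne, map_eq_zero]
    exact db_ne i

lemma uB_val (i : Fin 3) : (uB ι i).1 = bF ι i := rfl

/-- every matrix of size two is a combination -/
lemma M2_span (x : M2 F) : ∃ c0 c1 c2 c3 : F,
    x = c0 • 1 + c1 • bF ι 0 + c2 • bF ι 1 + c3 • (bF ι 0 * bF ι 1) := by
  have h2 := two_ne0 ι
  refine ⟨(x 0 0 + x 1 1) / 2, (x 1 0 / 2 + x 0 1) / 2, (x 0 0 - x 1 1) / 2,
    (x 1 0 / 2 - x 0 1) / 2, ?_⟩
  rw [bF_two', bF_0, bF_1, bF_2]
  ext b c
  fin_cases b <;> fin_cases c <;> simp <;> field_simp <;> ring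

/-- the four elements -/
def vv (s : Bool × Bool) : GL (Fin 2) F := (if s.1 then uB ι 0 else 1) * (if s.2 then uB ι 1 else 1)

/-- signs -/
def sB (b : Bool) : F := if b then -1 else 1

lemma vv_0 (s : Bool × Bool) : (vv ι s).1 * bF ι 0 = (sB s.2 : F) • (bF ι 0 * (vv ι s).1) := by
  have h10 := bF_anti ι 1 0 (by decide)
  obtain ⟨s, t⟩ := s
  cases s <;> cases t
  · simp [vv, sB]
  · simp only [vv, sB, if_true, Bool.false_eq_true, if_false, one_mul, neg_smul, one_smul]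
    exact h10
  · simp [vv, sB, uB_val]
  · simp only [vv, sB, if_true, Units.val_mul, uB_val, neg_smul, one_smul]
    rw [mul_assoc, h10, mul_neg]

lemma vv_1 (s : Bool × Bool) : (vv ι s).1 * bF ι 1 = (sB s.1 : F) • (bF ι 1 * (vv ι s).1) := by
  have h01 := bF_anti ι 0 1 (by decide)
  obtain ⟨s, t⟩ := s
  cases s <;> cases t
  · simp [vv, sB]
  · simp [vv, sB, uB_val]
  · simp only [vv, sB, if_true, Bool.false_eq_true, if_false, mul_one, neg_smul, one_smul]
    exact h01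
  · simp only [vv, sB, if_true, Units.val_mul, uB_val, neg_smul, one_smul]
    rw [← mul_assoc, ← neg_mul, ← h01]

end

section
variable {F : Type*} [Field F] {a m : ℕ} (ι : ZMod 5 →+* F) (σ : Fin (m + 1) ≃ (Fin a → Fin 2))

lemma GT_TT {g : Fin a → GL (Fin 2) F} {j : Fin a} {x : M2 F} {c : F}
    (h : (g j).1 * x = c • (x * (g j).1)) :
    (GT σ g).1 * TT σ j x = c • (TT σ j x * (GT σ g).1) := by
  rw [GT_val, TT, ← map_mul, ← map_mul]
  have h1 : (fun l => (g l).1) * (Pi.mulSingle j x : Fin a → M2 F) =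
      fun l => (if l = j then c else 1) • ((Pi.mulSingle j x : Fin a → M2 F) *
        (fun l => (g l).1)) l := by
    funext l
    rw [Pi.mul_apply, Pi.mul_apply]
    by_cases hl : l = j
    · subst hl
      rw [Pi.mulSingle_eq_same, if_pos rfl, h]
    · rw [Pi.mulSingle_eq_of_ne hl, if_neg hl, one_smul, mul_one, one_mul]
  rw [h1, TN_smul, Finset.prod_ite_eq' Finset.univ j, if_pos (Finset.mem_univ j)]

lemma TT_commutant' {T : Matrix (Fin (m + 1)) (Fin (m + 1)) F}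
    (h0 : ∀ j, T * TT σ j (bF ι 0) = TT σ j (bF ι 0) * T)
    (h1 : ∀ j, T * TT σ j (bF ι 1) = TT σ j (bF ι 1) * T) : ∃ c : F, T = c • 1 := by
  refine TT_commutant σ fun j x => ?_
  obtain ⟨c0, c1, c2, c3, rfl⟩ := M2_span ι x
  rw [TT_add, TT_add, TT_add, TT_smul, TT_smul, TT_smul, TT_smul, TT_one, ← TT_mul, mul_add,
    mul_add, mul_add, add_mul, add_mul, add_mul, mul_smul_comm, mul_smul_comm, mul_smul_comm,
    mul_smul_comm, smul_mul_assoc, smul_mul_assoc, smul_mul_assoc, smul_mul_assoc, mul_one, one_mul,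
    h0, h1, ← mul_assoc T, h0, mul_assoc _ T, h1, ← mul_assoc]

variable {r : ℕ} [hr : Fact r.Prime] [CharP F r]

lemma pgl_ker (r : ℕ) [Fact r.Prime] [CharP F r] (hm : 1 ≤ m) (U : GLm m F) :
    pgl m F U = 1 ↔ ∃ c : F, U.1 = c • 1 := by
  rw [pgl_apply]
  constructor
  · intro h
    obtain ⟨-, c, -, h3⟩ := sem_trivial (r := r) h hm
    exact ⟨c, by rw [h3, Algebra.algebraMap_eq_smul_one]⟩
  · rintro ⟨c, hc⟩
    refine sem_scalar (c := c) ?_
    rw [hc, Algebra.algebraMap_eq_smul_one]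

lemma pgl_eq (r : ℕ) [Fact r.Prime] [CharP F r] (hm : 1 ≤ m) {X Y : GLm m F} :
    pgl m F X = pgl m F Y ↔ ∃ c : F, X.1 = c • Y.1 := by
  have h1 : pgl m F X = pgl m F Y ↔ pgl m F (X * Y⁻¹) = 1 := by
    rw [map_mul, map_inv, mul_inv_eq_one]
  rw [h1, pgl_ker r hm]
  constructor
  · rintro ⟨a, ha⟩
    refine ⟨a, ?_⟩
    have h2 : X.1 = (X * Y⁻¹).1 * Y.1 := by
      rw [← Units.val_mul, inv_mul_cancel_right]
    rw [h2, ha, smul_mul_assoc, one_mul]
  · rintro ⟨a, ha⟩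
    refine ⟨a, ?_⟩
    rw [Units.val_mul, ha, smul_mul_assoc, ← Units.val_mul, mul_inv_cancel, Units.val_one]

/-- commuting elements of `PGL` -/
lemma pgl_comm (r : ℕ) [Fact r.Prime] [CharP F r] (hm : 1 ≤ m) {X Y : GLm m F} :
    pgl m F X * pgl m F Y = pgl m F Y * pgl m F X ↔ ∃ c : F, X.1 * Y.1 = c • (Y.1 * X.1) := by
  rw [← map_mul, ← map_mul, pgl_eq r hm, Units.val_mul, Units.val_mul]

/-- **The centralizer in `PGL`.** -/
theorem z1 (r : ℕ) [Fact r.Prime] [CharP F r] (hm : 1 ≤ m) {M : GLm m F}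
    (h : ∀ (j : Fin a) (i : Fin 3), i ≠ 2 →
      pgl m F M * pgl m F (gT σ j (uB ι i)) = pgl m F (gT σ j (uB ι i)) * pgl m F M) :
    ∃ v : Fin a → Bool × Bool, pgl m F M = pgl m F (GT σ fun j => vv ι (v j)) := by
  have h1 : ∀ (j : Fin a) (i : Fin 3), i ≠ 2 → ∃ b : Bool,
      M.1 * TT σ j (bF ι i) = (sB b : F) • (TT σ j (bF ι i) * M.1) := by
    intro j i hi
    obtain ⟨c, hc⟩ := (pgl_comm r hm).1 (h j i hi)
    rw [gT_val, uB_val] at hc
    have h2 : M.1 * (TT σ j (bF ι i) * TT σ j (bF ι i)) =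
        (c * c) • ((TT σ j (bF ι i) * TT σ j (bF ι i)) * M.1) := by
      rw [← mul_assoc, hc, smul_mul_assoc, mul_assoc, hc, mul_smul_comm, smul_smul, ← mul_assoc]
    rw [TT_mul, bF_sq, TT_scalar, mul_smul_comm, mul_one, smul_mul_assoc, one_mul, smul_smul] at h2
    have h3 : ((-(ι (db i))) - c * c * -(ι (db i))) • M.1 = 0 := by
      rw [sub_smul, h2, sub_self]
    have h4 : -(ι (db i)) ≠ 0 := by
      rw [neg_ne_zero, Ne, map_eq_zero]
      exact db_ne i
    have h5 : M.1 ≠ 0 := by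
      intro h0
      have h6 := mul_inv_val M
      rw [h0, zero_mul] at h6
      exact zero_ne_one h6
    have h6 : c * c = 1 := by
      have h7 := (smul_eq_zero.1 h3).resolve_right h5
      have h8 : (1 - c * c) * -(ι (db i)) = 0 := by linear_combination h7
      rcases mul_eq_zero.1 h8 with h9 | h9
      · exact (sub_eq_zero.1 h9).symm
      · exact absurd h9 h4
    rcases mul_self_eq_one_iff.1 h6 with h7 | h7
    · exact ⟨false, by rw [hc, h7]; rfl⟩
    · exact ⟨true, by rw [hc, h7]; rfl⟩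
  have h1' : ∀ j : Fin a, ∃ b : Bool × Bool,
      M.1 * TT σ j (bF ι 0) = (sB b.2 : F) • (TT σ j (bF ι 0) * M.1) ∧
      M.1 * TT σ j (bF ι 1) = (sB b.1 : F) • (TT σ j (bF ι 1) * M.1) := by
    intro j
    obtain ⟨b, hb⟩ := h1 j 0 (by decide)
    obtain ⟨b', hb'⟩ := h1 j 1 (by decide)
    exact ⟨(b', b), hb, hb'⟩
  choose v hv0 hv1 using h1'
  refine ⟨v, ?_⟩
  set g : GLm m F := GT σ fun j => vv ι (v j) with hg
  obtain ⟨c, hc⟩ : ∃ c : F, (M * g⁻¹).1 = c • 1 := by
    have hs : ∀ b : Bool, (sB b : F) * sB b = 1 := by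
      intro b
      cases b <;> simp [sB]
    have key : ∀ {j : Fin a} {x : M2 F} {b : Bool},
        M.1 * TT σ j x = (sB b : F) • (TT σ j x * M.1) →
        g.1 * TT σ j x = (sB b : F) • (TT σ j x * g.1) →
        (M * g⁻¹).1 * TT σ j x = TT σ j x * (M * g⁻¹).1 := by
      intro j x b h2 h3
      have h4 : TT σ j x * g.1 = (sB b : F) • (g.1 * TT σ j x) := by
        rw [h3, smul_smul, hs, one_smul]
      have h5 : (M * g⁻¹).1 * g.1 = M.1 := by
        rw [← Units.val_mul, inv_mul_cancel_right]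
      have h6 : ((M * g⁻¹).1 * TT σ j x) * g.1 = (TT σ j x * (M * g⁻¹).1) * g.1 := by
        rw [mul_assoc, h4, mul_smul_comm, ← mul_assoc, h5, h2, smul_smul, hs, one_smul, mul_assoc,
          h5]
      have h7 := congrArg (fun T => T * (g⁻¹).1) h6
      simp only [mul_assoc] at h7
      rw [mul_inv_val] at h7
      simpa only [mul_one, mul_assoc] using h7
    exact TT_commutant' ι σ (fun j => key (hv0 j) (GT_TT σ (vv_0 ι (v j))))
      fun j => key (hv1 j) (GT_TT σ (vv_1 ι (v j)))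
  rw [pgl_eq r hm]
  refine ⟨c, ?_⟩
  have h5 : (M * g⁻¹).1 * g.1 = M.1 := by
    rw [← Units.val_mul, inv_mul_cancel_right]
  rw [← h5, hc, smul_mul_assoc, one_mul]

end

end Vale.Agent.P240.R2.H490
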