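import Vale.Agent.P240.R2.H490.P5A
import Vale.Agent.P240.R2.H487.DO5

/-!
The graph automorphism and the field automorphisms.
-/

set_option autoImplicit false
set_option linter.all false

namespace Vale.Agent.P240.R2.H490

open Subgroup Matrix Vale.Agent.P240 Vale.Agent.P240.H195 Vale.Agent.P240.R2.H487

universe u v w

/-- the alternating matrix of size two -/
def uJ (F : Type*) [Field F] : GL (Fin 2) F where
  val := !![0, 1; -1, 0]
  inv := !![0, -1; 1, 0]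
  val_inv := by
    ext i j
    fin_cases i <;> fin_cases j <;> simp
  inv_val := by
    ext i j
    fin_cases i <;> fin_cases j <;> simp

section
variable {F : Type*} [Field F]

lemma uJ_val : (uJ F).1 = !![0, 1; -1, 0] := rfl

lemma uJ_inv_val : ((uJ F)⁻¹).1 = !![0, -1; 1, 0] := rfl

lemma uJ_tr (x : M2 F) : (uJ F).1 * xᵀ * ((uJ F)⁻¹).1 = !![x 1 1, -x 0 1; -x 1 0, x 0 0] := by
  have h1 : xᵀ = !![x 0 0, x 1 0; x 0 1, x 1 1] := by
    ext i j
    fin_cases i <;> fin_cases j <;> rfl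
  rw [uJ_val, uJ_inv_val, h1, Matrix.mul_fin_two, Matrix.mul_fin_two]
  ext i j
  fin_cases i <;> fin_cases j <;> simp

/-- the involution of the matrices of size two -/
lemma uJ_bar (x : M2 F) : (uJ F).1 * xᵀ * ((uJ F)⁻¹).1 * x = x.det • 1 := by
  rw [uJ_tr, Matrix.det_fin_two]
  conv_lhs => rw [Matrix.eta_fin_two x]
  rw [Matrix.mul_fin_two]
  ext i j
  fin_cases i <;> fin_cases j <;> simp <;> ring

lemma uJ_bar_neg (x : M2 F) (hx : x.trace = 0) : (uJ F).1 * xᵀ * ((uJ F)⁻¹).1 = -x := by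
  rw [Matrix.trace_fin_two] at hx
  rw [uJ_tr]
  ext i j
  fin_cases i <;> fin_cases j
  · show x 1 1 = -x 0 0
    linear_combination hx
  · rfl
  · rfl
  · show x 0 0 = -x 1 1
    linear_combination hx

lemma uJ_bar_one : (uJ F).1 * (1 : M2 F)ᵀ * ((uJ F)⁻¹).1 = 1 := by
  rw [Matrix.transpose_one, mul_one, ← Units.val_mul, mul_inv_cancel, Units.val_one]

end

section
variable {F : Type*} [Field F] {a m : ℕ} (σ : Fin (m + 1) ≃ (Fin a → Fin 2))

/-- the form -/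
def JJ : GLm m F := GT σ fun _ => uJ F

/-- the graph automorphism commuting with the Pauli group -/
def g0 : MulAut (PL m F) := pgl m F (JJ σ) * ind (itA m F)

/-- the involution of the matrix algebra -/
def br (M : Matrix (Fin (m + 1)) (Fin (m + 1)) F) : Matrix (Fin (m + 1)) (Fin (m + 1)) F :=
  (JJ (F := F) σ).1 * Mᵀ * ((JJ (F := F) σ)⁻¹).1

lemma br_add (M N : Matrix (Fin (m + 1)) (Fin (m + 1)) F) : br σ (M + N) = br σ M + br σ N := by
  rw [br, br, br, Matrix.transpose_add, mul_add, add_mul]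

lemma br_smul (c : F) (M : Matrix (Fin (m + 1)) (Fin (m + 1)) F) : br σ (c • M) = c • br σ M := by
  rw [br, br, Matrix.transpose_smul, mul_smul_comm, smul_mul_assoc]

lemma br_TN (g : Fin a → M2 F) :
    br σ (TN σ g) = TN σ fun j => (uJ F).1 * (g j)ᵀ * ((uJ F)⁻¹).1 := by
  have h1 : ((JJ (F := F) σ)⁻¹).1 = TN σ fun _ => ((uJ F)⁻¹).1 := by
    have h2 : (JJ (F := F) σ)⁻¹ = GT σ fun _ => (uJ F)⁻¹ := by
      rw [JJ, ← map_inv]
      rfl
    rw [h2, GT_val]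
  rw [br, h1, JJ, GT_val, TN_transpose, ← map_mul, ← map_mul]
  rfl

lemma br_TT (j : Fin a) (x : M2 F) :
    br σ (TT σ j x) = TT σ j ((uJ F).1 * xᵀ * ((uJ F)⁻¹).1) := by
  rw [TT, br_TN, TT]
  congr 1
  funext l
  by_cases h : l = j
  · subst h
    rw [Pi.mulSingle_eq_same, Pi.mulSingle_eq_same]
  · rw [Pi.mulSingle_eq_of_ne h, Pi.mulSingle_eq_of_ne h]
    exact uJ_bar_one

lemma br_TT_neg (j : Fin a) (x : M2 F) (hx : x.trace = 0) : br σ (TT σ j x) = -TT σ j x := by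
  rw [br_TT, uJ_bar_neg x hx, TT_neg]

lemma br_one : br σ (1 : Matrix (Fin (m + 1)) (Fin (m + 1)) F) = 1 := by
  rw [br, Matrix.transpose_one, mul_one, mul_inv_val]

lemma gt_mul (M N : GLm m F) : gt (M * N) = gt M * gt N := by
  apply Units.ext
  show ((M * N)⁻¹).1ᵀ = (M⁻¹).1ᵀ * (N⁻¹).1ᵀ
  rw [_root_.mul_inv_rev, Units.val_mul, Matrix.transpose_mul]

lemma gt_JJ : gt (JJ (F := F) σ) = JJ σ := by
  apply Units.ext
  show ((JJ (F := F) σ)⁻¹).1ᵀ = _
  have h2 : (JJ (F := F) σ)⁻¹ = GT σ fun _ => (uJ F)⁻¹ := by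
    rw [JJ, ← map_inv]
    rfl
  rw [h2, GT_val, TN_transpose, JJ, GT_val]
  congr 1
  funext j
  rw [uJ_val, uJ_inv_val]
  ext i k
  fin_cases i <;> fin_cases k <;> simp

lemma JJ_sq : ∃ c : F, c * c = 1 ∧ (JJ (F := F) σ).1 * (JJ (F := F) σ).1 = c • 1 := by
  refine ⟨∏ _j : Fin a, (-1 : F), ?_, ?_⟩
  · rw [← Finset.prod_mul_distrib]
    exact Finset.prod_eq_one fun j _ => by ring
  · rw [← map_one (TN (F := F) σ), ← TN_smul, JJ, GT_val, ← map_mul]
    congr 1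
    funext j
    rw [Pi.mul_apply, Pi.one_apply, uJ_val]
    ext i k
    fin_cases i <;> fin_cases k <;> simp

/-- conjugation by the graph automorphism -/
lemma g0_sem (U : GLm m F) : g0 σ * pgl m F U * g0 σ = pgl m F (JJ σ * gt U * JJ σ) := by
  have h1 : ind (itA m F) * pgl m F (U * JJ σ) * ind (itA m F) = pgl m F (gt (U * JJ σ)) :=
    it_sem _ _
  rw [map_mul, gt_mul, gt_JJ] at h1
  rw [mul_assoc (JJ σ), map_mul (pgl m F) (JJ σ), ← h1, g0]
  group

lemma g0_sq : g0 (F := F) σ * g0 σ = 1 := by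
  have h1 := g0_sem σ (1 : GLm m F)
  rw [map_one, mul_one] at h1
  rw [h1]
  have h2 : gt (1 : GLm m F) = 1 := by
    apply Units.ext
    show ((1 : GLm m F)⁻¹).1ᵀ = 1
    rw [inv_one, Units.val_one, Matrix.transpose_one]
  obtain ⟨c, -, hc⟩ := JJ_sq (F := F) σ
  rw [h2, mul_one, pgl_apply]
  refine sem_scalar (c := c) ?_
  rw [Units.val_mul, hc, Algebra.algebraMap_eq_smul_one]

/-- conjugation by the graph automorphism -/
lemma g0_conj (r : ℕ) [Fact r.Prime] [CharP F r] (hm : 1 ≤ m) {U W : GLm m F} {c : F}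
    (h : br σ U.1 * W.1 = c • 1) : g0 σ * pgl m F U * g0 σ = pgl m F W := by
  rw [g0_sem]
  obtain ⟨e, he, hJ⟩ := JJ_sq (F := F) σ
  -- the element
  have h1 : (JJ σ * gt U * JJ σ).1 * br σ U.1 = e • 1 := by
    rw [br, Units.val_mul, Units.val_mul]
    have h3 : (gt U).1 * U.1ᵀ = 1 := by
      show (U⁻¹).1ᵀ * U.1ᵀ = 1
      rw [← Matrix.transpose_mul, mul_inv_val, Matrix.transpose_one]
    calc (JJ (F := F) σ).1 * (gt U).1 * (JJ (F := F) σ).1 *
        ((JJ (F := F) σ).1 * U.1ᵀ * ((JJ (F := F) σ)⁻¹).1)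
        = (JJ (F := F) σ).1 * (gt U).1 * ((JJ (F := F) σ).1 * (JJ (F := F) σ).1) *
          (U.1ᵀ * ((JJ (F := F) σ)⁻¹).1) := by simp only [mul_assoc]
      _ = e • ((JJ (F := F) σ).1 * ((gt U).1 * U.1ᵀ) * ((JJ (F := F) σ)⁻¹).1) := by
          rw [hJ, mul_smul_comm, mul_one, smul_mul_assoc]
          simp only [mul_assoc]
      _ = e • 1 := by rw [h3, mul_one, mul_inv_val]
  symm
  rw [pgl_eq r hm]
  refine ⟨e * c, ?_⟩
  have h2 : (JJ σ * gt U * JJ σ).1 * (br σ U.1 * W.1) = e • W.1 := by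
    rw [← mul_assoc, h1, smul_mul_assoc, one_mul]
  rw [h, mul_smul_comm, mul_one] at h2
  have h4 := congrArg (fun A => e • A) h2
  simp only [smul_smul] at h4
  rw [he, one_smul] at h4
  exact h4.symm

/-- it commutes with tensor products -/
lemma g0_GT (r : ℕ) [Fact r.Prime] [CharP F r] (hm : 1 ≤ m) (g : Fin a → GL (Fin 2) F) :
    g0 σ * pgl m F (GT σ g) = pgl m F (GT σ g) * g0 σ := by
  have h1 : g0 σ * pgl m F (GT σ g) * g0 σ = pgl m F (GT σ g) := by
    refine g0_conj σ r hm (c := ∏ j, (g j).1.det) ?_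
    rw [GT_val, br_TN, ← map_mul, ← map_one (TN (F := F) σ), ← TN_smul]
    congr 1
    funext j
    rw [Pi.mul_apply, Pi.one_apply]
    exact uJ_bar _
  calc g0 σ * pgl m F (GT σ g) = g0 σ * pgl m F (GT σ g) * (g0 σ * g0 σ) := by rw [g0_sq, mul_one]
    _ = g0 σ * pgl m F (GT σ g) * g0 σ * g0 σ := by group
    _ = _ := by rw [h1]

/-- field automorphisms -/
lemma fa_S (τ : RingAut F) (U : GLm m F) : fa τ * pgl m F U = pgl m F (gla τ U) * fa τ := by
  show sem 1 τ * sem U 1 = _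
  rw [sem_mul, one_mul, mul_one, sem_eq]
  rfl

lemma fa_S' (τ : RingAut F) {U W : GLm m F} (h : U.1.map τ = W.1) :
    fa τ * pgl m F U = pgl m F W * fa τ := by
  have h1 : gla τ U = W := Units.ext h
  rw [fa_S, h1]

lemma fa_GT (τ : RingAut F) (g : Fin a → GL (Fin 2) F) (h : ∀ j, (g j).1.map τ = (g j).1) :
    fa τ * pgl m F (GT σ g) = pgl m F (GT σ g) * fa τ := by
  refine fa_S' τ ?_
  rw [GT_val]
  exact (TN_map σ (τ : F →+* F) _).trans (congrArg _ (funext h))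

lemma fa_g0 (τ : RingAut F) : fa τ * g0 σ = g0 σ * fa τ := by
  have h1 : fa τ * pgl m F (JJ σ) = pgl m F (JJ σ) * fa τ := by
    refine fa_GT σ τ _ fun j => ?_
    rw [uJ_val]
    ext i k
    fin_cases i <;> fin_cases k <;> simp
  have h2 : fa τ * ind (itA m F) = ind (itA m F) * fa τ := by
    have h3 := it_sem (1 : GLm m F) τ
    have h4 : gt (1 : GLm m F) = 1 := by
      apply Units.ext
      show ((1 : GLm m F)⁻¹).1ᵀ = 1
      rw [inv_one, Units.val_one, Matrix.transpose_one]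
    rw [h4] at h3
    calc fa τ * ind (itA m F) = (ind (itA m F) * ind (itA m F)) * fa τ * ind (itA m F) := by
          rw [itA_sq, one_mul]
      _ = ind (itA m F) * (ind (itA m F) * sem 1 τ * ind (itA m F)) := by
          show _ = ind (itA m F) * (ind (itA m F) * fa τ * ind (itA m F))
          group
      _ = _ := by rw [h3]; rfl
  rw [g0, ← mul_assoc, h1, mul_assoc, h2, ← mul_assoc]

/-- the group of the outer automorphisms -/
def DM : Subgroup (MulAut (PL m F)) where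
  carrier := {x | ∃ τ : RingAut F, x = fa τ ∨ x = fa τ * g0 σ}
  one_mem' := ⟨1, Or.inl (map_one _).symm⟩
  mul_mem' := by
    rintro _ _ ⟨τ, rfl | rfl⟩ ⟨τ', rfl | rfl⟩
    · exact ⟨τ * τ', Or.inl (map_mul _ _ _).symm⟩
    · exact ⟨τ * τ', Or.inr (by rw [map_mul, mul_assoc])⟩
    · exact ⟨τ * τ', Or.inr (by rw [map_mul, mul_assoc, ← fa_g0, mul_assoc])⟩
    · refine ⟨τ * τ', Or.inl ?_⟩
      calc fa τ * g0 σ * (fa τ' * g0 σ) = fa τ * (g0 σ * fa τ') * g0 σ := by group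
        _ = fa τ * fa τ' * (g0 σ * g0 σ) := by rw [← fa_g0]; group
        _ = _ := by rw [g0_sq, mul_one, map_mul]
  inv_mem' := by
    rintro _ ⟨τ, rfl | rfl⟩
    · exact ⟨τ⁻¹, Or.inl (map_inv _ _).symm⟩
    · refine ⟨τ⁻¹, Or.inr ?_⟩
      have h1 : (g0 (F := F) σ)⁻¹ = g0 σ := inv_eq_of_mul_eq_one_left (g0_sq σ)
      rw [_root_.mul_inv_rev, h1, map_inv, ← map_inv, fa_g0]

lemma mem_DM {x : MulAut (PL m F)} : x ∈ DM σ ↔ ∃ τ : RingAut F, x = fa τ ∨ x = fa τ * g0 σ :=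
  Iff.rfl

lemma g0_mem : g0 (F := F) σ ∈ DM σ := ⟨1, Or.inr (by rw [map_one, one_mul])⟩

lemma fa_mem (τ : RingAut F) : fa τ ∈ DM (F := F) σ := ⟨τ, Or.inl rfl⟩

/-- rational matrices -/
def Rat2 (g : GL (Fin 2) F) : Prop := ∀ τ : RingAut F, g.1.map τ = g.1

/-- the outer automorphisms commute with rational tensor products -/
lemma DM_GT (r : ℕ) [Fact r.Prime] [CharP F r] (hm : 1 ≤ m) {d : MulAut (PL m F)}
    (hd : d ∈ DM σ) {g : Fin a → GL (Fin 2) F} (hg : ∀ j, Rat2 (g j)) :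
    d * pgl m F (GT σ g) = pgl m F (GT σ g) * d := by
  obtain ⟨τ, rfl | rfl⟩ := hd
  · exact fa_GT σ τ g fun j => hg j τ
  · rw [mul_assoc, g0_GT σ r hm, ← mul_assoc, fa_GT σ τ g fun j => hg j τ, mul_assoc]

lemma Rat2.one : Rat2 (1 : GL (Fin 2) F) := fun τ => by
  rw [Units.val_one]
  exact Matrix.map_one _ (map_zero τ) (map_one τ)

lemma DM_gT (r : ℕ) [Fact r.Prime] [CharP F r] (hm : 1 ≤ m) {d : MulAut (PL m F)}
    (hd : d ∈ DM σ) {j : Fin a} {g : GL (Fin 2) F} (hg : Rat2 g) :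
    d * pgl m F (gT σ j g) = pgl m F (gT σ j g) * d := by
  refine DM_GT σ r hm hd (g := Pi.mulSingle j g) fun l => ?_
  by_cases h : l = j
  · subst h
    rw [Pi.mulSingle_eq_same]
    exact hg
  · rw [Pi.mulSingle_eq_of_ne h]
    exact Rat2.one

/-- every automorphism is a linear one times an outer one -/
lemma aut_DM (haut : ∀ g : MulAut (PL m F), ∃ M τ, g = sem M τ ∨ g = sem M τ * ind (itA m F))
    (x : MulAut (PL m F)) : ∃ (M : GLm m F) (d : MulAut (PL m F)), d ∈ DM σ ∧ x = pgl m F M * d := by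
  obtain ⟨M, τ, rfl | rfl⟩ := haut x
  · exact ⟨M, fa τ, fa_mem σ τ, sem_eq M τ⟩
  · refine ⟨M * gla τ (JJ σ)⁻¹, fa τ * g0 σ, ⟨τ, Or.inr rfl⟩, ?_⟩
    rw [sem_eq, map_mul (pgl m F), ← pgl_apply, g0]
    have h1 := fa_S τ (JJ (F := F) σ)⁻¹
    calc pgl m F M * fa τ * ind (itA m F)
        = pgl m F M * (fa τ * pgl m F (JJ σ)⁻¹) * (pgl m F (JJ σ) * ind (itA m F)) := by
          rw [map_inv]; group
      _ = _ := by rw [h1]; group

end

end Vale.Agent.P240.R2.H490
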