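import Vale.Agent.P240.R2.H490.P5Sol

/-!
Systems of reflections from Clifford systems of matrices.
-/

set_option autoImplicit false
set_option linter.all false

namespace Vale.Agent.P240.R2.H490

open Subgroup Matrix Vale.Agent.P240 Vale.Agent.P240.R2

universe u v w w' x'

section
variable {K : Type u} [Field K] {F : Type v} [Field F] {n : ℕ} {N : Type w} [Fintype N]
  [DecidableEq N] {Γ : Type w'} [Group Γ]

/-- linear combinations -/
def CC (ι : K →+* F) (c : Fin n → Matrix N N F) (x : Fin n → K) : Matrix N N F :=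
  ∑ i, ι (x i) • c i

variable {ι : K →+* F}

lemma CC_add (c : Fin n → Matrix N N F) (x y : Fin n → K) :
    CC ι c (x + y) = CC ι c x + CC ι c y := by
  rw [CC, CC, CC, ← Finset.sum_add_distrib]
  exact Finset.sum_congr rfl fun i _ => by rw [Pi.add_apply, map_add, add_smul]

lemma CC_smul (c : Fin n → Matrix N N F) (a : K) (x : Fin n → K) :
    CC ι c (a • x) = ι a • CC ι c x := by
  rw [CC, CC, Finset.smul_sum]
  exact Finset.sum_congr rfl fun i _ => by rw [Pi.smul_apply, smul_eq_mul, map_mul, smul_smul]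

lemma CC_sub (c : Fin n → Matrix N N F) (x y : Fin n → K) :
    CC ι c (x - y) = CC ι c x - CC ι c y := by
  rw [sub_eq_add_neg, ← neg_one_smul K y, CC_add, CC_smul, map_neg, map_one, neg_one_smul,
    sub_eq_add_neg]

lemma CC_single (c : Fin n → Matrix N N F) (i : Fin n) : CC ι c (Pi.single i 1) = c i := by
  rw [CC, Finset.sum_eq_single i]
  · rw [Pi.single_eq_same, map_one, one_smul]
  · intro j _ hj
    rw [Pi.single_eq_of_ne hj, map_zero, zero_smul]
  · intro h
    exact absurd (Finset.mem_univ _) h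

/-- Clifford systems -/
structure CS (ι : K →+* F) (d : Fin n → K) (c c' : Fin n → Matrix N N F) (S : GL N F →* Γ)
    (δ : Γ) : Prop where
  two : (2 : F) ≠ 0
  sq : ∀ i, c i * c' i = ι (d i) • 1
  sq' : ∀ i, c' i * c i = ι (d i) • 1
  anti : ∀ i j, i ≠ j → c i * c' j = -(c j * c' i)
  anti' : ∀ i j, i ≠ j → c' i * c j = -(c' j * c i)
  ind : LinearIndependent F c
  ker : ∀ U, S U = 1 ↔ ∃ a : F, U.1 = a • 1
  del : δ * δ = 1
  conj : ∀ x, ip d x x ≠ 0 → ∀ U U' : GL N F, U.1 = CC ι c x → U'.1 = CC ι c' x →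
    δ * S U * δ = S U'

lemma CC_mul_aux {d : Fin n → K} {c c' : Fin n → Matrix N N F} (h2 : (2 : F) ≠ 0)
    (hs : ∀ i, c i * c' i = ι (d i) • 1) (ha : ∀ i j, i ≠ j → c i * c' j = -(c j * c' i))
    (x y : Fin n → K) :
    CC ι c x * CC ι c' y + CC ι c y * CC ι c' x = (2 * ι (ip d x y)) • 1 := by
  have h1 : ∀ x y : Fin n → K, CC ι c x * CC ι c' y =
      ∑ i, ∑ j, (ι (x i) * ι (y j)) • (c i * c' j) := by
    intro x y
    rw [CC, CC, Finset.sum_mul]
    refine Finset.sum_congr rfl fun i _ => ?_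
    rw [Finset.mul_sum]
    exact Finset.sum_congr rfl fun j _ => by rw [smul_mul_smul_comm]
  rw [h1, h1 y x, Finset.sum_comm (f := fun i j => (ι (y i) * ι (x j)) • (c i * c' j)),
    ← Finset.sum_add_distrib]
  have h3 : ∀ i, ∑ j, (ι (x i) * ι (y j)) • (c i * c' j) +
      ∑ j, (ι (y j) * ι (x i)) • (c j * c' i) = (2 * ι (d i * x i * y i)) • 1 := by
    intro i
    rw [← Finset.sum_add_distrib, Finset.sum_eq_single i]
    · rw [hs, smul_smul, smul_smul, ← add_smul, map_mul, map_mul]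
      congr 1
      ring
    · intro j _ hj
      rw [ha i j hj.symm, smul_neg, mul_comm (ι (y j))]
      exact neg_add_cancel _
    · intro h
      exact absurd (Finset.mem_univ _) h
  rw [Finset.sum_congr rfl fun i _ => h3 i, ← Finset.sum_smul, ← Finset.mul_sum, ip, map_sum]

lemma half_eq {A B : Matrix N N F} (h2 : (2 : F) ≠ 0) (h : A + A = (2 : F) • B) : A = B := by
  have h8 := congrArg (fun A => (2 : F)⁻¹ • A) h
  simpa only [← two_smul F A, smul_smul, inv_mul_cancel₀ h2, one_smul] using h8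

namespace CS

variable {d : Fin n → K} {c c' : Fin n → Matrix N N F} {S : GL N F →* Γ} {δ : Γ}
  (h : CS ι d c c' S δ)
include h

lemma mul (x y : Fin n → K) :
    CC ι c x * CC ι c' y + CC ι c y * CC ι c' x = (2 * ι (ip d x y)) • 1 :=
  CC_mul_aux h.two h.sq h.anti x y

lemma mul' (x y : Fin n → K) :
    CC ι c' x * CC ι c y + CC ι c' y * CC ι c x = (2 * ι (ip d x y)) • 1 :=
  CC_mul_aux h.two h.sq' h.anti' x y

lemma self (x : Fin n → K) : CC ι c x * CC ι c' x = ι (ip d x x) • 1 :=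
  half_eq h.two (by rw [h.mul, mul_smul])

lemma self' (x : Fin n → K) : CC ι c' x * CC ι c x = ι (ip d x x) • 1 :=
  half_eq h.two (by rw [h.mul', mul_smul])

/-- the unit -/
def U {x : Fin n → K} (hx : ip d x x ≠ 0) : GL N F where
  val := CC ι c x
  inv := (ι (ip d x x))⁻¹ • CC ι c' x
  val_inv := by
    rw [mul_smul_comm, h.self, smul_smul, inv_mul_cancel₀ (by rwa [Ne, map_eq_zero]), one_smul]
  inv_val := by
    rw [smul_mul_assoc, h.self', smul_smul, inv_mul_cancel₀ (by rwa [Ne, map_eq_zero]), one_smul]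

/-- the unit -/
def U' {x : Fin n → K} (hx : ip d x x ≠ 0) : GL N F where
  val := CC ι c' x
  inv := (ι (ip d x x))⁻¹ • CC ι c x
  val_inv := by
    rw [mul_smul_comm, h.self', smul_smul, inv_mul_cancel₀ (by rwa [Ne, map_eq_zero]), one_smul]
  inv_val := by
    rw [smul_mul_assoc, h.self, smul_smul, inv_mul_cancel₀ (by rwa [Ne, map_eq_zero]), one_smul]

lemma U_val {x : Fin n → K} (hx : ip d x x ≠ 0) : (h.U hx).1 = CC ι c x := rfl

lemma U'_val {x : Fin n → K} (hx : ip d x x ≠ 0) : (h.U' hx).1 = CC ι c' x := rfl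

/-- equality up to scalars -/
lemma S_eq {X Y : GL N F} : S X = S Y ↔ ∃ a : F, X.1 = a • Y.1 := by
  have h1 : S X = S Y ↔ S (X * Y⁻¹) = 1 := by
    rw [map_mul, map_inv, mul_inv_eq_one]
  rw [h1, h.ker]
  constructor
  · rintro ⟨a, ha⟩
    refine ⟨a, ?_⟩
    have h2 : X.1 = (X * Y⁻¹).1 * Y.1 := by
      rw [← Units.val_mul, inv_mul_cancel_right]
    rw [h2, ha, smul_mul_assoc, one_mul]
  · rintro ⟨a, ha⟩
    refine ⟨a, ?_⟩
    rw [Units.val_mul, ha, smul_mul_assoc, ← Units.val_mul, mul_inv_cancel, Units.val_one]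

lemma conjU {x : Fin n → K} (hx : ip d x x ≠ 0) : δ * S (h.U hx) * δ = S (h.U' hx) :=
  h.conj x hx _ _ rfl rfl

lemma conjU' {x : Fin n → K} (hx : ip d x x ≠ 0) : δ * S (h.U' hx) * δ = S (h.U hx) := by
  rw [← h.conjU hx]
  calc δ * (δ * S (h.U hx) * δ) * δ = (δ * δ) * S (h.U hx) * (δ * δ) := by group
    _ = _ := by rw [h.del, one_mul, mul_one]

open Classical in
/-- the reflections -/
noncomputable def R (h : CS ι d c c' S δ) (x : Fin n → K) : Γ :=
  if hx : ip d x x ≠ 0 then S (h.U hx) * δ else 1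

lemma R_eq {x : Fin n → K} (hx : ip d x x ≠ 0) : h.R x = S (h.U hx) * δ := dif_pos hx

/-- products of two -/
lemma R_mul {x y : Fin n → K} (hx : ip d x x ≠ 0) (hy : ip d y y ≠ 0) :
    h.R x * h.R y = S (h.U hx * h.U' hy) := by
  rw [h.R_eq hx, h.R_eq hy, map_mul, ← h.conjU hy]
  group

theorem vr : VR d h.R where
  smul a x ha hx := by
    have hax : ip d (a • x) (a • x) ≠ 0 := by
      rw [ip_smul_left, ip_smul_right]
      exact mul_ne_zero ha (mul_ne_zero ha hx)
    rw [h.R_eq hx, h.R_eq hax]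
    congr 1
    rw [h.S_eq]
    exact ⟨ι a, by rw [h.U_val, h.U_val, CC_smul]⟩
  inj x y hx hy he := by
    rw [h.R_eq hx, h.R_eq hy] at he
    obtain ⟨a, ha⟩ := h.S_eq.1 (mul_right_cancel he)
    rw [h.U_val, h.U_val] at ha
    have h1 : ∀ i, ι (x i) = a * ι (y i) := by
      have h2 : ∑ i, (ι (x i) - a * ι (y i)) • c i = 0 := by
        simp_rw [sub_smul, mul_smul]
        rw [Finset.sum_sub_distrib, ← Finset.smul_sum, ← CC, ← CC, ha, sub_self]
      intro i
      exact sub_eq_zero.1 (Fintype.linearIndependent_iff.1 h.ind _ h2 i)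
    obtain ⟨i, hi⟩ : ∃ i, x i ≠ 0 := by
      by_contra hcon
      push Not at hcon
      exact ip_ne d hx (funext hcon)
    have ha0 : a ≠ 0 := by
      rintro rfl
      apply hi
      apply ι.injective
      rw [h1, zero_mul, map_zero]
    have hyi : ι (y i) ≠ 0 := by
      intro h0
      apply hi
      apply ι.injective
      rw [h1, h0, mul_zero, map_zero]
    refine ⟨y i / x i, funext fun j => ?_⟩
    apply ι.injective
    rw [Pi.smul_apply, smul_eq_mul, map_mul, map_div₀, h1 i, h1 j]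
    field_simp
  sq x hx := by
    rw [h.R_mul hx hx, h.ker, Units.val_mul, h.U_val, h.U'_val, h.self]
    exact ⟨_, rfl⟩
  cnj x y hx hy := by
    have hxy : ip d (rf d x y) (rf d x y) ≠ 0 := by rwa [ip_rf hx]
    rw [h.R_mul hx hy, h.R_eq hx, h.R_eq hxy, ← mul_assoc, ← map_mul]
    congr 1
    rw [h.S_eq]
    refine ⟨-ι (ip d x x), ?_⟩
    rw [Units.val_mul, Units.val_mul, h.U_val, h.U_val, h.U'_val]
    have h1 : CC ι c x * CC ι c' y = (2 * ι (ip d x y)) • 1 - CC ι c y * CC ι c' x :=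
      eq_sub_of_add_eq (h.mul x y)
    have h2 : CC ι c (rf d x y) = CC ι c y - ι (2 * (ip d x x)⁻¹ * ip d x y) • CC ι c x := by
      rw [rf, CC_sub, CC_smul]
    have h3 : ι (ip d x x) ≠ 0 := by rwa [Ne, map_eq_zero]
    rw [h1, h2, sub_mul, smul_mul_assoc, one_mul, mul_assoc, h.self', mul_smul_comm, mul_one,
      smul_sub, smul_smul]
    have h4 : -ι (ip d x x) * ι (2 * (ip d x x)⁻¹ * ip d x y) = -(2 * ι (ip d x y)) := by
      rw [map_mul, map_mul, map_inv₀, map_ofNat]
      field_simp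
    rw [h4]
    module
  plane x y x' y' hx hy hx' hy' hxy hxy' := by
    rintro ⟨a, b, rfl⟩ ⟨a', b', rfl⟩
    have hyx : CC ι c y * CC ι c' x = -(CC ι c x * CC ι c' y) := by
      have h1 := h.mul x y
      rw [hxy, map_zero, mul_zero, zero_smul] at h1
      exact eq_neg_of_add_eq_zero_right h1
    rw [h.R_mul hx hy, h.R_mul hx' hy']
    symm
    rw [h.S_eq]
    refine ⟨ι (a * b' - b * a'), ?_⟩
    rw [Units.val_mul, Units.val_mul, h.U_val, h.U_val, h.U'_val, h.U'_val, CC_add, CC_add, CC_smul,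
      CC_smul, CC_smul, CC_smul, add_mul, mul_add, mul_add, smul_mul_smul_comm, smul_mul_smul_comm,
      smul_mul_smul_comm, smul_mul_smul_comm, h.self, h.self, hyx]
    have h5 : ι a * ι a' * ι (ip d x x) + ι b * ι b' * ι (ip d y y) = 0 := by
      rw [← map_mul, ← map_mul, ← map_mul, ← map_mul, ← map_add]
      rw [ip_add_left, ip_add_right, ip_add_right, ip_smul_left, ip_smul_left, ip_smul_left,
        ip_smul_left, ip_smul_right, ip_smul_right, ip_smul_right, ip_smul_right,
        ip_comm d y x, hxy] at hxy'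
      rw [show a * a' * ip d x x + b * b' * ip d y y = 0 by linear_combination hxy', map_zero]
    have h6 : ι b * ι b' * ι (ip d y y) = -(ι a * ι a' * ι (ip d x x)) :=
      eq_neg_of_add_eq_zero_right h5
    rw [smul_smul, smul_smul, h6, map_sub, map_mul, map_mul]
    module

end CS

end

end Vale.Agent.P240.R2.H490
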