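import Vale.Agent.P240.R2.AS.Defs

/-!
`AS.Comb` from a system of involutions attached to projections.
-/

set_option autoImplicit false
set_option linter.all false

namespace Vale.Agent.P240.R2.H490

open Subgroup Vale.Agent.P240.R2.AS

universe u v w

section
variable {A : Type u} [Ring A] {L : Type v} {G : Type w} [Group G]

/-- the sum of a word -/
def Sm (v : L → A) (w : List L) : A := (w.map v).sum

/-- the product of a word -/
def Ew (R : L → G) (w : List L) : G := (w.map R).prod

@[simp] lemma Sm_nil (v : L → A) : Sm v [] = 0 := rfl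

@[simp] lemma Sm_cons (v : L → A) (a : L) (w : List L) : Sm v (a :: w) = v a + Sm v w := rfl

lemma Sm_append (v : L → A) (w w' : List L) : Sm v (w ++ w') = Sm v w + Sm v w' := by
  simp [Sm]

@[simp] lemma Ew_nil (R : L → G) : Ew R [] = 1 := rfl

@[simp] lemma Ew_cons (R : L → G) (a : L) (w : List L) : Ew R (a :: w) = R a * Ew R w := rfl

lemma Ew_append (R : L → G) (w w' : List L) : Ew R (w ++ w') = Ew R w * Ew R w' := by
  simp [Ew]

lemma sup_zp_mul {S : Subgroup G} {a : G} (ha : a ∈ S) (x : G) :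
    S ⊔ zpowers (a * x) = S ⊔ zpowers x := by
  refine le_antisymm (sup_le le_sup_left ?_) (sup_le le_sup_left ?_)
  · rw [zpowers_le]
    exact mul_mem (mem_sup_left ha) (mem_sup_right (mem_zpowers x))
  · rw [zpowers_le]
    have h3 : x = a⁻¹ * (a * x) := by group
    rw [h3]
    exact mul_mem (mem_sup_left (inv_mem ha)) (by rw [← h3]; exact mem_sup_right (mem_zpowers _))

lemma sup_zp_inv {S : Subgroup G} {a : G} (ha : a ∈ S) (x : G) :
    S ⊔ zpowers ((x * a)⁻¹) = S ⊔ zpowers x := by
  refine le_antisymm (sup_le le_sup_left ?_) (sup_le le_sup_left ?_)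
  · rw [zpowers_le]
    exact inv_mem (mul_mem (mem_sup_right (mem_zpowers x)) (mem_sup_left ha))
  · rw [zpowers_le]
    have h4 : (x * a)⁻¹ ∈ S ⊔ zpowers ((x * a)⁻¹) := mem_sup_right (mem_zpowers _)
    have h5 := mul_mem (inv_mem h4) (mem_sup_left (T := zpowers ((x * a)⁻¹)) (inv_mem ha))
    rwa [inv_inv, mul_inv_cancel_right] at h5

lemma mem_sup_zp {S : Subgroup G} {a y : G} (ha : a * a = 1) (hc : ∀ s ∈ S, a * s = s * a)
    (hy : y ∈ S ⊔ zpowers a) : y ∈ S ∨ ∃ s ∈ S, y = s * a := by
  let H : Subgroup G :=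
    { carrier := {y | y ∈ S ∨ ∃ s ∈ S, y = s * a}
      one_mem' := Or.inl (one_mem _)
      mul_mem' := by
        rintro y z (hy | ⟨s, hs, rfl⟩) (hz | ⟨t, ht, rfl⟩)
        · exact Or.inl (mul_mem hy hz)
        · exact Or.inr ⟨y * t, mul_mem hy ht, by rw [mul_assoc]⟩
        · exact Or.inr ⟨s * z, mul_mem hs hz, by rw [mul_assoc, hc z hz, mul_assoc]⟩
        · refine Or.inl ?_
          have h1 : s * a * (t * a) = s * t := by
            calc s * a * (t * a) = s * (a * t) * a := by group
              _ = s * t * (a * a) := by rw [hc t ht]; group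
              _ = s * t := by rw [ha, mul_one]
          rw [h1]
          exact mul_mem hs ht
      inv_mem' := by
        rintro y (hy | ⟨s, hs, rfl⟩)
        · exact Or.inl (inv_mem hy)
        · refine Or.inr ⟨s⁻¹, inv_mem hs, ?_⟩
          rw [_root_.mul_inv_rev, inv_eq_of_mul_eq_one_left ha, hc _ (inv_mem hs)] }
  have hle : S ⊔ zpowers a ≤ H := by
    refine sup_le (fun y hy => Or.inl hy) ?_
    rw [zpowers_le]
    exact Or.inr ⟨1, one_mem _, by rw [one_mul]⟩
  exact hle hy

/-- a system of involutions attached to projections; `p` is the sum of the frames -/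
structure RS (n : ℕ) (v : L → A) (p : A) (F : Finset (List L)) (R : L → G) : Prop where
  ne : ∀ P, v P ≠ 0
  idem : ∀ P, v P * v P = v P
  eqm : ∀ P Q, v P * v Q = v P → P = Q
  symm : ∀ P Q, v P * v Q = 0 → v Q * v P = 0
  len : ∀ w ∈ F, w.length = n
  orth : ∀ w ∈ F, w.Pairwise (fun P Q => v P * v Q = 0)
  sum : ∀ w ∈ F, Sm v w = p
  perm : ∀ w ∈ F, ∀ w', w.Perm w' → w' ∈ F
  sq : ∀ w ∈ F, ∀ P ∈ w, R P * R P = 1
  com : ∀ w ∈ F, ∀ P ∈ w, ∀ Q ∈ w, R P * R Q = R Q * R P
  plane : ∀ (u : List L) (a b c d : L), a :: b :: u ∈ F → c :: d :: u ∈ F → R a * R b = R c * R d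
  full : ∀ w ∈ F, Ew R w = 1
  sepa : ∀ u u' w w', u ++ u' ∈ F → w ++ w' ∈ F → Ew R u = Ew R w →
    Sm v u = Sm v w ∨ Sm v u + Sm v w = p

variable {n : ℕ} {v : L → A} {p : A} {F : Finset (List L)} {R : L → G}

lemma Sm_perm {w w' : List L} (h : w.Perm w') : Sm v w = Sm v w' := (h.map _).sum_eq

namespace RS

variable (h : RS n v p F R)
include h

lemma mul_Sm_zero {P : L} {w : List L} (hw : ∀ Q ∈ w, v P * v Q = 0) : v P * Sm v w = 0 := by
  induction w with
  | nil => rw [Sm_nil, mul_zero]
  | cons a w ih =>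
    rw [Sm_cons, mul_add, hw a (by simp), zero_add, ih fun Q hQ => hw Q (List.mem_cons_of_mem _ hQ)]

lemma Sm_mul_zero {P : L} {w : List L} (hw : ∀ Q ∈ w, v P * v Q = 0) : Sm v w * v P = 0 := by
  induction w with
  | nil => rw [Sm_nil, zero_mul]
  | cons a w ih =>
    rw [Sm_cons, add_mul, h.symm _ _ (hw a (by simp)), zero_add,
      ih fun Q hQ => hw Q (List.mem_cons_of_mem _ hQ)]

lemma Sm_Sm_zero {w w' : List L} (hw : ∀ P ∈ w, ∀ Q ∈ w', v P * v Q = 0) :
    Sm v w * Sm v w' = 0 := by
  induction w with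
  | nil => rw [Sm_nil, zero_mul]
  | cons a w ih =>
    rw [Sm_cons, add_mul, h.mul_Sm_zero (hw a (by simp)), zero_add,
      ih fun P hP => hw P (List.mem_cons_of_mem _ hP)]

lemma mul_Sm {P : L} {w : List L} (hw : w.Pairwise (fun P Q => v P * v Q = 0)) (hP : P ∈ w) :
    v P * Sm v w = v P := by
  induction w with
  | nil => simp at hP
  | cons a w ih =>
    have h1 := List.pairwise_cons.1 hw
    rw [Sm_cons, mul_add]
    rcases List.mem_cons.1 hP with rfl | h2
    · rw [h.idem, h.mul_Sm_zero h1.1, add_zero]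
    · rw [h.symm _ _ (h1.1 P h2), zero_add, ih h1.2 h2]

lemma nodup_of {w : List L} (hw : w.Pairwise (fun P Q => v P * v Q = 0)) : w.Nodup := by
  refine hw.imp fun {P Q} h1 h2 => ?_
  subst h2
  rw [h.idem] at h1
  exact h.ne P h1

lemma orth_app {w w' : List L} (hw : w ++ w' ∈ F) {P : L} (hP : P ∈ w) {Q : L} (hQ : Q ∈ w') :
    v P * v Q = 0 := (List.pairwise_append.1 (h.orth _ hw)).2.2 P hP Q hQ

lemma orth_left {w w' : List L} (hw : w ++ w' ∈ F) : w.Pairwise (fun P Q => v P * v Q = 0) :=
  (List.pairwise_append.1 (h.orth _ hw)).1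

lemma Sm_ne {w : List L} (hw : w.Pairwise (fun P Q => v P * v Q = 0)) (hne : w ≠ []) :
    Sm v w ≠ 0 := by
  obtain ⟨a, t, rfl⟩ := List.exists_cons_of_ne_nil hne
  intro h0
  have h1 := h.mul_Sm hw (P := a) (by simp)
  rw [h0, mul_zero] at h1
  exact h.ne a h1.symm

/-- a nonempty orthogonal word with sum below a letter -/
lemma single_of_le {l : L} {x : List L} (hx : x.Pairwise (fun P Q => v P * v Q = 0)) (hne : x ≠ [])
    (hl : ∀ P ∈ x, v P * v l = v P) : x = [l] := by
  obtain ⟨a, t, rfl⟩ := List.exists_cons_of_ne_nil hne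
  have h1 : a = l := h.eqm _ _ (hl a (by simp))
  rcases t with _ | ⟨b, t⟩
  · rw [h1]
  · exfalso
    have h2 : b = l := h.eqm _ _ (hl b (by simp))
    have h3 := h.nodup_of hx
    rw [h1, h2] at h3
    simp at h3

lemma Ew_comm {w : List L} (hw : w ∈ F) {P : L} (hP : P ∈ w) {x : List L} (hx : ∀ Q ∈ x, Q ∈ w) :
    R P * Ew R x = Ew R x * R P := by
  induction x with
  | nil => simp
  | cons a x ih =>
    rw [Ew_cons, ← mul_assoc, h.com w hw P hP a (hx a (by simp)), mul_assoc,
      ih fun Q hQ => hx Q (List.mem_cons_of_mem _ hQ), mul_assoc]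

lemma Ew_comm' {w : List L} (hw : w ∈ F) {x y : List L} (hx : ∀ Q ∈ x, Q ∈ w)
    (hy : ∀ Q ∈ y, Q ∈ w) : Ew R y * Ew R x = Ew R x * Ew R y := by
  induction y with
  | nil => simp
  | cons a y ih =>
    rw [Ew_cons, mul_assoc, ih fun Q hQ => hy Q (List.mem_cons_of_mem _ hQ), ← mul_assoc,
      h.Ew_comm hw (hy a (by simp)) hx, mul_assoc]

lemma Ew_sq {w : List L} (hw : w ∈ F) {x : List L} (hx : ∀ Q ∈ x, Q ∈ w) :
    Ew R x * Ew R x = 1 := by
  induction x with
  | nil => simp
  | cons a x ih =>
    have h1 := h.Ew_comm hw (hx a (by simp)) fun Q hQ => hx Q (List.mem_cons_of_mem _ hQ)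
    rw [Ew_cons]
    calc R a * Ew R x * (R a * Ew R x) = R a * (Ew R x * R a) * Ew R x := by group
      _ = (R a * R a) * (Ew R x * Ew R x) := by rw [← h1]; group
      _ = 1 := by
        rw [h.sq w hw a (hx a (by simp)), ih fun Q hQ => hx Q (List.mem_cons_of_mem _ hQ), mul_one]

lemma Ew_perm {w : List L} (hw : w ∈ F) {x y : List L} (hx : ∀ Q ∈ x, Q ∈ w) (hxy : x.Perm y) :
    Ew R x = Ew R y := by
  induction hxy with
  | nil => rfl
  | cons a _ ih => rw [Ew_cons, Ew_cons, ih fun Q hQ => hx Q (List.mem_cons_of_mem _ hQ)]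
  | swap a b l =>
    rw [Ew_cons, Ew_cons, Ew_cons, Ew_cons, ← mul_assoc, ← mul_assoc,
      h.com w hw _ (hx b (by simp)) _ (hx a (by simp))]
  | trans h1 _ ih1 ih2 =>
    rw [ih1 hx, ih2 fun Q hQ => hx Q (h1.mem_iff.2 hQ)]

/-- the elements of the group generated by the letters of a word -/
lemma mem_SS {w : List L} (hw : w ∈ F) {T : List L} (hT : ∀ Q ∈ T, Q ∈ w) {y : G}
    (hy : y ∈ SS (Ew R) T) : ∃ x, x.Sublist T ∧ y = Ew R x := by
  induction T generalizing y with
  | nil =>
    refine ⟨[], List.Sublist.refl _, ?_⟩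
    have h1 : SS (Ew R) ([] : List L) = ⊥ := by
      rw [SS]
      have : {y : G | ∃ x ∈ ([] : List L), y = Ew R [x]} = ∅ := by
        ext y
        simp
      rw [this, Subgroup.closure_empty]
    rw [h1, Subgroup.mem_bot] at hy
    rw [hy, Ew_nil]
  | cons a T ih =>
    have hT' : ∀ Q ∈ T, Q ∈ w := fun Q hQ => hT Q (List.mem_cons_of_mem _ hQ)
    let H : Subgroup G :=
      { carrier := {y | y ∈ SS (Ew R) T ∨ R a * y ∈ SS (Ew R) T}
        one_mem' := Or.inl (one_mem _)
        mul_mem' := by
          have hc : ∀ y ∈ SS (Ew R) T, R a * y = y * R a := by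
            intro y hy
            obtain ⟨x, hx, rfl⟩ := ih hT' hy
            exact h.Ew_comm hw (hT a (by simp)) fun Q hQ => hT' Q (hx.subset hQ)
          have ha := h.sq w hw a (hT a (by simp))
          rintro y z (hy | hy) (hz | hz)
          · exact Or.inl (mul_mem hy hz)
          · right
            have h1 := mul_mem hy hz
            rwa [← mul_assoc, ← hc y hy, mul_assoc] at h1
          · right
            have h1 := mul_mem hy hz
            rwa [mul_assoc] at h1
          · left
            have h1 := mul_mem hy hz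
            have h2 : R a * y * (R a * z) = y * z := by
              have h3 := hc _ hy
              have h4 : R a * y * R a = R a * (R a * y) := h3.symm
              calc R a * y * (R a * z) = (R a * y * R a) * z := by group
                _ = (R a * R a) * y * z := by rw [h4]; group
                _ = y * z := by rw [ha, one_mul]
            rwa [h2] at h1
        inv_mem' := by
          have hc : ∀ y ∈ SS (Ew R) T, R a * y = y * R a := by
            intro y hy
            obtain ⟨x, hx, rfl⟩ := ih hT' hy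
            exact h.Ew_comm hw (hT a (by simp)) fun Q hQ => hT' Q (hx.subset hQ)
          have ha := h.sq w hw a (hT a (by simp))
          rintro y (hy | hy)
          · exact Or.inl (inv_mem hy)
          · right
            have h1 := inv_mem hy
            have h3 := hc _ hy
            have h4 : (R a)⁻¹ = R a := inv_eq_of_mul_eq_one_left ha
            have h5 : y * R a = R a * y := by
              have h6 : R a * (R a * y) = R a * y * R a := h3
              rw [← mul_assoc, ha, one_mul] at h6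
              calc y * R a = R a * y * R a * R a := by rw [← h6]
                _ = R a * y * (R a * R a) := by group
                _ = R a * y := by rw [ha, mul_one]
            have h7 : (R a * y)⁻¹ = R a * y⁻¹ := by
              rw [← h5, _root_.mul_inv_rev, h4]
            rwa [h7] at h1 }
    have hle : SS (Ew R) (a :: T) ≤ H := by
      rw [SS, Subgroup.closure_le]
      rintro _ ⟨x, hx, rfl⟩
      rcases List.mem_cons.1 hx with rfl | hx
      · right
        show R x * Ew R [x] ∈ SS (Ew R) T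
        rw [Ew_cons, Ew_nil, mul_one, h.sq w hw x (hT x (by simp))]
        exact one_mem _
      · left
        exact Subgroup.subset_closure ⟨x, hx, rfl⟩
    rcases hle hy with h1 | h1
    · obtain ⟨x, hx, hy'⟩ := ih hT' h1
      exact ⟨x, hx.cons a, hy'⟩
    · obtain ⟨x, hx, hy'⟩ := ih hT' h1
      refine ⟨a :: x, hx.cons_cons a, ?_⟩
      rw [Ew_cons, ← hy', ← mul_assoc, h.sq w hw a (hT a (by simp)), one_mul]

lemma Ew_mem_SS {T x : List L} (hx : ∀ Q ∈ x, Q ∈ T) : Ew R x ∈ SS (Ew R) T := by
  induction x with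
  | nil => exact one_mem _
  | cons a x ih =>
    rw [Ew_cons]
    refine mul_mem (Subgroup.subset_closure ⟨a, hx a (by simp), by simp⟩)
      (ih fun Q hQ => hx Q (List.mem_cons_of_mem _ hQ))

/-- a sub-word of a frame is an initial segment of a frame -/
lemma ext_sub {w x : List L} (hw : w ∈ F) (hx : x.Sublist w) : ∃ x', x ++ x' ∈ F := by
  classical
  obtain ⟨x', hx'⟩ := hx.exists_perm_append
  exact ⟨x', h.perm w hw _ hx'⟩

lemma orth_of_ne {w : List L} (hw : w ∈ F) {P Q : L} (hP : P ∈ w) (hQ : Q ∈ w) (hne : P ≠ Q) :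
    v P * v Q = 0 := by
  have : Std.Symm (fun P Q : L => v P * v Q = 0) := ⟨fun P Q => h.symm P Q⟩
  exact (h.orth w hw).forall hP hQ hne

lemma mem_of_Sm {w x y : List L} (hw : w ∈ F) (hx : x.Sublist w) (hy : y.Sublist w)
    (he : Sm v x = Sm v y) {P : L} (hP : P ∈ x) : P ∈ y := by
  by_contra hcon
  have h2 : v P * Sm v y = 0 := h.mul_Sm_zero fun Q hQ =>
    h.orth_of_ne hw (hx.subset hP) (hy.subset hQ) fun h3 => hcon (h3 ▸ hQ)
  rw [← he, h.mul_Sm ((h.orth w hw).sublist hx) hP] at h2
  exact h.ne P h2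

/-- equal products of two sub-words of a frame -/
lemma sub_inj {w : List L} {l : L} (hw : w ++ [l] ∈ F) {x y : List L} (hx : x.Sublist w)
    (hy : y.Sublist w) (he : Ew R x = Ew R y) : ∀ P, P ∈ x ↔ P ∈ y := by
  have hx1 : x.Sublist (w ++ [l]) := hx.trans (List.sublist_append_left w [l])
  have hy1 : y.Sublist (w ++ [l]) := hy.trans (List.sublist_append_left w [l])
  obtain ⟨x', hx'⟩ := h.ext_sub hw hx1
  obtain ⟨y', hy'⟩ := h.ext_sub hw hy1
  have hl : ∀ z : List L, z.Sublist w → Sm v z * v l = 0 := by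
    intro z hz
    refine h.Sm_mul_zero fun Q hQ => h.symm _ _ ?_
    exact h.orth_app hw (hz.subset hQ) (by simp)
  rcases h.sepa x x' y y' hx' hy' he with h1 | h1
  · exact fun P => ⟨h.mem_of_Sm hw hx1 hy1 h1, h.mem_of_Sm hw hy1 hx1 h1.symm⟩
  · exfalso
    have h2 : v l * v l = 0 := by
      have h3 := h.sum _ hw
      rw [Sm_append, Sm_cons, Sm_nil, add_zero] at h3
      have h4 : (Sm v x + Sm v y) * v l = 0 := by rw [add_mul, hl x hx, hl y hy, add_zero]
      rw [h1, ← h3, add_mul, hl w (List.Sublist.refl w), zero_add] at h4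
      exact h4
    rw [h.idem] at h2
    exact h.ne l h2

open Classical in
/-- the order of the group generated by the letters -/
lemma card_SS {w : List L} {l : L} (hw : w ++ [l] ∈ F) : Nat.card (SS (Ew R) w) = 2 ^ w.length := by
  have hnd : w.Nodup := (h.nodup_of (h.orth _ hw)).sublist (List.sublist_append_left w [l])
  have hwF : ∀ Q ∈ w, Q ∈ w ++ [l] := fun Q hQ => List.mem_append_left _ hQ
  have hcard : (w.toFinset.powerset).card = 2 ^ w.length := by
    rw [Finset.card_powerset, List.toFinset_card_of_nodup hnd]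
  have hmemf : ∀ (S : Finset L) (P : L), P ∈ w.filter (fun Q => Q ∈ S) ↔ P ∈ w ∧ P ∈ S := by
    intro S P
    simp
  let f : {S // S ∈ w.toFinset.powerset} → SS (Ew R) w := fun S =>
    ⟨Ew R (w.filter (fun Q => Q ∈ S.1)), h.Ew_mem_SS fun Q hQ => ((hmemf _ _).1 hQ).1⟩
  have hf : Function.Bijective f := by
    constructor
    · rintro ⟨S, hS⟩ ⟨S', hS'⟩ he
      have h1 := h.sub_inj hw (x := w.filter (fun Q => Q ∈ S)) (y := w.filter (fun Q => Q ∈ S'))
        List.filter_sublist List.filter_sublist (congrArg Subtype.val he)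
      rw [Finset.mem_powerset] at hS hS'
      refine Subtype.ext (Finset.ext fun P => ?_)
      have h2 := h1 P
      rw [hmemf, hmemf] at h2
      constructor
      · intro h3
        exact (h2.1 ⟨List.mem_toFinset.1 (hS h3), h3⟩).2
      · intro h3
        exact (h2.2 ⟨List.mem_toFinset.1 (hS' h3), h3⟩).2
    · rintro ⟨y, hy⟩
      obtain ⟨x, hx, rfl⟩ := h.mem_SS hw hwF hy
      refine ⟨⟨x.toFinset, ?_⟩, ?_⟩
      · rw [Finset.mem_powerset]
        intro P hP
        rw [List.mem_toFinset] at hP ⊢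
        exact hx.subset hP
      · apply Subtype.ext
        refine (h.Ew_perm hw (fun Q hQ => hwF Q (hx.subset hQ)) ?_).symm
        rw [List.perm_ext_iff_of_nodup (hnd.sublist hx) (hnd.filter _)]
        intro P
        rw [hmemf, List.mem_toFinset]
        exact ⟨fun h3 => ⟨hx.subset h3, h3⟩, fun h3 => h3.2⟩
  rw [← Nat.card_eq_of_bijective f hf, Nat.card_eq_fintype_card, Fintype.card_coe, hcard]

lemma Dm_eq {w : List L} {l : L} (hw : w ++ [l] ∈ F) :
    closure {y | ∃ u v, w ++ [l] = u ++ v ∧ y = Ew R u} = SS (Ew R) w := by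
  refine le_antisymm ?_ ?_
  · rw [closure_le]
    rintro _ ⟨u, u', h1, rfl⟩
    rcases List.eq_nil_or_concat u' with h2 | ⟨t, b, h2⟩
    · rw [h2, List.append_nil] at h1
      rw [← h1, h.full _ hw]
      exact one_mem _
    · rw [List.concat_eq_append] at h2
      rw [h2, ← List.append_assoc] at h1
      obtain ⟨h3, -⟩ := List.append_inj' h1 rfl
      refine h.Ew_mem_SS fun Q hQ => ?_
      rw [h3]
      exact List.mem_append_left _ hQ
  · rw [SS, closure_le]
    rintro _ ⟨x, hx, rfl⟩
    obtain ⟨s, t, rfl⟩ := List.append_of_mem hx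
    have h1 : Ew R (s ++ [x]) ∈ closure {y | ∃ u v, s ++ x :: t ++ [l] = u ++ v ∧ y = Ew R u} :=
      subset_closure ⟨s ++ [x], t ++ [l], by simp, rfl⟩
    have h2 : Ew R s ∈ closure {y | ∃ u v, s ++ x :: t ++ [l] = u ++ v ∧ y = Ew R u} :=
      subset_closure ⟨s, x :: t ++ [l], by simp, rfl⟩
    rw [Ew_append] at h1
    have h3 := mul_mem (inv_mem h2) h1
    rwa [inv_mul_cancel_left] at h3

/-- **The hypotheses of M3.** -/
theorem comb : Comb 2 n F (Ew R) where
  len := h.len
  nodup w hw := h.nodup_of (h.orth w hw)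
  perm := h.perm
  plane u a b c d v w h1 h2 := by
    have e1 : (u ++ a :: b :: (v ++ w)).Perm (a :: b :: (u ++ (v ++ w))) := by
      rw [show u ++ a :: b :: (v ++ w) = u ++ ([a, b] ++ (v ++ w)) by simp, ← List.append_assoc]
      exact (List.perm_append_comm.append_right _).trans (by simp)
    have e2 : (u ++ c :: d :: (v ++ w)).Perm (c :: d :: (u ++ (v ++ w))) := by
      rw [show u ++ c :: d :: (v ++ w) = u ++ ([c, d] ++ (v ++ w)) by simp, ← List.append_assoc]
      exact (List.perm_append_comm.append_right _).trans (by simp)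
    have h3 := h.plane _ a b c d (h.perm _ h1 _ e1) (h.perm _ h2 _ e2)
    rw [Ew_append, Ew_append, Ew_cons, Ew_cons, Ew_cons, Ew_cons, ← mul_assoc (R a), h3, mul_assoc]
  comm u v w h1 := by
    rw [Ew_append, mul_assoc, h.Ew_comm' h1 (x := u) (y := v)
      (fun Q hQ => List.mem_append_left _ hQ)
      fun Q hQ => List.mem_append_right _ (List.mem_append_left _ hQ)]
  pow u v h1 := by
    rw [pow_two]
    exact h.Ew_sq h1 fun Q hQ => List.mem_append_left _ hQ
  nil := Ew_nil R
  full := h.full
  card w hw := by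
    rcases List.eq_nil_or_concat w with h1 | ⟨t, b, h1⟩
    · have h2 := h.len w hw
      rw [h1, List.length_nil] at h2
      rw [← h2, h1]
      have h3 : closure {y | ∃ u v, ([] : List L) = u ++ v ∧ y = Ew R u} = ⊥ := by
        rw [eq_bot_iff, closure_le]
        rintro _ ⟨u, v, h4, rfl⟩
        obtain ⟨h5, h6⟩ := List.append_eq_nil_iff.1 h4.symm
        rw [h5]
        exact one_mem _
      rw [h3, Nat.zero_sub, pow_zero, Subgroup.card_bot]
    · rw [List.concat_eq_append] at h1
      have h2 := h.len w hw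
      rw [h1] at hw h2 ⊢
      rw [h.Dm_eq hw, h.card_SS hw, ← h2]
      simp
  sep A' u u' B l g h1 h2 hu hu' := by
    have hpc : ∀ {w : List L}, w ∈ F → ∀ {P}, P ∈ w → v P * p = v P := by
      intro w hw P hP
      rw [← h.sum w hw]
      exact h.mul_Sm (h.orth w hw) hP
    have hlenA : (A' ++ (u ++ u') ++ B).length = (A' ++ (l :: g) ++ B).length := by
      rw [h.len _ h1, h.len _ h2]
    have hTsub : (A' ++ B).Sublist (A' ++ (u ++ u') ++ B) := by
      rw [List.append_assoc]
      exact (List.sublist_append_right (u ++ u') B).append_left A'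
    have hTsub2 : (A' ++ B).Sublist (A' ++ (l :: g) ++ B) := by
      rw [List.append_assoc]
      exact (List.sublist_append_right (l :: g) B).append_left A'
    have hTmem : ∀ Q ∈ A' ++ B, Q ∈ A' ++ (u ++ u') ++ B := fun Q hQ => hTsub.subset hQ
    have hAS : Ew R A' ∈ SS (Ew R) (A' ++ B) :=
      h.Ew_mem_SS fun Q hQ => List.mem_append_left _ hQ
    have hBS : Ew R B ∈ SS (Ew R) (A' ++ B) :=
      h.Ew_mem_SS fun Q hQ => List.mem_append_right _ hQ
    have hun : (A' ++ (u ++ u') ++ B).Perm ((A' ++ B) ++ u ++ u') := by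
      have e1 : A' ++ (u ++ u') ++ B = A' ++ ((u ++ u') ++ B) := by simp
      have e2 : (A' ++ B) ++ u ++ u' = A' ++ (B ++ (u ++ u')) := by simp
      rw [e1, e2]
      exact List.perm_append_comm.append_left A'
    have hlg : (A' ++ (l :: g) ++ B).Perm ([l] ++ (g ++ (A' ++ B))) := by
      rw [List.append_assoc]
      have h3 : (A' ++ (l :: g ++ B)).Perm ((l :: g ++ B) ++ A') := List.perm_append_comm
      refine h3.trans ?_
      rw [List.cons_append, List.cons_append, List.singleton_append]
      refine List.Perm.cons l ?_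
      rw [List.append_assoc]
      exact List.Perm.append_left _ List.perm_append_comm
    have hF1 := h.perm _ h1 _ hun
    have hF2 := h.perm _ h2 _ hlg
    have hudisj : ∀ P ∈ u, ∀ Q ∈ u', v P * v Q = 0 := fun P hP Q hQ =>
      h.orth_app hF1 (List.mem_append_right _ hP) hQ
    have huT : ∀ P ∈ u, ∀ Q ∈ A' ++ B, v P * v Q = 0 := by
      intro P hP Q hQ
      have h3 : (A' ++ B) ++ (u ++ u') ∈ F := by rw [← List.append_assoc]; exact hF1
      exact h.symm _ _ (h.orth_app h3 hQ (List.mem_append_left _ hP))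
    have hu'T : ∀ P ∈ u', ∀ Q ∈ A' ++ B, v P * v Q = 0 := by
      intro P hP Q hQ
      have h3 : (A' ++ B) ++ (u ++ u') ∈ F := by rw [← List.append_assoc]; exact hF1
      exact h.symm _ _ (h.orth_app h3 hQ (List.mem_append_right _ hP))
    have hlT : ∀ Q ∈ A' ++ B, v l * v Q = 0 := fun Q hQ =>
      h.orth_app hF2 (by simp) (List.mem_append_right _ hQ)
    have hOu : u.Pairwise (fun P Q => v P * v Q = 0) :=
      (h.orth _ hF1).sublist ((List.sublist_append_right (A' ++ B) u).trans
        (List.sublist_append_left _ _))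
    have hOu' : u'.Pairwise (fun P Q => v P * v Q = 0) :=
      (h.orth _ hF1).sublist (List.sublist_append_right _ _)
    constructor
    · intro he
      have hmem : Ew R [l] ∈ SS (Ew R) (A' ++ B) ⊔ zpowers (Ew R (A' ++ u)) := by
        rw [he]
        exact mem_sup_right (mem_zpowers _)
      rw [Ew_append, sup_zp_mul hAS] at hmem
      have huF : ∀ Q ∈ u, Q ∈ A' ++ (u ++ u') ++ B := fun Q hQ => by simp [hQ]
      have h3 := mem_sup_zp (h.Ew_sq h1 huF) (fun s hs => by
        obtain ⟨x, hx, rfl⟩ := h.mem_SS h1 hTmem hs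
        exact h.Ew_comm' h1 (fun Q hQ => hTmem Q (hx.subset hQ)) huF) hmem
      have hgne : g ≠ [] := by
        rintro rfl
        have h4 : u.length ≠ 0 := fun h => hu (List.length_eq_zero_iff.1 h)
        have h5 : u'.length ≠ 0 := fun h => hu' (List.length_eq_zero_iff.1 h)
        simp only [List.length_append, List.length_cons, List.length_nil] at hlenA
        omega
      rcases h3 with h3 | ⟨s, hs, h3⟩
      · exfalso
        obtain ⟨x, hx, h4⟩ := h.mem_SS h1 hTmem h3
        obtain ⟨x', hx'⟩ := h.ext_sub h1 (hx.trans hTsub)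
        rcases h.sepa [l] _ x x' hF2 hx' h4 with h5 | h5
        · rw [Sm_cons, Sm_nil, add_zero] at h5
          have h6 : v l * Sm v x = 0 := h.mul_Sm_zero fun Q hQ => hlT Q (hx.subset hQ)
          rw [← h5, h.idem] at h6
          exact h.ne l h6
        · rw [Sm_cons, Sm_nil, add_zero] at h5
          obtain ⟨c, t, rfl⟩ := List.exists_cons_of_ne_nil hgne
          have h6 : v c * (v l + Sm v x) = 0 := by
            rw [mul_add, h.symm _ _ (h.orth_app hF2 (P := l) (by simp) (by simp)), zero_add]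
            refine h.mul_Sm_zero fun Q hQ => ?_
            have h7 : [l, c] ++ (t ++ (A' ++ B)) ∈ F := hF2
            exact h.orth_app h7 (by simp) (List.mem_append_right _ (hx.subset hQ))
          rw [h5, hpc hF2 (by simp)] at h6
          exact h.ne c h6
      · obtain ⟨x, hx, h4⟩ := h.mem_SS h1 hTmem hs
        rw [h4, ← Ew_append] at h3
        obtain ⟨x', hx'⟩ := h.ext_sub hF1 (x := x ++ u)
          ((hx.append_right u).trans (List.sublist_append_left _ _))
        rcases h.sepa [l] _ (x ++ u) x' hF2 hx' h3 with h5 | h5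
        · left
          rw [Sm_cons, Sm_nil, add_zero, Sm_append] at h5
          refine h.single_of_le hOu hu fun P hP => ?_
          rw [h5, mul_add, h.mul_Sm hOu hP, h.mul_Sm_zero fun Q hQ => huT P hP Q (hx.subset hQ),
            zero_add]
        · right
          rw [Sm_cons, Sm_nil, add_zero, Sm_append] at h5
          refine h.single_of_le hOu' hu' fun P hP => ?_
          have h6 : v P * (v l + (Sm v x + Sm v u)) = v P * v l := by
            rw [mul_add, mul_add, h.mul_Sm_zero fun Q hQ => hu'T P hP Q (hx.subset hQ),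
              h.mul_Sm_zero fun Q hQ => h.symm _ _ (hudisj Q hQ P hP), add_zero, add_zero]
          rw [← h6, h5, hpc hF1 (List.mem_append_right _ hP)]
    · rintro (rfl | rfl)
      · rw [Ew_append]
        exact sup_zp_mul hAS _
      · have h3 : Ew R (A' ++ u) * (Ew R [l] * Ew R B) = 1 := by
          have h4 := h.full _ h1
          have h5 : A' ++ (u ++ [l]) ++ B = (A' ++ u) ++ ([l] ++ B) := by simp
          rw [h5] at h4
          rwa [← Ew_append, ← Ew_append]
        rw [eq_inv_of_mul_eq_one_left h3]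
        exact sup_zp_inv hBS _

end RS

end

end Vale.Agent.P240.R2.H490
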