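import Vale.Agent.P240.R2.H490.P5Cl
import Vale.Agent.P240.R2.H487.CE

/-!
Full products of systems of reflections; blocks and their joins.
-/

set_option autoImplicit false
set_option linter.all false

namespace Vale.Agent.P240.R2.H490

open Subgroup Matrix Vale.Agent.P240 Vale.Agent.P240.K Vale.Agent.P240.R2
open Vale.Agent.P240.R2.AS (SS wds mem_wds)

universe u v w w'

namespace VR
variable {K : Type u} [Field K] {n : ℕ} {d : Fin n → K} {G : Type w} [Group G]
  {R : (Fin n → K) → G} (h : VR d R)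
include h

lemma SS_sf (hd : ∀ i, d i ≠ 0) : SS (Ew (fun P : Lt d => R P.x)) (sf hd) =
    closure (Set.range fun i : Fin n => R (Pi.single i 1)) := by
  rw [SS]
  congr 1
  ext y
  simp only [Set.mem_setOf_eq, Set.mem_range]
  constructor
  · rintro ⟨P, hP, rfl⟩
    rw [sf, List.mem_ofFn] at hP
    obtain ⟨i, rfl⟩ := hP
    obtain ⟨c, hc0, hc⟩ := sl_x hd i
    refine ⟨i, ?_⟩
    rw [Ew_cons, Ew_nil, mul_one, hc, h.smul c _ hc0 (ip_std_ne hd i)]
  · rintro ⟨i, rfl⟩
    obtain ⟨c, hc0, hc⟩ := sl_x hd i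
    refine ⟨sl hd i, by rw [sf, List.mem_ofFn]; exact ⟨i, rfl⟩, ?_⟩
    rw [Ew_cons, Ew_nil, mul_one, hc, h.smul c _ hc0 (ip_std_ne hd i)]

/-- the product of the standard frame -/
lemma Ew_sf (hd : ∀ i, d i ≠ 0) : Ew (fun P : Lt d => R P.x) (sf hd) =
    (List.ofFn fun i : Fin n => R (Pi.single i 1)).prod := by
  rw [Ew, sf, List.map_ofFn]
  congr 2
  funext i
  obtain ⟨c, hc0, hc⟩ := sl_x hd i
  show R (sl hd i).x = _
  rw [hc, h.smul c _ hc0 (ip_std_ne hd i)]

/-- elements of the group of the standard frame commuting with all reflections -/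
theorem cfree [Finite K] (hd : ∀ i, d i ≠ 0) (h2 : (2 : K) ≠ 0) (h3 : (3 : K) ≠ 0)
    (hsf : (List.ofFn fun i : Fin n => R (Pi.single i 1)).prod = 1) {g : G}
    (hg : g ∈ closure (Set.range fun i : Fin n => R (Pi.single i 1)))
    (hc : ∀ y, ip d y y ≠ 0 → g * R y = R y * g) : g = 1 := by
  classical
  rw [← h.Ew_sf hd] at hsf
  have hrs := h.rs' hd h2 h3 (F := (FrD d).filter (fun w => w.Perm (sf hd)))
    (Finset.filter_subset _ _) (fun w hw w' hww' => by
      obtain ⟨h4, h5⟩ := Finset.mem_filter.1 hw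
      obtain ⟨h6, h7⟩ := mem_FrD.1 h4
      exact Finset.mem_filter.2 ⟨mem_FrD.2 ⟨hww'.length_eq ▸ h6,
        (hww'.pairwise_iff fun {P Q} h => v_symm P Q h).1 h7⟩, hww'.symm.trans h5⟩)
    (fun w hw => by
      obtain ⟨h4, h5⟩ := Finset.mem_filter.1 hw
      rw [Ew_perm' (fun P hP Q hQ => h.com' h4 hP hQ) h5, hsf])
  have hmem : sf hd ∈ (FrD d).filter (fun w => w.Perm (sf hd)) :=
    Finset.mem_filter.2 ⟨sf_mem hd, List.Perm.refl _⟩
  rw [← h.SS_sf hd] at hg
  obtain ⟨x, hx, rfl⟩ := hrs.mem_SS hmem (T := sf hd) (fun Q hQ => hQ) hg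
  have hxo : x.Pairwise (fun P Q => P.v * Q.v = 0) := (mem_FrD.1 (sf_mem hd)).2.sublist hx
  obtain ⟨c, hcs⟩ := scal (T := 1 - (2 : K) • Sm Lt.v x) hd h2 h3 (by
    intro y hy
    obtain ⟨h4, h5⟩ := h.Ew_conj hxo hy
    rw [hc y hy, mul_inv_cancel_right] at h5
    exact h.inj _ _ hy (by rw [h4]; exact hy) h5)
  rcases Nat.eq_zero_or_pos n with hn | hn
  · subst hn
    have h4 : x = [] := by
      have h5 := hx.length_le
      rw [sf, List.length_ofFn] at h5
      exact List.length_eq_zero_iff.1 (by omega)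
    rw [h4, Ew_nil]
  have h5 : c * c = 1 := by
    have h6 := inv_sq hxo
    rw [hcs, smul_mul_smul_comm, mul_one] at h6
    have h7 := congrFun (congrFun h6 ⟨0, hn⟩) ⟨0, hn⟩
    rwa [Matrix.smul_apply, Matrix.one_apply_eq, smul_eq_mul, mul_one] at h7
  have hinj : ∀ {A B : Matrix (Fin n) (Fin n) K}, (2 : K) • A = (2 : K) • B → A = B := by
    intro A B hAB
    have h8 := congrArg (fun A => (2 : K)⁻¹ • A) hAB
    simpa only [smul_smul, inv_mul_cancel₀ h2, one_smul] using h8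
  rcases mul_self_eq_one_iff.1 h5 with h6 | h6
  · have h7 : Sm Lt.v x = 0 := by
      rw [h6, one_smul, sub_eq_self] at hcs
      exact hinj (by rw [hcs, smul_zero])
    by_cases hxe : x = []
    · rw [hxe, Ew_nil]
    · exact absurd h7 (hrs.Sm_ne hxo hxe)
  · have h7 : Sm Lt.v x = 1 := by
      rw [h6, neg_one_smul] at hcs
      apply hinj
      have h8 : (2 : K) • Sm Lt.v x = 1 - (1 - (2 : K) • Sm Lt.v x) := by abel
      rw [h8, hcs, two_smul]
      abel
    have h8 : ∀ P ∈ sf hd, P ∈ x := by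
      intro P hP
      by_contra hcon
      have h9 : P.v * Sm Lt.v x = 0 := hrs.mul_Sm_zero fun Q hQ =>
        hrs.orth_of_ne hmem hP (hx.subset hQ) fun h10 => hcon (h10 ▸ hQ)
      rw [h7, mul_one] at h9
      exact v_ne P h9
    have h9 : (sf hd).Nodup := hrs.nodup_of (mem_FrD.1 (sf_mem hd)).2
    have h10 : x = sf hd := hx.eq_of_length_le (h9.subperm h8).length_le
    rw [h10, hsf]

/-- full products -/
theorem full [Finite K] (hd : ∀ i, d i ≠ 0) (h2 : (2 : K) ≠ 0) (h3 : (3 : K) ≠ 0)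
    (hsf : (List.ofFn fun i : Fin n => R (Pi.single i 1)).prod = 1) {M : Subgroup G}
    (hM : ∀ y, ip d y y ≠ 0 → R y ∈ M)
    (hc : ∀ g ∈ M, (∀ i, g * R (Pi.single i 1) = R (Pi.single i 1) * g) →
      g ∈ closure (Set.range fun i : Fin n => R (Pi.single i 1))) :
    ∀ w ∈ FrD d, Ew (fun P : Lt d => R P.x) w = 1 := by
  intro w hw
  refine h.cfree hd h2 h3 hsf (hc _ ?_ fun i => h.Ew_full_comm hw (ip_std_ne hd i))
    fun y hy => h.Ew_full_comm hw hy
  have h4 : ∀ x : List (Lt d), Ew (fun P : Lt d => R P.x) x ∈ M := by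
    intro x
    induction x with
    | nil => exact one_mem _
    | cons a x ih =>
      rw [Ew_cons]
      exact mul_mem (hM _ a.hx) ih
  exact h4 w

end VR

section
variable {G : Type u} [Group G]

/-- blocks -/
structure TCJ (𝕜 : Type v) [Field 𝕜] (M F : Subgroup G) : Prop where
  top : ∃ (α : Ch 𝕜 (Subgroup G)) (φ : List (Subgroup G)), TopCycle 𝕜 2 M F α φ
  cf : ∀ x ∈ F, (∀ y ∈ M, x * y = y * x) → x = 1

lemma TCJ.le {𝕜 : Type v} [Field 𝕜] {M F : Subgroup G} (h : TCJ 𝕜 M F) : F ≤ M := by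
  obtain ⟨⟨α, φ, h1⟩, -⟩ := h
  exact H487.topCycle_le h1

lemma TCJ.bot {𝕜 : Type v} [Field 𝕜] : TCJ 𝕜 (⊥ : Subgroup G) ⊥ where
  top := by
    refine ⟨Finsupp.single [] 1, [], ?_, by simp, by simp, Or.inl ⟨rfl, rfl⟩, by simp⟩
    refine single_mem_Sp (𝕜 := 𝕜) (P := fun l : List (Subgroup G) => st (Ain 2 (⊥ : Subgroup G)) l ∧
      l.length = ([] : List (Subgroup G)).length) ?_ 1
    exact ⟨⟨List.Pairwise.nil, by simp⟩, rfl⟩
  cf x hx _ := mem_bot.1 hx

lemma TCJ.join [Finite G] {𝕜 : Type v} [Field 𝕜] {M F M' F' : Subgroup G} (h : TCJ 𝕜 M F)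
    (h' : TCJ 𝕜 M' F') (hc : ∀ x ∈ M, ∀ y ∈ M', x * y = y * x) : TCJ 𝕜 (M ⊔ M') (F ⊔ F') := by
  have : Fact (Nat.Prime 2) := ⟨Nat.prime_two⟩
  have hF := h.le
  have hF' := h'.le
  obtain ⟨⟨α, φ, h1⟩, h2⟩ := h
  obtain ⟨⟨α', φ', h1'⟩, h2'⟩ := h'
  refine ⟨H487.topCycle_join h1 h1' hc ?_, ?_⟩
  · rw [eq_bot_iff]
    rintro x ⟨hx, hx'⟩
    rw [mem_bot]
    exact h2 x hx fun y hy => (hc y hy x hx').symm
  · intro x hx hxc
    obtain ⟨a, ha, b, hb, rfl⟩ := mem_sup_comm (fun a ha b hb => hc a (hF ha) b (hF' hb)) hx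
    have e1 : a = 1 := by
      refine h2 a ha fun y hy => ?_
      have h3 := hxc y (mem_sup_left hy)
      have h4 := hc y hy b (hF' hb)
      have h5 : a * y * b = y * a * b := by
        calc a * y * b = a * (y * b) := mul_assoc _ _ _
          _ = a * (b * y) := by rw [h4]
          _ = y * (a * b) := by rw [← mul_assoc, h3]
          _ = y * a * b := (mul_assoc _ _ _).symm
      exact mul_right_cancel h5
    have e2 : b = 1 := by
      refine h2' b hb fun y hy => ?_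
      have h3 := hxc y (mem_sup_right hy)
      rwa [e1, one_mul] at h3
    rw [e1, e2, one_mul]

/-- larger groups -/
lemma TCJ.mono {𝕜 : Type v} [Field 𝕜] {M F M' : Subgroup G} (h : TCJ 𝕜 M F) (hM : M ≤ M') :
    ∃ (α : Ch 𝕜 (Subgroup G)) (φ : List (Subgroup G)), TopCycle 𝕜 2 M' F α φ := by
  obtain ⟨⟨α, φ, h1⟩, -⟩ := h
  exact ⟨α, φ, Sp_mono (fun l hl => ⟨⟨hl.1.1, fun t ht => ⟨(hl.1.2 t ht).1,
    (hl.1.2 t ht).2.trans hM⟩⟩, hl.2⟩) h1.mem, h1.cyc, h1.ne, h1.top, h1.card⟩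

/-- joins over finite sets -/
lemma TCJ.sup [Finite G] {𝕜 : Type v} [Field 𝕜] {J : Type*} [DecidableEq J] (s : Finset J)
    {M F : J → Subgroup G}
    (h : ∀ j ∈ s, TCJ 𝕜 (M j) (F j))
    (hc : ∀ i ∈ s, ∀ j ∈ s, i ≠ j → ∀ x ∈ M i, ∀ y ∈ M j, x * y = y * x) :
    TCJ 𝕜 (s.sup M) (s.sup F) := by
  induction s using Finset.induction_on with
  | empty => exact TCJ.bot
  | insert j s hj ih =>
    rw [Finset.sup_insert, Finset.sup_insert]
    refine TCJ.join (h j (Finset.mem_insert_self _ _))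
      (ih (fun i hi => h i (Finset.mem_insert_of_mem hi)) fun i hi k hk =>
        hc i (Finset.mem_insert_of_mem hi) k (Finset.mem_insert_of_mem hk)) ?_
    intro x hx y hy
    have h1 : s.sup M ≤ centralizer (M j : Set G) := by
      refine Finset.sup_le fun i hi z hz => ?_
      rw [mem_centralizer_iff]
      intro t ht
      exact hc j (Finset.mem_insert_self _ _) i (Finset.mem_insert_of_mem hi)
        (fun h2 => hj (h2 ▸ hi)) t ht z hz
    exact (mem_centralizer_iff.1 (h1 hy)) x hx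

end

section
variable {K : Type u} [Field K] {n : ℕ} {d : Fin n → K} {G : Type w} [Group G]
  {R : (Fin n → K) → G}

/-- **Blocks from systems of reflections.** -/
theorem VR.tcj [Finite K] [Finite G] {𝕜 : Type w'} [Field 𝕜] (h : VR d R) (e : K ≃+* ZMod 5)
    (hd : ∀ i, d i ≠ 0) (hn : 2 ≤ n)
    (hsf : (List.ofFn fun i : Fin n => R (Pi.single i 1)).prod = 1) {M : Subgroup G}
    (hM : ∀ y, ip d y y ≠ 0 → R y ∈ M)
    (hc : ∀ g ∈ M, (∀ i, g * R (Pi.single i 1) = R (Pi.single i 1) * g) →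
      g ∈ closure (Set.range fun i : Fin n => R (Pi.single i 1)))
    {m j : ℕ} (hj : 1 ≤ j) (ht : (List.ofFn d).map (fun x => IsSquare x) =
      List.replicate m False ++ (List.replicate j True ++ [False])) :
    TCJ 𝕜 M (closure (Set.range fun i : Fin n => R (Pi.single i 1))) := by
  have h2 : (2 : K) ≠ 0 := by
    intro h0
    have h1 := congrArg e h0
    rw [map_ofNat, map_zero] at h1
    exact absurd h1 (by decide)
  have h3 : (3 : K) ≠ 0 := by
    intro h0
    have h1 := congrArg e h0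
    rw [map_ofNat, map_zero] at h1
    exact absurd h1 (by decide)
  have hfull := h.full hd h2 h3 hsf hM hc
  refine ⟨std_top e hd hn h hfull hj ht hM, fun x hx hxc => ?_⟩
  exact h.cfree hd h2 h3 hsf hx fun y hy => hxc _ (hM y hy)

end

end Vale.Agent.P240.R2.H490
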