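import Vale.Agent.P240.R2.H490.P5B

/-!
The blocks `V_3`, `V_4`, `V_6`: definitions and statements.
-/

set_option autoImplicit false
set_option linter.all false

namespace Vale.Agent.P240.R2.H490

open Subgroup Matrix Vale.Agent.P240 Vale.Agent.P240.H195 Vale.Agent.P240.R2.H487

universe u v w

section
variable {F : Type u} [Field F] {a m : ℕ} (ι : ZMod 5 →+* F) (σ : Fin (m + 1) ≃ (Fin a → Fin 2))

/-- the Pauli group of a set of factors -/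
def PJ (J : Finset (Fin a)) : Subgroup (MulAut (PL m F)) :=
  closure {x | ∃ j ∈ J, ∃ i : Fin 3, i ≠ 2 ∧ x = pgl m F (gT σ j (uB ι i))}

/-- the group of the block `V_3` -/
def M3 (j : Fin a) : Subgroup (MulAut (PL m F)) :=
  closure {x | ∃ (B : M2 (ZMod 5)) (g : GL (Fin 2) F), B.trace = 0 ∧ g.1 = B.map ι ∧
    x = pgl m F (gT σ j g)}

/-- the group of the block `V_4` -/
def M4 (α : F) (j : Fin a) (δ : MulAut (PL m F)) : Subgroup (MulAut (PL m F)) :=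
  closure {x | ∃ (B : M2 (ZMod 5)) (t : ZMod 5) (g : GL (Fin 2) F), B.trace = 0 ∧
    g.1 = B.map ι + (α * ι t) • 1 ∧ x = pgl m F (gT σ j g) * δ}

/-- the group of the block `V_6` -/
def M6 (j j' : Fin a) : Subgroup (MulAut (PL m F)) :=
  closure {x | ∃ (B B' : M2 (ZMod 5)) (U : GLm m F), B.trace = 0 ∧ B'.trace = 0 ∧
    U.1 = TT σ j (B.map ι) + TT σ j' (B'.map ι) ∧ x = pgl m F U * g0 σ}

end

section
variable {F : Type u} [Field F] {a m : ℕ} (ι : ZMod 5 →+* F) (σ : Fin (m + 1) ≃ (Fin a → Fin 2))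

/-- the centralizer of a frame in a group (proved in `P5N`) -/
def StmtHC : Prop := ∀ {J : Finset (Fin a)} {δ : MulAut (PL m F)}, δ ∈ DM σ →
  ∀ {M Q : Subgroup (MulAut (PL m F))}, M ≤ (pgl m F).range ⊔ zpowers δ →
  (∀ g ∈ M, ∀ l ∉ J, ∀ x : GL (Fin 2) F, Rat2 x → g * pgl m F (gT σ l x) = pgl m F (gT σ l x) * g) →
  (∀ j ∈ J, ∀ i : Fin 3, i ≠ 2 → pgl m F (gT σ j (uB ι i)) ∈ Q) → δ ∈ Q →
  ∀ g ∈ M, (∀ y ∈ Q, g * y = y * g) → g ∈ Q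

end

/-- the block `V_4` -/
def StmtV4 (𝕜 : Type v) [Field 𝕜] : Prop :=
  ∀ (F : Type) [Field F] [Finite F] [CharP F 5] (a m : ℕ) (ι : ZMod 5 →+* F)
    (σ : Fin (m + 1) ≃ (Fin a → Fin 2)), 1 ≤ m → StmtHC ι σ →
    ∀ (α : F), α * α = ι 2 → ∀ (τ : RingAut F), τ α = -α → τ * τ = 1 →
    (∀ τ' : RingAut F, τ' = 1 ∨ τ' = τ) →
    ∀ (δ : MulAut (PL m F)), (δ = fa τ ∨ δ = fa τ * g0 σ) → ∀ j : Fin a,
      TCJ 𝕜 (M4 ι σ α j δ) (PJ ι σ {j} ⊔ zpowers δ)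

/-- the block `V_6` -/
def StmtV6 (𝕜 : Type v) [Field 𝕜] : Prop :=
  ∀ (F : Type) [Field F] [Finite F] [CharP F 5] (a m : ℕ) (ι : ZMod 5 →+* F)
    (σ : Fin (m + 1) ≃ (Fin a → Fin 2)), 1 ≤ m → StmtHC ι σ →
    ∀ j j' : Fin a, j ≠ j' → TCJ 𝕜 (M6 ι σ j j') (PJ ι σ {j, j'} ⊔ zpowers (g0 σ))

/-- determinants for the block `V_6` -/
def StmtDet6 : Prop :=
  ∀ (F : Type) [Field F] (a m : ℕ) (ι : ZMod 5 →+* F)
    (σ : Fin (m + 1) ≃ (Fin a → Fin 2)) (j j' : Fin a), j ≠ j' → ∀ B B' : M2 F, B.trace = 0 →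
    B'.trace = 0 → (TT σ j B + TT σ j' B').det = (B.det - B'.det) ^ 2 ^ (a - 1)

end Vale.Agent.P240.R2.H490
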