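import Vale.Agent.P240.R2.H490.P5M

/-!
The centralizer of a frame.
-/

set_option autoImplicit false
set_option linter.all false

namespace Vale.Agent.P240.R2.H490

open Subgroup Matrix Vale.Agent.P240 Vale.Agent.P240.H195 Vale.Agent.P240.R2.H487

universe u v w

section
variable {F : Type u} [Field F] (ι : ZMod 5 →+* F)

/-- matrices over the prime field are rational -/
lemma rat_map (τ : RingAut F) (B : M2 (ZMod 5)) : (B.map ι).map τ = B.map ι := by
  rw [Matrix.map_map]
  have h1 : (τ : F →+* F).comp ι = ι := Subsingleton.elim _ _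
  ext i j
  exact DFunLike.congr_fun h1 (B i j)

lemma rat_of {g : GL (Fin 2) F} {B : M2 (ZMod 5)} (h : g.1 = B.map ι) : Rat2 g := fun τ => by
  rw [h]
  exact rat_map ι τ B

lemma uB_rat (i : Fin 3) : Rat2 (uB ι i) := rat_of ι rfl

lemma Rat2.mul {g h : GL (Fin 2) F} (hg : Rat2 g) (hh : Rat2 h) : Rat2 (g * h) := fun τ => by
  rw [Units.val_mul]
  have h1 : (g.1 * h.1).map (τ : F →+* F) = g.1.map (τ : F →+* F) * h.1.map (τ : F →+* F) :=
    Matrix.map_mul
  exact h1.trans (by
    have h2 := hg τ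
    have h3 := hh τ
    exact congrArg₂ _ h2 h3)

lemma vv_rat (s : Bool × Bool) : Rat2 (vv ι s) := by
  obtain ⟨s, t⟩ := s
  refine Rat2.mul ?_ ?_
  · cases s
    · exact Rat2.one
    · exact uB_rat ι 0
  · cases t
    · exact Rat2.one
    · exact uB_rat ι 1

lemma bF_trace (i : Fin 3) : (bF ι i).trace = 0 := by
  have h1 : ∀ i, (bb i).trace = 0 := by decide
  rw [← map_zero ι, ← h1 i, bF, Matrix.trace_fin_two, Matrix.trace_fin_two, map_add]
  rfl

lemma bF_ne (i : Fin 3) : bF ι i ≠ 0 := by
  intro h0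
  have h1 := bF_sq ι i
  rw [h0, mul_zero] at h1
  have h2 := congrFun (congrFun h1 0) 0
  rw [Matrix.smul_apply, Matrix.one_apply_eq, Matrix.zero_apply, smul_eq_mul, mul_one] at h2
  have h3 := neg_eq_zero.1 h2.symm
  rw [map_eq_zero] at h3
  exact db_ne i h3

/-- a matrix over the prime field with nonzero determinant -/
lemma exists_unit (B : M2 (ZMod 5)) (h : B.det ≠ 0) : ∃ g : GL (Fin 2) F, g.1 = B.map ι := by
  have h1 : (B.map ι).det = ι B.det := (RingHom.map_det ι B).symm
  have h2 : (B.map ι).det ≠ 0 := by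
    rw [h1, Ne, map_eq_zero]
    exact h
  exact ⟨Matrix.GeneralLinearGroup.mkOfDetNeZero _ h2, rfl⟩

end

section
variable {F : Type u} [Field F] {a m : ℕ} (ι : ZMod 5 →+* F) (σ : Fin (m + 1) ≃ (Fin a → Fin 2))

/-- elements with nontrivial components do not commute with all rational elements -/
lemma vv_one (r : ℕ) [Fact r.Prime] [CharP F r] (hm : 1 ≤ m) {v : Fin a → Bool × Bool} {l : Fin a}
    (h : ∀ x : GL (Fin 2) F, Rat2 x →
      pgl m F (GT σ fun j => vv ι (v j)) * pgl m F (gT σ l x) =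
        pgl m F (gT σ l x) * pgl m F (GT σ fun j => vv ι (v j))) : v l = (false, false) := by
  have key : ∀ (i : Fin 3) (b : Bool) (c : ZMod 5), (c • 1 + bb i).det ≠ 0 → c ≠ 0 →
      (GT σ fun j => vv ι (v j)).1 * TT σ l (bF ι i) =
        (sB b : F) • (TT σ l (bF ι i) * (GT σ fun j => vv ι (v j)).1) → b = false := by
    intro i b c hdet hc0 hb
    obtain ⟨x, hx⟩ := exists_unit (F := F) ι _ hdet
    obtain ⟨e, he⟩ := (pgl_comm r hm).1 (h x (rat_of ι hx))
    have hx' : x.1 = ι c • 1 + bF ι i := by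
      rw [hx]
      ext i' j'
      simp only [Matrix.map_apply, Matrix.add_apply, Matrix.smul_apply, smul_eq_mul, map_add,
        map_mul, bF, Matrix.one_apply]
      congr 2
      split_ifs
      · exact map_one _
      · exact map_zero _
    rw [gT_val, hx', TT_add, TT_scalar, mul_add, hb, add_mul, smul_add, mul_smul_comm, mul_one,
      smul_mul_assoc, one_mul, smul_smul] at he
    -- cancel the invertible matrix
    have h3 : ι c • (1 : Matrix (Fin (m + 1)) (Fin (m + 1)) F) + (sB b : F) • TT σ l (bF ι i) =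
        (e * ι c) • 1 + e • TT σ l (bF ι i) := by
      set g := GT σ fun j => vv ι (v j) with hg
      have h4 : (ι c • (1 : Matrix (Fin (m + 1)) (Fin (m + 1)) F) + (sB b : F) • TT σ l (bF ι i)) * g.1 =
        ((e * ι c) • 1 + e • TT σ l (bF ι i)) * g.1 := by
        rw [add_mul, add_mul, smul_mul_assoc, smul_mul_assoc, smul_mul_assoc, smul_mul_assoc,
          one_mul, he]
      have h5 := congrArg (fun A => A * (g⁻¹).1) h4
      simp only [mul_assoc] at h5
      rwa [mul_inv_val, mul_one, mul_one] at h5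
    have h6 : TT σ l ((ι c * (1 - e)) • (1 : M2 F) + (sB b - e) • bF ι i) = 0 := by
      rw [TT_add, TT_smul, TT_smul, TT_one]
      have h7 := sub_eq_zero.2 h3
      rw [← h7]
      module
    have h7 := TT_inj σ h6
    have h8 := congrArg Matrix.trace h7
    rw [Matrix.trace_add, Matrix.trace_smul, Matrix.trace_smul, bF_trace, smul_zero, add_zero,
      Matrix.trace_one, Matrix.trace_zero, Fintype.card_fin, smul_eq_mul] at h8
    have hc1 : ι c ≠ 0 := by rwa [Ne, map_eq_zero]
    have h9 : e = 1 := by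
      have h10 : ι c * (1 - e) * 2 = 0 := by exact_mod_cast h8
      rcases mul_eq_zero.1 h10 with h11 | h11
      · rcases mul_eq_zero.1 h11 with h12 | h12
        · exact absurd h12 hc1
        · exact (sub_eq_zero.1 h12).symm
      · exact absurd h11 (two_ne0 ι)
    rw [h9, sub_self, mul_zero, zero_smul, zero_add] at h7
    cases b with
    | false => rfl
    | true =>
      exfalso
      rcases smul_eq_zero.1 h7 with h10 | h10
      · have h11 : (2 : F) = 0 := by
          have h12 : (-1 : F) - 1 = 0 := h10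
          linear_combination -h12
        exact two_ne0 ι h11
      · exact bF_ne ι i h10
  have e0 := key 0 (v l).2 1 (by decide) (by decide) (GT_TT σ (vv_0 ι (v l)))
  have e1 := key 1 (v l).1 2 (by decide) (by decide) (GT_TT σ (vv_1 ι (v l)))
  exact Prod.ext e1 e0

/-- products of components -/
lemma GT_mem {Q : Subgroup (MulAut (PL m F))} {g : Fin a → GL (Fin 2) F}
    (h : ∀ j, pgl m F (gT σ j (g j)) ∈ Q) : pgl m F (GT σ g) ∈ Q := by
  have h1 : g ∈ Q.comap ((pgl m F).comp (GT σ)) := Subgroup.pi_mem_of_mulSingle_mem g fun j => h j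
  exact h1

lemma vv_mem {Q : Subgroup (MulAut (PL m F))} {j : Fin a}
    (h : ∀ i : Fin 3, i ≠ 2 → pgl m F (gT σ j (uB ι i)) ∈ Q) (s : Bool × Bool) :
    pgl m F (gT σ j (vv ι s)) ∈ Q := by
  rw [vv, map_mul, map_mul]
  refine mul_mem ?_ ?_
  · split_ifs
    · exact h 0 (by decide)
    · rw [map_one, map_one]; exact one_mem _
  · split_ifs
    · exact h 1 (by decide)
    · rw [map_one, map_one]; exact one_mem _

lemma comm_cancel {G : Type*} [Group G] {x d y : G} (h : x * d * y = y * (x * d)) (hd : d * y = y * d) :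
    x * y = y * x := by
  have h1 : x * y * d = y * x * d := by
    rw [mul_assoc, ← hd, ← mul_assoc, h, mul_assoc]
  exact mul_right_cancel h1

lemma comm_zpow {G : Type*} [Group G] {d y : G} (hd : d * y = y * d) (k : ℤ) :
    d ^ k * y = y * d ^ k := (Commute.zpow_left (show Commute d y from hd) k)

theorem stmtHC (r : ℕ) [Fact r.Prime] [CharP F r] (hm : 1 ≤ m)
    (haut : ∀ g : MulAut (PL m F), ∃ M τ, g = sem M τ ∨ g = sem M τ * ind (itA m F)) :
    StmtHC ι σ := by
  intro J δ hδ M Q hM hMl hQ hQδ g hg hgQ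
  have hn : (pgl m F).range.Normal := by
    constructor
    intro y hy x
    exact pgl_conj haut x hy
  obtain ⟨_, ⟨U, rfl⟩, d, ⟨k, rfl⟩, rfl⟩ := Subgroup.mem_sup_of_normal_left.1 (hM hg)
  simp only at hg hgQ ⊢
  have hdc : ∀ (j : Fin a) (x : GL (Fin 2) F), Rat2 x →
      δ ^ k * pgl m F (gT σ j x) = pgl m F (gT σ j x) * δ ^ k := fun j x hx =>
    comm_zpow (DM_gT σ r hm hδ hx) k
  obtain ⟨v, hv⟩ := z1 ι σ r hm (M := U) (by
    intro j i hi
    refine comm_cancel ?_ (hdc j _ (uB_rat ι i))
    by_cases hj : j ∈ J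
    · exact hgQ _ (hQ j hj i hi)
    · exact hMl _ hg j hj _ (uB_rat ι i))
  rw [hv] at hg hgQ ⊢
  refine mul_mem (GT_mem σ fun j => ?_) (zpow_mem hQδ k)
  by_cases hj : j ∈ J
  · exact vv_mem ι σ (hQ j hj) _
  · have h1 : v j = (false, false) := by
      refine vv_one ι σ r hm fun x hx => comm_cancel (hMl _ hg j hj x hx) (hdc j x hx)
    rw [h1, vv]
    simp only [Bool.false_eq_true, if_false, mul_one, map_one]
    exact one_mem _

end

end Vale.Agent.P240.R2.H490
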