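import Vale.Agent.P240.H138.F5d

/-!
The algebra `𝕜⟨y₁, y₂, y₃, y₄⟩` over any field, two odd derivations, and the relations (copy of
`H138/F5a` over a general field).
-/

set_option autoImplicit false

namespace Vale.Agent.P240.R2.H490.F5

open Finset

open Vale.Agent.P240.H138.F5 (Lt rl)

universe v

noncomputable section

variable {𝕜 : Type v} [Field 𝕜]


variable (𝕜) in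
/-- the generators -/
def Yk (i : Fin 4) : (FreeAlgebra 𝕜 (Fin 4)) := FreeAlgebra.ι 𝕜 i


variable (𝕜) in
/-- the relation -/
def ρk : (FreeAlgebra 𝕜 (Fin 4)) := (Yk 𝕜) 0 * (Yk 𝕜) 3 + (Yk 𝕜) 3 * (Yk 𝕜) 0 + (Yk 𝕜) 1 * (Yk 𝕜) 2 + (Yk 𝕜) 2 * (Yk 𝕜) 1


variable (𝕜) in
/-- the parity automorphism -/
def σk : (FreeAlgebra 𝕜 (Fin 4)) →ₐ[𝕜] (FreeAlgebra 𝕜 (Fin 4)) := FreeAlgebra.lift 𝕜 (fun i => - (Yk 𝕜) i)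


@[simp] lemma σ_Y (i : Fin 4) : (σk 𝕜) ((Yk 𝕜) i) = - (Yk 𝕜) i := by
  simp [σk, Yk]

/-- induction -/
lemma ind {P : (FreeAlgebra 𝕜 (Fin 4)) → Prop} (h1 : ∀ c : 𝕜, P (algebraMap 𝕜 (FreeAlgebra 𝕜 (Fin 4)) c)) (h2 : ∀ i, P ((Yk 𝕜) i))
    (h3 : ∀ a b, P a → P b → P (a * b)) (h4 : ∀ a b, P a → P b → P (a + b)) (a : (FreeAlgebra 𝕜 (Fin 4))) : P a :=
  FreeAlgebra.induction 𝕜 (Fin 4) (motive := P) h1 h2 h3 h4 a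

variable (𝕜) in
/-- `a ↦ (σ a, D a; 0, a)` -/
def Θk (d : Fin 4 → (FreeAlgebra 𝕜 (Fin 4))) : (FreeAlgebra 𝕜 (Fin 4)) →ₐ[𝕜] Matrix (Fin 2) (Fin 2) (FreeAlgebra 𝕜 (Fin 4)) :=
  FreeAlgebra.lift 𝕜 (fun i => !![-(Yk 𝕜) i, d i; 0, (Yk 𝕜) i])


lemma Θ_Y (d : Fin 4 → (FreeAlgebra 𝕜 (Fin 4))) (i : Fin 4) : (Θk 𝕜) d ((Yk 𝕜) i) = !![-(Yk 𝕜) i, d i; 0, (Yk 𝕜) i] := by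
  rw [Θk, Yk, FreeAlgebra.lift_ι_apply]
  rfl

variable (𝕜) in
/-- the odd derivation with `y_i ↦ d_i` -/
def Dk (d : Fin 4 → (FreeAlgebra 𝕜 (Fin 4))) : (FreeAlgebra 𝕜 (Fin 4)) →ₗ[𝕜] (FreeAlgebra 𝕜 (Fin 4)) where
  toFun a := (Θk 𝕜) d a 0 1
  map_add' a b := by rw [map_add]; rfl
  map_smul' c a := by rw [map_smul]; rfl


lemma Θ_eq (d : Fin 4 → (FreeAlgebra 𝕜 (Fin 4))) (a : (FreeAlgebra 𝕜 (Fin 4))) : (Θk 𝕜) d a = !![(σk 𝕜) a, (Dk 𝕜) d a; 0, a] := by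
  have key : (Θk 𝕜) d a 0 0 = (σk 𝕜) a ∧ (Θk 𝕜) d a 1 0 = 0 ∧ (Θk 𝕜) d a 1 1 = a := by
    refine ind (P := fun a => (Θk 𝕜) d a 0 0 = (σk 𝕜) a ∧ (Θk 𝕜) d a 1 0 = 0 ∧ (Θk 𝕜) d a 1 1 = a) ?_ ?_ ?_ ?_ a
    · intro c
      simp [Matrix.algebraMap_matrix_apply]
    · intro i
      rw [Θ_Y]
      simp
    · rintro a b ⟨h1, h2, h3⟩ ⟨h4, h5, h6⟩
      simp [map_mul, Matrix.mul_apply, Fin.sum_univ_two, h1, h2, h3, h4, h5, h6]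
    · rintro a b ⟨h1, h2, h3⟩ ⟨h4, h5, h6⟩
      simp [map_add, h1, h2, h3, h4, h5, h6]
  obtain ⟨h1, h2, h3⟩ := key
  ext i j
  fin_cases i <;> fin_cases j
  · exact h1
  · rfl
  · exact h2
  · exact h3

@[simp] lemma D_Y (d : Fin 4 → (FreeAlgebra 𝕜 (Fin 4))) (i : Fin 4) : (Dk 𝕜) d ((Yk 𝕜) i) = d i := by
  change (Θk 𝕜) d ((Yk 𝕜) i) 0 1 = _
  rw [Θ_Y]
  rfl

lemma D_mul (d : Fin 4 → (FreeAlgebra 𝕜 (Fin 4))) (a b : (FreeAlgebra 𝕜 (Fin 4))) : (Dk 𝕜) d (a * b) = (Dk 𝕜) d a * b + (σk 𝕜) a * (Dk 𝕜) d b := by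
  change (Θk 𝕜) d (a * b) 0 1 = _
  rw [map_mul, Θ_eq, Θ_eq, Matrix.mul_apply, Fin.sum_univ_two]
  simp
  abel

lemma D_algebraMap (d : Fin 4 → (FreeAlgebra 𝕜 (Fin 4))) (c : 𝕜) : (Dk 𝕜) d (algebraMap 𝕜 (FreeAlgebra 𝕜 (Fin 4)) c) = 0 := by
  change (Θk 𝕜) d (algebraMap 𝕜 (FreeAlgebra 𝕜 (Fin 4)) c) 0 1 = _
  rw [AlgHom.commutes]
  rw [Matrix.algebraMap_matrix_apply]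
  simp

lemma D_one (d : Fin 4 → (FreeAlgebra 𝕜 (Fin 4))) : (Dk 𝕜) d 1 = 0 := by
  have := D_algebraMap d 1
  rwa [map_one] at this

/-- `D σ = - σ D` if the `d_i` are even -/
lemma D_σ (d : Fin 4 → (FreeAlgebra 𝕜 (Fin 4))) (hd : ∀ i, (σk 𝕜) (d i) = d i) (a : (FreeAlgebra 𝕜 (Fin 4))) : (Dk 𝕜) d ((σk 𝕜) a) = - (σk 𝕜) ((Dk 𝕜) d a) := by
  refine ind (P := fun a => (Dk 𝕜) d ((σk 𝕜) a) = - (σk 𝕜) ((Dk 𝕜) d a)) ?_ ?_ ?_ ?_ a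
  · intro c
    rw [AlgHom.commutes, D_algebraMap, map_zero, neg_zero]
  · intro i
    rw [σ_Y, map_neg, D_Y, hd]
  · intro a b ha hb
    rw [map_mul, D_mul, D_mul, ha, hb, map_add, map_mul, map_mul]
    noncomm_ring
  · intro a b ha hb
    rw [map_add, map_add, map_add, ha, hb, map_add]
    abel

variable (𝕜) in
/-- the ideal generated by the relation -/
def Ik : Submodule 𝕜 (FreeAlgebra 𝕜 (Fin 4)) := Submodule.span 𝕜 {x | ∃ a b : (FreeAlgebra 𝕜 (Fin 4)), x = a * (ρk 𝕜) * b}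


lemma I_mul_left (a : (FreeAlgebra 𝕜 (Fin 4))) {x : (FreeAlgebra 𝕜 (Fin 4))} (hx : x ∈ (Ik 𝕜)) : a * x ∈ (Ik 𝕜) := by
  refine Submodule.span_induction (p := fun x _ => a * x ∈ (Ik 𝕜)) ?_ ?_ ?_ ?_ hx
  · rintro _ ⟨b, c, rfl⟩
    exact Submodule.subset_span ⟨a * b, c, by noncomm_ring⟩
  · rw [mul_zero]; exact zero_mem _
  · intro x y _ _ h1 h2
    rw [mul_add]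
    exact add_mem h1 h2
  · intro c x _ h1
    rw [mul_smul_comm]
    exact Submodule.smul_mem _ _ h1

lemma I_mul_right (a : (FreeAlgebra 𝕜 (Fin 4))) {x : (FreeAlgebra 𝕜 (Fin 4))} (hx : x ∈ (Ik 𝕜)) : x * a ∈ (Ik 𝕜) := by
  refine Submodule.span_induction (p := fun x _ => x * a ∈ (Ik 𝕜)) ?_ ?_ ?_ ?_ hx
  · rintro _ ⟨b, c, rfl⟩
    exact Submodule.subset_span ⟨b, c * a, by noncomm_ring⟩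
  · rw [zero_mul]; exact zero_mem _
  · intro x y _ _ h1 h2
    rw [add_mul]
    exact add_mem h1 h2
  · intro c x _ h1
    rw [smul_mul_assoc]
    exact Submodule.smul_mem _ _ h1

lemma ρ_mem : (ρk 𝕜) ∈ (Ik 𝕜) := Submodule.subset_span ⟨1, 1, by rw [one_mul, mul_one]⟩

lemma D_I (d : Fin 4 → (FreeAlgebra 𝕜 (Fin 4))) (hd : (Dk 𝕜) d (ρk 𝕜) = 0) {x : (FreeAlgebra 𝕜 (Fin 4))} (hx : x ∈ (Ik 𝕜)) : (Dk 𝕜) d x ∈ (Ik 𝕜) := by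
  refine Submodule.span_induction (p := fun x _ => (Dk 𝕜) d x ∈ (Ik 𝕜)) ?_ ?_ ?_ ?_ hx
  · rintro _ ⟨b, c, rfl⟩
    have hσ : (σk 𝕜) (ρk 𝕜) = (ρk 𝕜) := by simp [ρk]
    rw [D_mul, D_mul, hd, map_mul, hσ, mul_zero, add_zero]
    exact add_mem (Submodule.subset_span ⟨_, _, rfl⟩) (Submodule.subset_span ⟨_, _, rfl⟩)
  · rw [map_zero]; exact zero_mem _
  · intro x y _ _ h1 h2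
    rw [map_add]
    exact add_mem h1 h2
  · intro c x _ h1
    rw [map_smul]
    exact Submodule.smul_mem _ _ h1

variable (𝕜) in
/-- the values of the first derivation -/
def d1k : Fin 4 → (FreeAlgebra 𝕜 (Fin 4)) :=
  ![-2 * ((Yk 𝕜) 2 * (Yk 𝕜) 2), -2 * ((Yk 𝕜) 3 * (Yk 𝕜) 2 + (Yk 𝕜) 2 * (Yk 𝕜) 3), -2 * ((Yk 𝕜) 0 * (Yk 𝕜) 1 + (Yk 𝕜) 1 * (Yk 𝕜) 0), -2 * ((Yk 𝕜) 1 * (Yk 𝕜) 1)]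


variable (𝕜) in
/-- the values of the second derivation -/
def d2k : Fin 4 → (FreeAlgebra 𝕜 (Fin 4)) :=
  ![-2 * ((Yk 𝕜) 3 * (Yk 𝕜) 1 + (Yk 𝕜) 1 * (Yk 𝕜) 3), -2 * ((Yk 𝕜) 0 * (Yk 𝕜) 0), -2 * ((Yk 𝕜) 3 * (Yk 𝕜) 3), -2 * ((Yk 𝕜) 0 * (Yk 𝕜) 2 + (Yk 𝕜) 2 * (Yk 𝕜) 0)]


lemma σ_two : (σk 𝕜) 2 = 2 := map_ofNat (σk 𝕜) 2

lemma d1_even (i : Fin 4) : (σk 𝕜) ((d1k 𝕜) i) = (d1k 𝕜) i := by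
  fin_cases i <;> simp [d1k, σ_two]

lemma d2_even (i : Fin 4) : (σk 𝕜) ((d2k 𝕜) i) = (d2k 𝕜) i := by
  fin_cases i <;> simp [d2k, σ_two]

lemma D1_ρ : (Dk 𝕜) (d1k 𝕜) (ρk 𝕜) = 0 := by
  simp only [ρk, map_add, D_mul, D_Y, σ_Y, d1k]
  simp
  noncomm_ring

lemma D2_ρ : (Dk 𝕜) (d2k 𝕜) (ρk 𝕜) = 0 := by
  simp only [ρk, map_add, D_mul, D_Y, σ_Y, d2k]
  simp
  noncomm_ring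

/-- `D₁² + D₂²` vanishes modulo the ideal -/
lemma sq_mem (a : (FreeAlgebra 𝕜 (Fin 4))) : (Dk 𝕜) (d1k 𝕜) ((Dk 𝕜) (d1k 𝕜) a) + (Dk 𝕜) (d2k 𝕜) ((Dk 𝕜) (d2k 𝕜) a) ∈ (Ik 𝕜) := by
  refine ind (P := fun a => (Dk 𝕜) (d1k 𝕜) ((Dk 𝕜) (d1k 𝕜) a) + (Dk 𝕜) (d2k 𝕜) ((Dk 𝕜) (d2k 𝕜) a) ∈ (Ik 𝕜)) ?_ ?_ ?_ ?_ a
  · intro c
    rw [D_algebraMap, D_algebraMap, map_zero, map_zero, add_zero]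
    exact zero_mem _
  · intro i
    have h1 : (Dk 𝕜) (d1k 𝕜) ((Dk 𝕜) (d1k 𝕜) ((Yk 𝕜) i)) + (Dk 𝕜) (d2k 𝕜) ((Dk 𝕜) (d2k 𝕜) ((Yk 𝕜) i)) = 4 * (Yk 𝕜) i * (ρk 𝕜) + -4 * (ρk 𝕜) * (Yk 𝕜) i := by
      fin_cases i <;>
      · simp [D_mul, d1k, d2k, ρk, two_mul, ← sub_eq_add_neg]
        noncomm_ring
    rw [h1]
    exact add_mem (I_mul_left _ ρ_mem) (I_mul_right _ (I_mul_left _ ρ_mem))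
  · intro a b ha hb
    have h1 : (Dk 𝕜) (d1k 𝕜) ((Dk 𝕜) (d1k 𝕜) (a * b)) + (Dk 𝕜) (d2k 𝕜) ((Dk 𝕜) (d2k 𝕜) (a * b)) =
        ((Dk 𝕜) (d1k 𝕜) ((Dk 𝕜) (d1k 𝕜) a) + (Dk 𝕜) (d2k 𝕜) ((Dk 𝕜) (d2k 𝕜) a)) * b + a * ((Dk 𝕜) (d1k 𝕜) ((Dk 𝕜) (d1k 𝕜) b) + (Dk 𝕜) (d2k 𝕜) ((Dk 𝕜) (d2k 𝕜) b)) := by
      rw [D_mul, D_mul, map_add, map_add, D_mul, D_mul, D_mul, D_mul, D_σ _ d1_even,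
        D_σ _ d2_even]
      have hσσ : ∀ x : (FreeAlgebra 𝕜 (Fin 4)), (σk 𝕜) ((σk 𝕜) x) = x := by
        intro x
        refine ind (P := fun x => (σk 𝕜) ((σk 𝕜) x) = x) ?_ ?_ ?_ ?_ x
        · intro c; rw [AlgHom.commutes, AlgHom.commutes]
        · intro i; rw [σ_Y, map_neg, σ_Y, neg_neg]
        · intro x y hx hy; rw [map_mul, map_mul, hx, hy]
        · intro x y hx hy; rw [map_add, map_add, hx, hy]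
      rw [hσσ]
      noncomm_ring
    rw [h1]
    exact add_mem (I_mul_right _ ha) (I_mul_left _ hb)
  · intro a b ha hb
    have h1 : (Dk 𝕜) (d1k 𝕜) ((Dk 𝕜) (d1k 𝕜) (a + b)) + (Dk 𝕜) (d2k 𝕜) ((Dk 𝕜) (d2k 𝕜) (a + b)) =
        ((Dk 𝕜) (d1k 𝕜) ((Dk 𝕜) (d1k 𝕜) a) + (Dk 𝕜) (d2k 𝕜) ((Dk 𝕜) (d2k 𝕜) a)) + ((Dk 𝕜) (d1k 𝕜) ((Dk 𝕜) (d1k 𝕜) b) + (Dk 𝕜) (d2k 𝕜) ((Dk 𝕜) (d2k 𝕜) b)) := by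
      rw [map_add, map_add, map_add, map_add]
      abel
    rw [h1]
    exact add_mem ha hb

/-- `D₁ D₂ + D₂ D₁ = 0` -/
lemma anti (a : (FreeAlgebra 𝕜 (Fin 4))) : (Dk 𝕜) (d1k 𝕜) ((Dk 𝕜) (d2k 𝕜) a) + (Dk 𝕜) (d2k 𝕜) ((Dk 𝕜) (d1k 𝕜) a) = 0 := by
  refine ind (P := fun a => (Dk 𝕜) (d1k 𝕜) ((Dk 𝕜) (d2k 𝕜) a) + (Dk 𝕜) (d2k 𝕜) ((Dk 𝕜) (d1k 𝕜) a) = 0) ?_ ?_ ?_ ?_ a
  · intro c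
    rw [D_algebraMap, D_algebraMap, map_zero, map_zero, add_zero]
  · intro i
    fin_cases i <;>
    · simp [D_mul, d1k, d2k, two_mul, ← sub_eq_add_neg]
      noncomm_ring
  · intro a b ha hb
    have h1 : (Dk 𝕜) (d1k 𝕜) ((Dk 𝕜) (d2k 𝕜) (a * b)) + (Dk 𝕜) (d2k 𝕜) ((Dk 𝕜) (d1k 𝕜) (a * b)) =
        ((Dk 𝕜) (d1k 𝕜) ((Dk 𝕜) (d2k 𝕜) a) + (Dk 𝕜) (d2k 𝕜) ((Dk 𝕜) (d1k 𝕜) a)) * b + a * ((Dk 𝕜) (d1k 𝕜) ((Dk 𝕜) (d2k 𝕜) b) + (Dk 𝕜) (d2k 𝕜) ((Dk 𝕜) (d1k 𝕜) b)) := by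
      rw [D_mul, D_mul, map_add, map_add, D_mul, D_mul, D_mul, D_mul, D_σ _ d1_even,
        D_σ _ d2_even]
      have hσσ : ∀ x : (FreeAlgebra 𝕜 (Fin 4)), (σk 𝕜) ((σk 𝕜) x) = x := by
        intro x
        refine ind (P := fun x => (σk 𝕜) ((σk 𝕜) x) = x) ?_ ?_ ?_ ?_ x
        · intro c; rw [AlgHom.commutes, AlgHom.commutes]
        · intro i; rw [σ_Y, map_neg, σ_Y, neg_neg]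
        · intro x y hx hy; rw [map_mul, map_mul, hx, hy]
        · intro x y hx hy; rw [map_add, map_add, hx, hy]
      rw [hσσ]
      noncomm_ring
    rw [h1, ha, hb, zero_mul, mul_zero, add_zero]
  · intro a b ha hb
    have h1 : (Dk 𝕜) (d1k 𝕜) ((Dk 𝕜) (d2k 𝕜) (a + b)) + (Dk 𝕜) (d2k 𝕜) ((Dk 𝕜) (d1k 𝕜) (a + b)) =
        ((Dk 𝕜) (d1k 𝕜) ((Dk 𝕜) (d2k 𝕜) a) + (Dk 𝕜) (d2k 𝕜) ((Dk 𝕜) (d1k 𝕜) a)) + ((Dk 𝕜) (d1k 𝕜) ((Dk 𝕜) (d2k 𝕜) b) + (Dk 𝕜) (d2k 𝕜) ((Dk 𝕜) (d1k 𝕜) b)) := by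
      rw [map_add, map_add, map_add, map_add]
      abel
    rw [h1, ha, hb, add_zero]

variable (𝕜) in
/-- the operators of the letters -/
def opk : Lt → (FreeAlgebra 𝕜 (Fin 4)) →ₗ[𝕜] (FreeAlgebra 𝕜 (Fin 4))
  | Lt.o1 => (Dk 𝕜) (d1k 𝕜)
  | Lt.o2 => (Dk 𝕜) (d2k 𝕜)
  | Lt.y1 => LinearMap.mulLeft 𝕜 ((Yk 𝕜) 0)
  | Lt.y2 => LinearMap.mulLeft 𝕜 ((Yk 𝕜) 1)
  | Lt.y3 => LinearMap.mulLeft 𝕜 ((Yk 𝕜) 2)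
  | Lt.y4 => LinearMap.mulLeft 𝕜 ((Yk 𝕜) 3)


lemma op_I (a : Lt) {x : (FreeAlgebra 𝕜 (Fin 4))} (hx : x ∈ (Ik 𝕜)) : (opk 𝕜) a x ∈ (Ik 𝕜) := by
  cases a
  · exact D_I _ D1_ρ hx
  · exact D_I _ D2_ρ hx
  all_goals exact I_mul_left _ hx

/-- the relations hold modulo the ideal -/
theorem rl_mem (i : Fin 11) (x : (FreeAlgebra 𝕜 (Fin 4))) : ((rl i).map fun p => (opk 𝕜) p.1 ((opk 𝕜) p.2 x)).sum ∈ (Ik 𝕜) := by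
  have h0 : ∀ y : (FreeAlgebra 𝕜 (Fin 4)), y = 0 → y ∈ (Ik 𝕜) := fun y hy => hy ▸ zero_mem (Ik 𝕜)
  fin_cases i
  · change (Dk 𝕜) (d1k 𝕜) ((Dk 𝕜) (d1k 𝕜) x) + ((Dk 𝕜) (d1k 𝕜) ((Dk 𝕜) (d1k 𝕜) x) + ((Dk 𝕜) (d2k 𝕜) ((Dk 𝕜) (d2k 𝕜) x) + ((Dk 𝕜) (d2k 𝕜) ((Dk 𝕜) (d2k 𝕜) x) + 0))) ∈ (Ik 𝕜)
    have h1 := sq_mem x
    have h2 : (Dk 𝕜) (d1k 𝕜) ((Dk 𝕜) (d1k 𝕜) x) + ((Dk 𝕜) (d1k 𝕜) ((Dk 𝕜) (d1k 𝕜) x) + ((Dk 𝕜) (d2k 𝕜) ((Dk 𝕜) (d2k 𝕜) x) + ((Dk 𝕜) (d2k 𝕜) ((Dk 𝕜) (d2k 𝕜) x) + 0))) =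
      ((Dk 𝕜) (d1k 𝕜) ((Dk 𝕜) (d1k 𝕜) x) + (Dk 𝕜) (d2k 𝕜) ((Dk 𝕜) (d2k 𝕜) x)) + ((Dk 𝕜) (d1k 𝕜) ((Dk 𝕜) (d1k 𝕜) x) + (Dk 𝕜) (d2k 𝕜) ((Dk 𝕜) (d2k 𝕜) x)) := by abel
    rw [h2]
    exact add_mem h1 h1
  · apply h0
    change (Yk 𝕜) 0 * ((Yk 𝕜) 0 * x) + ((Yk 𝕜) 0 * ((Yk 𝕜) 0 * x) + ((Yk 𝕜) 1 * (Dk 𝕜) (d2k 𝕜) x + ((Dk 𝕜) (d2k 𝕜) ((Yk 𝕜) 1 * x) + 0))) = 0
    rw [D_mul, D_Y, σ_Y]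
    simp [d2k]
    noncomm_ring
  · apply h0
    change (Yk 𝕜) 3 * ((Yk 𝕜) 3 * x) + ((Yk 𝕜) 3 * ((Yk 𝕜) 3 * x) + ((Yk 𝕜) 2 * (Dk 𝕜) (d2k 𝕜) x + ((Dk 𝕜) (d2k 𝕜) ((Yk 𝕜) 2 * x) + 0))) = 0
    rw [D_mul, D_Y, σ_Y]
    simp [d2k]
    noncomm_ring
  · apply h0
    change (Yk 𝕜) 1 * ((Yk 𝕜) 1 * x) + ((Yk 𝕜) 1 * ((Yk 𝕜) 1 * x) + ((Yk 𝕜) 3 * (Dk 𝕜) (d1k 𝕜) x + ((Dk 𝕜) (d1k 𝕜) ((Yk 𝕜) 3 * x) + 0))) = 0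
    rw [D_mul, D_Y, σ_Y]
    simp [d1k]
    noncomm_ring
  · apply h0
    change (Yk 𝕜) 2 * ((Yk 𝕜) 2 * x) + ((Yk 𝕜) 2 * ((Yk 𝕜) 2 * x) + ((Yk 𝕜) 0 * (Dk 𝕜) (d1k 𝕜) x + ((Dk 𝕜) (d1k 𝕜) ((Yk 𝕜) 0 * x) + 0))) = 0
    rw [D_mul, D_Y, σ_Y]
    simp [d1k]
    noncomm_ring
  · change (Yk 𝕜) 0 * ((Yk 𝕜) 3 * x) + ((Yk 𝕜) 3 * ((Yk 𝕜) 0 * x) + ((Yk 𝕜) 1 * ((Yk 𝕜) 2 * x) + ((Yk 𝕜) 2 * ((Yk 𝕜) 1 * x) + 0))) ∈ (Ik 𝕜)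
    have h1 : (Yk 𝕜) 0 * ((Yk 𝕜) 3 * x) + ((Yk 𝕜) 3 * ((Yk 𝕜) 0 * x) + ((Yk 𝕜) 1 * ((Yk 𝕜) 2 * x) + ((Yk 𝕜) 2 * ((Yk 𝕜) 1 * x) + 0))) =
      (ρk 𝕜) * x := by rw [ρk]; noncomm_ring
    rw [h1]
    exact I_mul_right _ ρ_mem
  · apply h0
    change (Dk 𝕜) (d1k 𝕜) ((Dk 𝕜) (d2k 𝕜) x) + ((Dk 𝕜) (d1k 𝕜) ((Dk 𝕜) (d2k 𝕜) x) + ((Dk 𝕜) (d1k 𝕜) ((Dk 𝕜) (d2k 𝕜) x) + ((Dk 𝕜) (d2k 𝕜) ((Dk 𝕜) (d1k 𝕜) x) + ((Dk 𝕜) (d2k 𝕜) ((Dk 𝕜) (d1k 𝕜) x) +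
      ((Dk 𝕜) (d2k 𝕜) ((Dk 𝕜) (d1k 𝕜) x) + 0))))) = 0
    have h1 := anti x
    rw [eq_neg_of_add_eq_zero_left h1]
    abel
  · apply h0
    change (Yk 𝕜) 0 * (Dk 𝕜) (d2k 𝕜) x + ((Dk 𝕜) (d2k 𝕜) ((Yk 𝕜) 0 * x) + ((Yk 𝕜) 3 * ((Yk 𝕜) 1 * x) + ((Yk 𝕜) 3 * ((Yk 𝕜) 1 * x) + ((Yk 𝕜) 1 * ((Yk 𝕜) 3 * x) +
      ((Yk 𝕜) 1 * ((Yk 𝕜) 3 * x) + 0))))) = 0
    rw [D_mul, D_Y, σ_Y]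
    simp [d2k]
    noncomm_ring
  · apply h0
    change (Yk 𝕜) 3 * (Dk 𝕜) (d2k 𝕜) x + ((Dk 𝕜) (d2k 𝕜) ((Yk 𝕜) 3 * x) + ((Yk 𝕜) 0 * ((Yk 𝕜) 2 * x) + ((Yk 𝕜) 0 * ((Yk 𝕜) 2 * x) + ((Yk 𝕜) 2 * ((Yk 𝕜) 0 * x) +
      ((Yk 𝕜) 2 * ((Yk 𝕜) 0 * x) + 0))))) = 0
    rw [D_mul, D_Y, σ_Y]
    simp [d2k]
    noncomm_ring
  · apply h0
    change (Dk 𝕜) (d1k 𝕜) ((Yk 𝕜) 1 * x) + ((Yk 𝕜) 1 * (Dk 𝕜) (d1k 𝕜) x + ((Yk 𝕜) 3 * ((Yk 𝕜) 2 * x) + ((Yk 𝕜) 3 * ((Yk 𝕜) 2 * x) + ((Yk 𝕜) 2 * ((Yk 𝕜) 3 * x) +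
      ((Yk 𝕜) 2 * ((Yk 𝕜) 3 * x) + 0))))) = 0
    rw [D_mul, D_Y, σ_Y]
    simp [d1k]
    noncomm_ring
  · apply h0
    change (Dk 𝕜) (d1k 𝕜) ((Yk 𝕜) 2 * x) + ((Yk 𝕜) 2 * (Dk 𝕜) (d1k 𝕜) x + ((Yk 𝕜) 0 * ((Yk 𝕜) 1 * x) + ((Yk 𝕜) 0 * ((Yk 𝕜) 1 * x) + ((Yk 𝕜) 1 * ((Yk 𝕜) 0 * x) +
      ((Yk 𝕜) 1 * ((Yk 𝕜) 0 * x) + 0))))) = 0
    rw [D_mul, D_Y, σ_Y]
    simp [d1k]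
    noncomm_ring

end

end Vale.Agent.P240.R2.H490.F5
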