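import Vale.Agent.P240.R2.H490.P5Sa

/-!
Mixed frames of quadratic spaces over the field with five elements: solutions with values in any
field (copy of `H138/F5b` over a general field).
-/

set_option autoImplicit false

namespace Vale.Agent.P240.R2.H490.F5

open Finset Matrix
open Vale.Agent.P240.H138.F5 (Lt rl Pln)
open Vale.Agent.P240.R2.H986 (ev ev_nil ev_single ev_cons)
open scoped Classical

universe u v

noncomputable section

variable {𝕜 : Type v} [Field 𝕜]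


variable (𝕜) in
/-- the first matrix -/
def MSk : Matrix (Fin 2) (Fin 2) 𝕜 := !![1, 1; 0, 0]


variable (𝕜) in
/-- the second matrix -/
def MTk : Matrix (Fin 2) (Fin 2) 𝕜 := !![0, 0; 0, 1]


lemma MSS : (MSk 𝕜) * (MSk 𝕜) = (MSk 𝕜) := by
  rw [MSk, Matrix.mul_fin_two]
  ext i j
  fin_cases i <;> fin_cases j <;> simp

lemma MTT : (MTk 𝕜) * (MTk 𝕜) = (MTk 𝕜) := by
  rw [MTk, Matrix.mul_fin_two]
  ext i j
  fin_cases i <;> fin_cases j <;> simp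

lemma MTS : (MTk 𝕜) * (MSk 𝕜) = 0 := by
  rw [MTk, MSk, Matrix.mul_fin_two]
  ext i j
  fin_cases i <;> fin_cases j <;> simp

lemma MST : ((MSk 𝕜) * (MTk 𝕜)) 0 1 = 1 := by simp [MSk, MTk]

variable (𝕜) in
/-- the homomorphism to matrices -/
def Ψk : (FreeAlgebra 𝕜 (Fin 4)) →ₐ[𝕜] Matrix (Fin 2) (Fin 2) 𝕜 := FreeAlgebra.lift 𝕜 ![(MSk 𝕜), (MTk 𝕜), 0, 0]


lemma Ψ_Y (i : Fin 4) : (Ψk 𝕜) ((Yk 𝕜) i) = (![(MSk 𝕜), (MTk 𝕜), 0, 0] : Fin 4 → Matrix (Fin 2) (Fin 2) 𝕜) i := by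
  rw [Ψk, Yk, FreeAlgebra.lift_ι_apply]

lemma Ψ_ρ : (Ψk 𝕜) (ρk 𝕜) = 0 := by
  simp [ρk, Ψ_Y]

lemma Ψ_I {x : (FreeAlgebra 𝕜 (Fin 4))} (hx : x ∈ (Ik 𝕜)) : (Ψk 𝕜) x = 0 := by
  refine Submodule.span_induction (p := fun x _ => (Ψk 𝕜) x = 0) ?_ ?_ ?_ ?_ hx
  · rintro _ ⟨b, c, rfl⟩
    rw [map_mul, map_mul, Ψ_ρ, mul_zero, zero_mul]
  · exact map_zero _
  · intro x y _ _ h1 h2
    rw [map_add, h1, h2, add_zero]
  · intro c x _ h1
    rw [map_smul, h1, smul_zero]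

variable (𝕜) in
/-- the linear functional -/
def lamk : (FreeAlgebra 𝕜 (Fin 4)) →ₗ[𝕜] 𝕜 where
  toFun x := (Ψk 𝕜) x 0 1
  map_add' a b := by rw [map_add]; rfl
  map_smul' c a := by rw [map_smul]; rfl


lemma lam_I {x : (FreeAlgebra 𝕜 (Fin 4))} (hx : x ∈ (Ik 𝕜)) : (lamk 𝕜) x = 0 := by
  change (Ψk 𝕜) x 0 1 = 0
  rw [Ψ_I hx]
  rfl

variable (𝕜) in
/-- words act on the algebra -/
def oplk : List Lt → (FreeAlgebra 𝕜 (Fin 4)) →ₗ[𝕜] (FreeAlgebra 𝕜 (Fin 4))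
  | [] => LinearMap.id
  | a :: w => ((opk 𝕜) a).comp (oplk w)


lemma opl_append (u v : List Lt) (x : (FreeAlgebra 𝕜 (Fin 4))) : (oplk 𝕜) (u ++ v) x = (oplk 𝕜) u ((oplk 𝕜) v x) := by
  induction u with
  | nil => rfl
  | cons a u ih =>
    change (opk 𝕜) a ((oplk 𝕜) (u ++ v) x) = (opk 𝕜) a ((oplk 𝕜) u ((oplk 𝕜) v x))
    rw [ih]

lemma opl_I (u : List Lt) {x : (FreeAlgebra 𝕜 (Fin 4))} (hx : x ∈ (Ik 𝕜)) : (oplk 𝕜) u x ∈ (Ik 𝕜) := by
  induction u with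
  | nil => exact hx
  | cons a u ih => exact op_I a ih

section
variable {L : Type u} [Fintype L] (F : Finset (List L)) (φ : L → Lt)

variable (𝕜) in
/-- the function -/
def zzk (w : List L) : 𝕜 := if w ∈ F then (lamk 𝕜) ((oplk 𝕜) (w.map φ) 1) else 0


variable {F φ}

lemma zz_SOL (h : Pln F φ) : (∀ w, w ∉ F → (zzk 𝕜) F φ w = 0) ∧
    ∀ u v : List L, ∑ x : L × L, (zzk 𝕜) F φ (u ++ x.1 :: x.2 :: v) = 0 := by
  refine ⟨fun w hw => if_neg hw, fun u v => ?_⟩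
  have h1 : ∑ x : L × L, (zzk 𝕜) F φ (u ++ x.1 :: x.2 :: v) =
      ∑ x ∈ univ.filter (fun x : L × L => u ++ x.1 :: x.2 :: v ∈ F),
        (lamk 𝕜) ((oplk 𝕜) (u.map φ) ((opk 𝕜) (φ x.1) ((opk 𝕜) (φ x.2) ((oplk 𝕜) (v.map φ) 1)))) := by
    rw [Finset.sum_filter]
    refine Finset.sum_congr rfl fun x _ => ?_
    unfold zzk
    congr 1
    rw [List.map_append, opl_append]
    rfl
  rw [h1]
  rcases h u v with h2 | ⟨i, h2⟩
  · apply Finset.sum_eq_zero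
    intro x hx
    exact absurd (Finset.mem_filter.1 hx).2 (h2 x)
  · have h3 := congrArg (fun s : Multiset (Lt × Lt) =>
      (s.map fun p => (opk 𝕜) p.1 ((opk 𝕜) p.2 ((oplk 𝕜) (v.map φ) 1))).sum) h2
    simp only [Multiset.map_map, Function.comp_def, Multiset.map_coe, Multiset.sum_coe] at h3
    have h4 : ∑ x ∈ univ.filter (fun x : L × L => u ++ x.1 :: x.2 :: v ∈ F),
        (opk 𝕜) (φ x.1) ((opk 𝕜) (φ x.2) ((oplk 𝕜) (v.map φ) 1)) ∈ (Ik 𝕜) := by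
      rw [Finset.sum, h3]
      exact rl_mem i _
    rw [← map_sum, ← map_sum]
    exact lam_I (opl_I _ h4)

variable (𝕜) in
/-- the matrices of the letters -/
def mtk : Lt → Matrix (Fin 2) (Fin 2) 𝕜
  | Lt.y1 => (MSk 𝕜)
  | Lt.y2 => (MTk 𝕜)
  | _ => 0


lemma lam_word (w : List Lt) (hw : ∀ a ∈ w, a = Lt.y1 ∨ a = Lt.y2) :
    (Ψk 𝕜) ((oplk 𝕜) w 1) = (w.map (mtk 𝕜)).prod := by
  induction w with
  | nil => exact map_one (Ψk 𝕜)
  | cons a w ih =>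
    have h1 := ih fun b hb => hw b (by simp [hb])
    rw [List.map_cons, List.prod_cons, ← h1]
    rcases hw a (by simp) with rfl | rfl
    · change (Ψk 𝕜) ((Yk 𝕜) 0 * (oplk 𝕜) w 1) = _
      rw [map_mul, Ψ_Y]
      rfl
    · change (Ψk 𝕜) ((Yk 𝕜) 1 * (oplk 𝕜) w 1) = _
      rw [map_mul, Ψ_Y]
      rfl

variable (𝕜) in
/-- iterated super commutators -/
def brak : List Lt → Matrix (Fin 2) (Fin 2) 𝕜
  | [] => 0
  | [a] => (mtk 𝕜) a
  | a :: b :: w => (mtk 𝕜) a * brak (b :: w) + (-1) ^ ((b :: w).length + 1) • (brak (b :: w) * (mtk 𝕜) a)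


lemma bra_cons (a : Lt) {w : List Lt} (hw : w ≠ []) :
    (brak 𝕜) (a :: w) = (mtk 𝕜) a * (brak 𝕜) w + (-1 : ℤ) ^ (w.length + 1) • ((brak 𝕜) w * (mtk 𝕜) a) := by
  obtain ⟨b, w, rfl⟩ := List.exists_cons_of_ne_nil hw
  rfl

lemma ev_prod (φ : L → Lt) (g : List L) : ∀ u v : List L,
    ev (fun w => (((w.map φ).map (mtk 𝕜)).prod 0 1 : 𝕜)) g u v =
      ((((u.map φ).map (mtk 𝕜)).prod * (brak 𝕜) (g.map φ) * ((v.map φ).map (mtk 𝕜)).prod) 0 1) := by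
  induction g with
  | nil => intro u v; simp [ev_nil, brak]
  | cons l g ih =>
    intro u v
    rcases g.eq_nil_or_concat' with rfl | h
    · rw [ev_single]
      simp [brak, mul_assoc]
    · have hg : g ≠ [] := by rcases h with ⟨a, b, rfl⟩; simp
      have hg' : g.map φ ≠ [] := by simpa using hg
      rw [ev_cons _ _ hg, ih, ih]
      simp only [List.map_cons, List.map_append, List.prod_append, List.map_nil, List.prod_cons,
        List.prod_nil, mul_one]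
      rw [bra_cons _ hg', List.length_map]
      have e1 : ((u.map φ).map (mtk 𝕜)).prod * ((mtk 𝕜) (φ l) * (brak 𝕜) (g.map φ) +
          (-1 : ℤ) ^ (g.length + 1) • ((brak 𝕜) (g.map φ) * (mtk 𝕜) (φ l))) * ((v.map φ).map (mtk 𝕜)).prod =
          ((u.map φ).map (mtk 𝕜)).prod * (mtk 𝕜) (φ l) * (brak 𝕜) (g.map φ) * ((v.map φ).map (mtk 𝕜)).prod +
          (-1 : ℤ) ^ (g.length + 1) • (((u.map φ).map (mtk 𝕜)).prod * (brak 𝕜) (g.map φ) *
            ((mtk 𝕜) (φ l) * ((v.map φ).map (mtk 𝕜)).prod)) := by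
        rw [mul_add, add_mul, mul_smul_comm, smul_mul_assoc]
        simp only [mul_assoc]
      rw [e1, Matrix.add_apply, Matrix.smul_apply, zsmul_eq_mul]
      push_cast
      rfl

lemma bra_one {j : ℕ} (hj : 1 ≤ j) : (brak 𝕜) (List.replicate j Lt.y1 ++ [Lt.y2]) = (MSk 𝕜) * (MTk 𝕜) := by
  induction j with
  | zero => omega
  | succ j ih =>
    rw [List.replicate_succ, List.cons_append, bra_cons _ (by simp)]
    rcases Nat.eq_zero_or_pos j with rfl | hj'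
    · change (MSk 𝕜) * (MTk 𝕜) + _ • ((MTk 𝕜) * (MSk 𝕜)) = _
      rw [MTS, smul_zero, add_zero]
    · rw [ih hj']
      change (MSk 𝕜) * ((MSk 𝕜) * (MTk 𝕜)) + _ • ((MSk 𝕜) * (MTk 𝕜) * (MSk 𝕜)) = _
      rw [mul_assoc (MSk 𝕜) (MTk 𝕜) (MSk 𝕜), MTS, mul_zero, smul_zero, add_zero, ← mul_assoc, MSS]

lemma bra_two {j : ℕ} (hj : 1 ≤ j) (m : ℕ) : ∃ s : ℤ, (s = 1 ∨ s = -1) ∧
    (brak 𝕜) (List.replicate m Lt.y2 ++ (List.replicate j Lt.y1 ++ [Lt.y2])) = s • ((MSk 𝕜) * (MTk 𝕜)) := by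
  induction m with
  | zero => exact ⟨1, Or.inl rfl, by rw [one_smul]; exact bra_one hj⟩
  | succ m ih =>
    obtain ⟨s, hs, h1⟩ := ih
    rw [List.replicate_succ, List.cons_append, bra_cons _ (by simp), h1]
    refine ⟨(-1) ^ ((List.replicate m Lt.y2 ++ (List.replicate j Lt.y1 ++ [Lt.y2])).length + 1) * s,
      ?_, ?_⟩
    · rcases neg_one_pow_eq_or ℤ
        ((List.replicate m Lt.y2 ++ (List.replicate j Lt.y1 ++ [Lt.y2])).length + 1) with h2 | h2 <;>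
      rcases hs with rfl | rfl <;> rw [h2] <;> simp
    change (MTk 𝕜) * (s • ((MSk 𝕜) * (MTk 𝕜))) + _ • (s • ((MSk 𝕜) * (MTk 𝕜)) * (MTk 𝕜)) = _
    rw [mul_smul_comm, ← mul_assoc, MTS, zero_mul, smul_zero, zero_add, smul_mul_assoc, mul_assoc,
      MTT, smul_smul]

/-- **the abstract theorem** -/
theorem exists_sol (hperm : ∀ w ∈ F, ∀ w' : List L, w.Perm w' → w' ∈ F) (h : Pln F φ) {g : List L}
    (hg : g ∈ F) {m j : ℕ} (hj : 1 ≤ j)
    (hφ : g.map φ = List.replicate m Lt.y2 ++ (List.replicate j Lt.y1 ++ [Lt.y2])) :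
    ∃ z : List L → 𝕜, (∀ w, w ∉ F → z w = 0) ∧
      (∀ u v : List L, ∑ x : L × L, z (u ++ x.1 :: x.2 :: v) = 0) ∧ ev z g [] [] ≠ 0 := by
  refine ⟨(zzk 𝕜) F φ, (zz_SOL h).1, (zz_SOL h).2, ?_⟩
  have hy : ∀ a ∈ g.map φ, a = Lt.y1 ∨ a = Lt.y2 := by
    intro a ha
    rw [hφ] at ha
    simp only [List.mem_append, List.mem_replicate, List.mem_singleton] at ha
    tauto
  have h1 : ev ((zzk 𝕜) F φ) g [] [] = ev (fun w => (((w.map φ).map (mtk 𝕜)).prod 0 1 : 𝕜)) g [] [] := by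
    apply Vale.Agent.P240.R2.H986.ev_congr
    intro w hw
    rw [List.nil_append, List.append_nil] at hw
    have hwF : w ∈ F := hperm g hg w hw.symm
    unfold zzk
    rw [if_pos hwF]
    change (Ψk 𝕜) ((oplk 𝕜) (w.map φ) 1) 0 1 = _
    rw [lam_word]
    intro a ha
    exact hy a ((hw.map φ).mem_iff.1 ha)
  rw [h1, ev_prod]
  obtain ⟨s, hs, h2⟩ := bra_two (𝕜 := 𝕜) hj m
  rw [hφ, h2]
  simp only [List.map_nil, List.prod_nil, one_mul, mul_one]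
  rw [Matrix.smul_apply, MST, zsmul_eq_mul, mul_one]
  rcases hs with rfl | rfl <;> simp

end

end

end Vale.Agent.P240.R2.H490.F5
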