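import Vale.Agent.P240.R2.H490.P5Top

/-!
Solutions for the frames of diagonal forms over the field with five elements, with values in any
field; top cycles.
-/

set_option autoImplicit false
set_option linter.all false

namespace Vale.Agent.P240.R2.H490

open Subgroup Matrix Vale.Agent.P240 Vale.Agent.P240.K Vale.Agent.P240.R2
open Vale.Agent.P240.H138.F5 (Geo ph Lt.y1 Lt.y2 Geo.vv)
open Vale.Agent.P240.R2.AS (SS wds mem_wds)

universe u v w w'

section
variable {K : Type u} [Field K] {n : ℕ} (d : Fin n → K)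

/-- the form -/
def Bf : LinearMap.BilinForm K (Fin n → K) :=
  LinearMap.mk₂ K (ip d) (ip_add_left d) (fun c x y => ip_smul_left d c x y) (ip_add_right d)
    (fun c x y => ip_smul_right d c x y)

lemma Bf_apply (x y : Fin n → K) : Bf d x y = ip d x y := rfl

variable {d}

lemma word_orth {w : List (Lt d)} (hw : w.Pairwise (fun P Q => P.v * Q.v = 0)) :
    w.Pairwise (fun P Q => ip d P.x Q.x = 0) :=
  hw.imp fun {P Q} h => (Lt.orth_iff P Q).1 h

lemma geo [Finite K] : Geo (FrD d) Set.univ (Bf d) (fun P : Lt d => P.x) where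
  perm w hw w' hww' := by
    obtain ⟨h4, h5⟩ := mem_FrD.1 hw
    exact mem_FrD.2 ⟨hww'.length_eq ▸ h4, (hww'.pairwise_iff fun {P Q} h => v_symm P Q h).1 h5⟩
  mem _ _ _ _ := Set.mem_univ _
  symm x y := ip_comm d x y
  ne P _ := P.hx
  inj P _ P' _ c h := by
    have hc : c ≠ 0 := by
      rintro rfl
      rw [zero_smul] at h
      exact ip_ne d P'.hx h
    apply Lt.ext'
    rw [P'.v_eq, h, pj_smul d hc, P.v_eq]
  orth w hw := word_orth (mem_FrD.1 hw).2
  span u a b a' b' t h1 h2 := by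
    have h6 := mem_FrD.1 h1
    have h7 := mem_FrD.1 h2
    have h8 := Sm_eq_one h6.2 h6.1
    have h9 := Sm_eq_one h7.2 h7.1
    have hab : a.v * b.v = 0 :=
      (List.pairwise_cons.1 (List.pairwise_append.1 h6.2).2.1).1 b (by simp)
    have hce : a'.v * b'.v = 0 :=
      (List.pairwise_cons.1 (List.pairwise_append.1 h7.2).2.1).1 b' (by simp)
    rw [Sm_append, Sm_cons, Sm_cons, ← add_assoc a.v] at h8
    rw [Sm_append, Sm_cons, Sm_cons, ← add_assoc a'.v] at h9
    have h10 : a.v + b.v = a'.v + b'.v :=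
      add_right_cancel (add_left_cancel (h8.trans h9.symm))
    have h11 : (a'.v + b'.v) *ᵥ a'.x = a'.x := by
      rw [add_mulVec, a'.v_eq, pj_self d a'.hx, b'.v_eq, pj_mulVec, ip_comm d b'.x a'.x,
        (Lt.orth_iff _ _).1 hce, mul_zero, zero_smul, add_zero]
    rw [← h10, add_mulVec, a.v_eq, b.v_eq, pj_mulVec, pj_mulVec] at h11
    exact ⟨_, _, h11.symm⟩
  ex u a b t h1 c e hce := by
    have h6 := mem_FrD.1 h1
    have hpw := List.pairwise_append.1 h6.2
    have hpa := List.pairwise_cons.1 hpw.2.1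
    have hpb := List.pairwise_cons.1 hpa.2
    have hab : ip d a.x b.x = 0 := (Lt.orth_iff _ _).1 (hpa.1 b (by simp))
    have hba : ip d b.x a.x = 0 := by rw [ip_comm, hab]
    set y := c • a.x + e • b.x with hy
    set y' := (-(e * ip d b.x b.x)) • a.x + (c * ip d a.x a.x) • b.x with hy'
    have hyy : ip d y y = c * c * ip d a.x a.x + e * e * ip d b.x b.x := by
      rw [hy, ip_add_left, ip_add_right, ip_add_right, ip_smul_left, ip_smul_left, ip_smul_left,
        ip_smul_left, ip_smul_right, ip_smul_right, ip_smul_right, ip_smul_right, hab, hba]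
      ring
    have hyy' : ip d y y' = 0 := by
      rw [hy, hy', ip_add_left, ip_add_right, ip_add_right, ip_smul_left, ip_smul_left,
        ip_smul_left, ip_smul_left, ip_smul_right, ip_smul_right, ip_smul_right, ip_smul_right,
        hab, hba]
      ring
    have hy'y' : ip d y' y' = ip d a.x a.x * ip d b.x b.x * ip d y y := by
      rw [hyy, hy', ip_add_left, ip_add_right, ip_add_right, ip_smul_left, ip_smul_left,
        ip_smul_left, ip_smul_left, ip_smul_right, ip_smul_right, ip_smul_right, ip_smul_right,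
        hab, hba]
      ring
    have hy0 : ip d y y ≠ 0 := hce
    have hy'0 : ip d y' y' ≠ 0 := by
      rw [hy'y']
      exact mul_ne_zero (mul_ne_zero a.hx b.hx) hy0
    obtain ⟨s, hs0, hs⟩ := lt_x hy0
    obtain ⟨s', hs'0, hs'⟩ := lt_x hy'0
    have key : ∀ Q : Lt d, ip d Q.x a.x = 0 → ip d Q.x b.x = 0 →
        Q.v * (lt hy0).v = 0 ∧ Q.v * (lt hy'0).v = 0 := by
      intro Q h1 h2
      rw [Lt.orth_iff, Lt.orth_iff, hs, hs', ip_smul_right, ip_smul_right, hy, hy', ip_add_right,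
        ip_add_right, ip_smul_right, ip_smul_right, ip_smul_right, ip_smul_right, h1, h2]
      simp
    refine ⟨lt hy0, lt hy'0, mem_FrD.2 ⟨?_, ?_⟩, s, hs⟩
    · exact Eq.trans (by simp) h6.1
    · rw [List.pairwise_append]
      refine ⟨hpw.1, ?_, ?_⟩
      · rw [List.pairwise_cons]
        refine ⟨?_, ?_⟩
        · intro Q hQ
          rcases List.mem_cons.1 hQ with rfl | hQ
          · rw [Lt.orth_iff, hs, hs', ip_smul_left, ip_smul_right, hyy', mul_zero, mul_zero]
          · refine v_symm _ _ (key Q ?_ ?_).1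
            · rw [ip_comm]
              exact (Lt.orth_iff _ _).1 (hpa.1 Q (List.mem_cons_of_mem _ hQ))
            · rw [ip_comm]
              exact (Lt.orth_iff _ _).1 (hpb.1 Q hQ)
        · rw [List.pairwise_cons]
          refine ⟨?_, hpb.2⟩
          intro Q hQ
          refine v_symm _ _ (key Q ?_ ?_).2
          · rw [ip_comm]
            exact (Lt.orth_iff _ _).1 (hpa.1 Q (List.mem_cons_of_mem _ hQ))
          · rw [ip_comm]
            exact (Lt.orth_iff _ _).1 (hpb.1 Q hQ)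
      · intro P hP Q hQ
        have h8 := key P ((Lt.orth_iff _ _).1 (hpw.2.2 P hP a (by simp)))
          ((Lt.orth_iff _ _).1 (hpw.2.2 P hP b (by simp)))
        rcases List.mem_cons.1 hQ with rfl | hQ
        · exact h8.1
        rcases List.mem_cons.1 hQ with rfl | hQ
        · exact h8.2
        · exact hpw.2.2 P hP Q (by simp [hQ])

/-- **solutions with values in any field** -/
theorem exists_sol [Finite K] {𝕜 : Type w'} [Field 𝕜] (e : K ≃+* ZMod 5) {g : List (Lt d)}
    (hg : g ∈ FrD d) {m j : ℕ} (hj : 1 ≤ j)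
    (ht : g.map (fun l => IsSquare (ip d l.x l.x)) =
      List.replicate m False ++ (List.replicate j True ++ [False])) :
    ∃ z : List (Lt d) → 𝕜, (∀ w, w ∉ FrD d → z w = 0) ∧
      (∀ u v : List (Lt d), ∑ x : Lt d × Lt d, z (u ++ x.1 :: x.2 :: v) = 0) ∧
      H986.ev z g [] [] ≠ 0 := by
  classical
  have h := geo (d := d)
  have h1 : ∀ l ∈ g, ph e (Bf d) (Geo.vv e (Bf d) (fun P : Lt d => P.x) g) l.x =
      if IsSquare (ip d l.x l.x) then H138.F5.Lt.y1 else H138.F5.Lt.y2 := by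
    intro l hl
    have hN := h.ne l (Set.mem_univ l)
    have hN' : e (Bf d l.x l.x) ≠ 0 := by simpa using hN
    rw [ph, h.B_vv e (h.orth g hg) hl, map_mul, e.apply_symm_apply]
    have h2 := H138.F5.isSquare_iff e hN
    split_ifs with h3 h4
    · exact H138.F5.lt_sq _ _ (h2.1 h4) (by simp_all)
    · exact H138.F5.lt_ns _ _ hN' (fun h5 => h4 (h2.2 h5)) (by simp_all)
    · rename_i h4
      exact H138.F5.lt_sq _ _ (h2.1 h4) (by simp_all)
    · rename_i h4
      exact H138.F5.lt_ns _ _ hN' (fun h5 => h4 (h2.2 h5)) (by simp_all)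
  refine F5.exists_sol (𝕜 := 𝕜) h.perm
    (h.pln e (Geo.vv e (Bf d) (fun P : Lt d => P.x) g)) hg (m := m) hj ?_
  have h2 : g.map (fun l => ph e (Bf d) (Geo.vv e (Bf d) (fun P : Lt d => P.x) g) l.x) =
      (g.map (fun l => IsSquare (ip d l.x l.x))).map
        (fun p => if p then H138.F5.Lt.y1 else H138.F5.Lt.y2) := by
    rw [List.map_map]
    exact List.map_congr_left h1
  rw [h2, ht]
  simp

lemma ip_std (d : Fin n → K) (i : Fin n) : ip d (Pi.single i 1) (Pi.single i 1) = d i := by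
  rw [ip_single_right, Pi.single_eq_same, mul_one]

lemma ip_std_ne (hd : ∀ i, d i ≠ 0) (i : Fin n) : ip d (Pi.single i 1) (Pi.single i 1) ≠ 0 := by
  rw [ip_std]
  exact hd i

/-- the letters of the standard frame -/
def sl (hd : ∀ i, d i ≠ 0) (i : Fin n) : Lt d := lt (ip_std_ne hd i)

/-- the standard frame -/
def sf (hd : ∀ i, d i ≠ 0) : List (Lt d) := List.ofFn (sl hd)

lemma sl_x (hd : ∀ i, d i ≠ 0) (i : Fin n) : ∃ c : K, c ≠ 0 ∧ (sl hd i).x = c • Pi.single i 1 :=
  lt_x (ip_std_ne hd i)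

lemma sf_mem [Finite K] (hd : ∀ i, d i ≠ 0) : sf hd ∈ FrD d := by
  refine mem_FrD.2 ⟨by rw [sf, List.length_ofFn], ?_⟩
  rw [sf, List.pairwise_ofFn]
  intro i j hij
  rw [Lt.orth_iff]
  obtain ⟨c, -, hc⟩ := sl_x hd i
  obtain ⟨c', -, hc'⟩ := sl_x hd j
  rw [hc, hc', ip_smul_left, ip_smul_right, ip_single_right, Pi.single_eq_of_ne hij.ne']
  ring

lemma sl_sq (hd : ∀ i, d i ≠ 0) (i : Fin n) :
    IsSquare (ip d (sl hd i).x (sl hd i).x) ↔ IsSquare (d i) := by
  obtain ⟨c, hc0, hc⟩ := sl_x hd i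
  rw [hc, ip_smul_left, ip_smul_right, ip_std]
  constructor
  · rintro ⟨r, hr⟩
    refine ⟨c⁻¹ * r, ?_⟩
    have h1 : d i = c⁻¹ * (c⁻¹ * (c * (c * d i))) := by field_simp
    rw [h1, hr]
    ring
  · rintro ⟨r, hr⟩
    exact ⟨c * r, by rw [hr]; ring⟩

/-- **The top cycle at the standard frame**, `|K| = 5`. -/
theorem std_top [Finite K] {G : Type w} [Group G] [Finite G] {𝕜 : Type w'} [Field 𝕜]
    (e : K ≃+* ZMod 5) (hd : ∀ i, d i ≠ 0) (hn : 2 ≤ n) {R : (Fin n → K) → G} (h : VR d R)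
    (hfull : ∀ w ∈ FrD d, Ew (fun P : Lt d => R P.x) w = 1) {m j : ℕ} (hj : 1 ≤ j)
    (ht : (List.ofFn d).map (fun x => IsSquare x) =
      List.replicate m False ++ (List.replicate j True ++ [False])) {H : Subgroup G}
    (hH : ∀ x, ip d x x ≠ 0 → R x ∈ H) :
    ∃ (α : Ch 𝕜 (Subgroup G)) (φ : List (Subgroup G)),
      TopCycle 𝕜 2 H (closure (Set.range fun i : Fin n => R (Pi.single i 1))) α φ := by
  have h5 : ((5 : ℕ) : K) = 0 := by
    apply e.injective
    rw [map_natCast, map_zero]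
    rfl
  have h2 : (2 : K) ≠ 0 := by
    intro h0
    have h1 := congrArg e h0
    rw [map_ofNat, map_zero] at h1
    exact absurd h1 (by decide)
  have h3 : (3 : K) ≠ 0 := by
    intro h0
    have h1 := congrArg e h0
    rw [map_ofNat, map_zero] at h1
    exact absurd h1 (by decide)
  have hrs := h.rs hd h2 h3 hfull
  obtain ⟨z, hz0, hz, hev⟩ := exists_sol (𝕜 := 𝕜) e (sf_mem hd) (m := m) hj (by
    rw [← ht, sf, List.map_ofFn, List.map_ofFn]
    congr 1
    funext i
    exact propext (sl_sq hd i))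
  obtain ⟨α, φ, hT⟩ := hrs.top (𝕜 := 𝕜) hn hz0 hz (sf_mem hd) hev (H := H)
    (fun w _ P _ => hH _ P.hx)
  refine ⟨α, φ, ?_⟩
  have h6 : SS (Ew (fun P : Lt d => R P.x)) (sf hd) =
      closure (Set.range fun i : Fin n => R (Pi.single i 1)) := by
    rw [SS]
    congr 1
    ext y
    simp only [Set.mem_setOf_eq, Set.mem_range]
    constructor
    · rintro ⟨P, hP, rfl⟩
      rw [sf, List.mem_ofFn] at hP
      obtain ⟨i, rfl⟩ := hP
      obtain ⟨c, hc0, hc⟩ := sl_x hd i
      refine ⟨i, ?_⟩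
      rw [Ew_cons, Ew_nil, mul_one, hc, h.smul c _ hc0 (ip_std_ne hd i)]
    · rintro ⟨i, rfl⟩
      obtain ⟨c, hc0, hc⟩ := sl_x hd i
      refine ⟨sl hd i, by rw [sf, List.mem_ofFn]; exact ⟨i, rfl⟩, ?_⟩
      rw [Ew_cons, Ew_nil, mul_one, hc, h.smul c _ hc0 (ip_std_ne hd i)]
  rwa [h6] at hT

end

end Vale.Agent.P240.R2.H490
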