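import Vale.Agent.P240.R2.H490.P5Full
import Vale.Agent.P240.R2.H487.DQ1
import Mathlib.LinearAlgebra.Matrix.Kronecker

/-!
Tensor products of matrices of size two.
-/

set_option autoImplicit false
set_option linter.all false

namespace Vale.Agent.P240.R2.H490

open Subgroup Matrix Vale.Agent.P240 Vale.Agent.P240.H195 Vale.Agent.P240.R2.H487
open scoped Kronecker

universe u v w

/-- matrices of size two -/
abbrev M2 (F : Type*) : Type _ := Matrix (Fin 2) (Fin 2) F

section
variable {F : Type*} [Field F] {a m : ℕ} (σ : Fin (m + 1) ≃ (Fin a → Fin 2))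

/-- tensor products -/
def TN : (Fin a → M2 F) →* Matrix (Fin (m + 1)) (Fin (m + 1)) F where
  toFun g := Matrix.of fun i k => ∏ j, g j (σ i j) (σ k j)
  map_one' := by
    ext i k
    rw [Matrix.of_apply]
    by_cases h : i = k
    · subst h
      rw [Matrix.one_apply_eq]
      exact Finset.prod_eq_one fun j _ => Matrix.one_apply_eq _
    · rw [Matrix.one_apply_ne h]
      obtain ⟨j, hj⟩ : ∃ j, σ i j ≠ σ k j := by
        by_contra hcon
        push Not at hcon
        exact h (σ.injective (funext hcon))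
      exact Finset.prod_eq_zero (Finset.mem_univ j) (Matrix.one_apply_ne hj)
  map_mul' g h := by
    ext i k
    rw [Matrix.mul_apply, Matrix.of_apply]
    simp only [Pi.mul_apply, Matrix.mul_apply, Matrix.of_apply]
    rw [Finset.prod_univ_sum, Fintype.piFinset_univ, ← σ.sum_comp]
    exact Finset.sum_congr rfl fun l _ => by rw [Finset.prod_mul_distrib]

lemma TN_apply (g : Fin a → M2 F) (i k : Fin (m + 1)) :
    TN σ g i k = ∏ j, g j (σ i j) (σ k j) := rfl

lemma TN_transpose (g : Fin a → M2 F) : (TN σ g)ᵀ = TN σ (fun j => (g j)ᵀ) := by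
  ext i k
  rfl

lemma TN_map {F' : Type*} [Field F'] (τ : F →+* F') (g : Fin a → M2 F) :
    (TN σ g).map τ = TN σ (fun j => (g j).map τ) := by
  ext i k
  rw [Matrix.map_apply, TN_apply, TN_apply, map_prod]
  rfl

lemma TN_smul (c : Fin a → F) (g : Fin a → M2 F) :
    TN σ (fun j => c j • g j) = (∏ j, c j) • TN σ g := by
  ext i k
  rw [Matrix.smul_apply, TN_apply, TN_apply, smul_eq_mul, ← Finset.prod_mul_distrib]
  rfl

/-- one factor -/
def TT (j : Fin a) (x : M2 F) : Matrix (Fin (m + 1)) (Fin (m + 1)) F := TN σ (Pi.mulSingle j x)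

lemma TT_apply (j : Fin a) (x : M2 F) (i k : Fin (m + 1)) :
    TT σ j x i k = x (σ i j) (σ k j) * (if ∀ l, l ≠ j → σ i l = σ k l then 1 else 0) := by
  rw [TT, TN_apply, ← Finset.mul_prod_erase _ _ (Finset.mem_univ j), Pi.mulSingle_eq_same]
  congr 1
  have h1 : ∀ l ∈ Finset.univ.erase j, (Pi.mulSingle j x : Fin a → M2 F) l (σ i l) (σ k l) =
      if σ i l = σ k l then 1 else 0 := by
    intro l hl
    rw [Pi.mulSingle_eq_of_ne (Finset.ne_of_mem_erase hl), Matrix.one_apply]
  rw [Finset.prod_congr rfl h1]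
  by_cases h : ∀ l, l ≠ j → σ i l = σ k l
  · rw [if_pos h]
    exact Finset.prod_eq_one fun l hl => if_pos (h l (Finset.ne_of_mem_erase hl))
  · rw [if_neg h]
    push Not at h
    obtain ⟨l, hl, hne⟩ := h
    exact Finset.prod_eq_zero (Finset.mem_erase.2 ⟨hl, Finset.mem_univ l⟩) (if_neg hne)

lemma TT_one (j : Fin a) : TT σ j (1 : M2 F) = 1 := by
  rw [TT, Pi.mulSingle_one, map_one]

lemma TT_mul (j : Fin a) (x y : M2 F) : TT σ j x * TT σ j y = TT σ j (x * y) := by
  rw [TT, TT, TT, ← map_mul, Pi.mulSingle_mul]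

lemma TT_comm {j l : Fin a} (h : j ≠ l) (x y : M2 F) :
    TT σ j x * TT σ l y = TT σ l y * TT σ j x := by
  rw [TT, TT, ← map_mul, ← map_mul]
  congr 1
  exact (Pi.mulSingle_commute (f := fun _ : Fin a => M2 F) h x y)

lemma TT_add (j : Fin a) (x y : M2 F) : TT σ j (x + y) = TT σ j x + TT σ j y := by
  ext i k
  rw [Matrix.add_apply, TT_apply, TT_apply, TT_apply, Matrix.add_apply, add_mul]

lemma TT_smul (j : Fin a) (c : F) (x : M2 F) : TT σ j (c • x) = c • TT σ j x := by
  ext i k
  rw [Matrix.smul_apply, TT_apply, TT_apply, Matrix.smul_apply, smul_eq_mul, smul_eq_mul, mul_assoc]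

lemma TT_zero (j : Fin a) : TT σ j (0 : M2 F) = 0 := by
  rw [← zero_smul F (0 : M2 F), TT_smul, zero_smul]

lemma TT_neg (j : Fin a) (x : M2 F) : TT σ j (-x) = -TT σ j x := by
  rw [← neg_one_smul F x, TT_smul, neg_one_smul]

lemma TT_sub (j : Fin a) (x y : M2 F) : TT σ j (x - y) = TT σ j x - TT σ j y := by
  rw [sub_eq_add_neg, TT_add, TT_neg, sub_eq_add_neg]

lemma TT_scalar (j : Fin a) (c : F) : TT σ j (c • (1 : M2 F)) = c • 1 := by
  rw [TT_smul, TT_one]

lemma TT_transpose (j : Fin a) (x : M2 F) : (TT σ j x)ᵀ = TT σ j xᵀ := by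
  rw [TT, TN_transpose, TT]
  congr 1
  funext l
  by_cases h : l = j
  · subst h
    rw [Pi.mulSingle_eq_same, Pi.mulSingle_eq_same]
  · rw [Pi.mulSingle_eq_of_ne h, Pi.mulSingle_eq_of_ne h, Matrix.transpose_one]

lemma TT_map {F' : Type*} [Field F'] (τ : F →+* F') (j : Fin a) (x : M2 F) :
    (TT σ j x).map τ = TT σ j (x.map τ) := by
  rw [TT, TN_map, TT]
  congr 1
  funext l
  by_cases h : l = j
  · subst h
    rw [Pi.mulSingle_eq_same, Pi.mulSingle_eq_same]
  · rw [Pi.mulSingle_eq_of_ne h, Pi.mulSingle_eq_of_ne h, Matrix.map_one _ (map_zero τ) (map_one τ)]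

/-- injectivity -/
lemma TT_inj {j : Fin a} {x : M2 F} (h : TT σ j x = 0) : x = 0 := by
  ext b c
  have h1 := congrFun (congrFun h (σ.symm (Function.update 0 j b))) (σ.symm (Function.update 0 j c))
  rw [TT_apply, Equiv.apply_symm_apply, Equiv.apply_symm_apply, Function.update_self,
    Function.update_self, if_pos, mul_one] at h1
  · exact h1
  · intro l hl
    rw [Function.update_of_ne hl, Function.update_of_ne hl]

/-- matrices commuting with all factors -/
lemma TT_commutant {T : Matrix (Fin (m + 1)) (Fin (m + 1)) F}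
    (h : ∀ j (x : M2 F), T * TT σ j x = TT σ j x * T) : ∃ c : F, T = c • 1 := by
  have h1 : ∀ g : Fin a → M2 F, T * TN σ g = TN σ g * T := by
    intro g
    have h2 : g ∈ (Submonoid.centralizer {T}).comap (TN σ) := by
      refine Submonoid.pi_mem_of_mulSingle_mem g fun j => ?_
      rw [Submonoid.mem_comap, Submonoid.mem_centralizer_iff]
      rintro _ rfl
      exact h j (g j)
    rw [Submonoid.mem_comap, Submonoid.mem_centralizer_iff] at h2
    exact h2 T rfl
  have h2 : ∀ i k : Fin (m + 1), TN σ (fun j => Matrix.single (σ i j) (σ k j) (1 : F)) =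
      Matrix.single i k 1 := by
    intro i k
    ext i' k'
    rw [TN_apply]
    by_cases hi : i = i' ∧ k = k'
    · obtain ⟨rfl, rfl⟩ := hi
      rw [Matrix.single_apply_same]
      exact Finset.prod_eq_one fun j _ => Matrix.single_apply_same _ _ _
    · rw [Matrix.single_apply_of_ne _ _ _ _ _ hi]
      rw [not_and_or] at hi
      obtain ⟨j, hj⟩ : ∃ j, ¬ (σ i j = σ i' j ∧ σ k j = σ k' j) := by
        by_contra hcon
        push Not at hcon
        rcases hi with hi | hi
        · exact hi (σ.injective (funext fun j => (hcon j).1))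
        · exact hi (σ.injective (funext fun j => (hcon j).2))
      exact Finset.prod_eq_zero (Finset.mem_univ j) (Matrix.single_apply_of_ne _ _ _ _ _ hj)
  have h3 : T ∈ Set.range (Matrix.scalar (Fin (m + 1))) := by
    refine Matrix.mem_range_scalar_of_commute_single fun i k _ => ?_
    show Matrix.single i k 1 * T = T * Matrix.single i k 1
    rw [← h2, h1]
  obtain ⟨c, hc⟩ := h3
  exact ⟨c, by rw [← hc, Matrix.scalar_apply, Matrix.smul_one_eq_diagonal]⟩

/-- the determinant of one factor -/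
lemma TT_det (j : Fin a) (x : M2 F) : (TT σ j x).det = x.det ^ 2 ^ (a - 1) := by
  have h1 : TT σ j x = ((x ⊗ₖ (1 : Matrix ({l // l ≠ j} → Fin 2) ({l // l ≠ j} → Fin 2) F)).submatrix
      (σ.trans (Equiv.funSplitAt j (Fin 2))) (σ.trans (Equiv.funSplitAt j (Fin 2)))) := by
    ext i k
    rw [TT_apply, Matrix.submatrix_apply, Matrix.kroneckerMap_apply, Matrix.one_apply]
    congr 1
    refine if_congr ?_ rfl rfl
    constructor
    · intro h
      funext l
      exact h l.1 l.2
    · intro h l hl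
      exact congrFun h ⟨l, hl⟩
  rw [h1, Matrix.det_submatrix_equiv_self, Matrix.det_kronecker, Matrix.det_one, one_pow, mul_one]
  congr 1
  rw [Fintype.card_fun, Fintype.card_fin, Fintype.card_subtype_compl, Fintype.card_fin,
    Fintype.card_subtype_eq]

/-- the units -/
def GT : (Fin a → GL (Fin 2) F) →* GLm m F :=
  (Units.map (TN σ)).comp MulEquiv.piUnits.symm.toMonoidHom

lemma GT_val (g : Fin a → GL (Fin 2) F) : (GT σ g).1 = TN σ (fun j => (g j).1) := rfl

/-- one factor -/
def gT (j : Fin a) : GL (Fin 2) F →* GLm m F := (GT σ).comp (MonoidHom.mulSingle (fun _ : Fin a => GL (Fin 2) F) j)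

lemma gT_val (j : Fin a) (x : GL (Fin 2) F) : (gT σ j x).1 = TT σ j x.1 := by
  show TN σ (fun l => ((Pi.mulSingle j x : Fin a → GL (Fin 2) F) l).1) = _
  rw [TT]
  congr 1
  funext l
  by_cases h : l = j
  · subst h
    rw [Pi.mulSingle_eq_same, Pi.mulSingle_eq_same]
  · rw [Pi.mulSingle_eq_of_ne h, Pi.mulSingle_eq_of_ne h]
    rfl

end

end Vale.Agent.P240.R2.H490
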