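import Vale.Agent.P240.R2.H490.P5Geo
import Vale.Agent.P240.R2.H490.P5Sb
import Vale.Agent.P240.R2.H775.Top1

/-!
Top cycles at prescribed frames, over every field.
-/

set_option autoImplicit false
set_option linter.all false

namespace Vale.Agent.P240.R2.H490

open Finsupp hiding cons
open Subgroup Vale.Agent.P240 Vale.Agent.P240.K Vale.Agent.P240.R2 Vale.Agent.P240.R2.H938
open Vale.Agent.P240.R2.AS (SS wds mem_wds)

universe u v w w'

lemma comb_le {Λ : Type*} [SemilatticeSup Λ] [OrderBot Λ] {X : Type*} (C : List X → Λ) {D : Λ}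
    (f : List X) : ∀ B : Λ, B ≤ D → (∀ x ∈ f, C [x] ≤ D) → ∀ t ∈ comb C B f, t ≤ D := by
  induction f with
  | nil => intro B _ _ t ht; simp [comb] at ht
  | cons l L ih =>
    intro B hB hf t ht
    by_cases hL : L = []
    · subst hL
      simp [comb] at ht
    · rw [comb_cons C B l hL, List.mem_append, List.mem_singleton] at ht
      have h1 : B ⊔ C [l] ≤ D := sup_le hB (hf l (by simp))
      rcases ht with ht | ht
      · exact ih _ h1 (fun x hx => hf x (List.mem_cons_of_mem _ hx)) t ht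
      · rw [ht]
        exact h1

section
variable {A : Type u} [Ring A] {L : Type v} {G : Type w} [Group G]
variable {n : ℕ} {v : L → A} {p : A} {F : Finset (List L)} {R : L → G}

namespace RS

variable (h : RS n v p F R)
include h

lemma SS_full {w : List L} {l : L} (hw : w ++ [l] ∈ F) : SS (Ew R) (w ++ [l]) = SS (Ew R) w := by
  refine le_antisymm ?_ ?_
  · rw [SS, closure_le]
    rintro _ ⟨x, hx, rfl⟩
    rcases List.mem_append.1 hx with h1 | h1
    · exact subset_closure ⟨x, h1, rfl⟩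
    · rw [List.mem_singleton] at h1
      subst h1
      have h2 := h.full _ hw
      rw [Ew_append] at h2
      rw [SetLike.mem_coe, eq_inv_of_mul_eq_one_right h2]
      exact inv_mem (h.Ew_mem_SS fun Q hQ => hQ)
  · rw [SS, closure_le]
    rintro _ ⟨x, hx, rfl⟩
    exact subset_closure ⟨x, List.mem_append_left _ hx, rfl⟩

/-- **The top cycle at a prescribed frame.** -/
theorem top [Finite G] [Fintype L] {𝕜 : Type w'} [Field 𝕜] (hn : 2 ≤ n) {z : List L → 𝕜}
    (hz0 : ∀ w, w ∉ F → z w = 0)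
    (hz : ∀ u v : List L, ∑ x : L × L, z (u ++ x.1 :: x.2 :: v) = 0) {g : List L} (hg : g ∈ F)
    (hev : H986.ev z g [] [] ≠ 0) {H : Subgroup G} (hH : ∀ w ∈ F, ∀ P ∈ w, R P ∈ H) :
    ∃ (α : Ch 𝕜 (Subgroup G)) (φ : List (Subgroup G)), TopCycle 𝕜 2 H (SS (Ew R) g) α φ := by
  have hc := h.comb
  have : Fact (Nat.Prime 2) := ⟨Nat.prime_two⟩
  have hHe : ∀ u v : List L, u ++ v ∈ F → Ew R u ∈ H := by
    intro u v huv
    have h1 : ∀ x : List L, (∀ Q ∈ x, Q ∈ u ++ v) → Ew R x ∈ H := by
      intro x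
      induction x with
      | nil => intro _; exact one_mem _
      | cons a x ih =>
        intro h2
        rw [Ew_cons]
        exact mul_mem (hH _ huv a (h2 a (by simp))) (ih fun Q hQ => h2 Q (List.mem_cons_of_mem _ hQ))
    exact h1 u fun Q hQ => List.mem_append_left _ hQ
  have hmem := comb_mem (𝕜 := 𝕜) hc z H hHe
  have hbd := comb_bd (𝕜 := 𝕜) hc z hz0 hz
  have hcoef : (mu (fun w => zpowers (Ew R w)) F z) (H938.comb (fun w => zpowers (Ew R w)) ⊥ g) ≠ 0 := by
    have h1 := mu_comb (fun w => zpowers (Ew R w)) F z hz0 ⊥ (f := g)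
      (by rw [hc.len g hg]; exact hn) hg (fun m hm => (hc.len m hm).trans (hc.len g hg).symm)
      hc.nodup hc.perm (sep_of_comb hc)
    have h2 : (fun t : Subgroup G => ⊥ ⊔ t) = id := funext fun t => bot_sup_eq t
    have h3 : ∀ c : Ch 𝕜 (Subgroup G), mp (id : Subgroup G → Subgroup G) c = c := by
      intro c
      have := lin_ext_apply (f := mp (𝕜 := 𝕜) (id : Subgroup G → Subgroup G)) (g := LinearMap.id)
        (fun l => by simp) c
      simpa using this
    rw [h2, h3, brF_ev'] at h1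
    rw [h1]
    exact mul_ne_zero (csgn_ne _) hev
  set φ := H938.comb (fun w => zpowers (Ew R w)) ⊥ g with hφ
  have hφlen : φ.length = n - 1 := by rw [hφ, comb_length, hc.len g hg]
  have hst := mem_Sp.1 hmem φ (Finsupp.mem_support_iff.2 hcoef)
  have hgne : g ≠ [] := by
    rintro rfl
    have := hc.len _ hg
    simp at this
    omega
  obtain ⟨t, l, hgt⟩ : ∃ t l, g = t ++ [l] := by
    rcases List.eq_nil_or_concat g with h1 | ⟨t, b, h1⟩
    · exact absurd h1 hgne
    · exact ⟨t, b, by rw [h1, List.concat_eq_append]⟩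
  have hcard : Nat.card (SS (Ew R) g) = 2 ^ (n - 1) := by
    have h1 := h.len g hg
    rw [hgt] at hg h1 ⊢
    rw [h.SS_full hg, h.card_SS hg, ← h1]
    simp
  refine ⟨mu (fun w => zpowers (Ew R w)) F z, φ, ?_, hbd, hcoef, ?_, by rw [hcard, hφlen]⟩
  · rw [hφlen]
    exact hmem
  · right
    rcases hφ' : φ with _ | ⟨a, φ'⟩
    · rw [hφ'] at hφlen
      simp at hφlen
      omega
    · refine ⟨φ', ?_⟩
      congr 1
      have hle : ∀ s ∈ φ, s ≤ SS (Ew R) g := by
        refine comb_le _ g ⊥ bot_le fun x hx => ?_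
        rw [zpowers_le]
        exact subset_closure ⟨x, hx, rfl⟩
      have h1 := H775.head_chain (p := 2) (D := SS (Ew R) g) φ hst.1.1
        (fun s hs => ⟨bot_lt_iff_ne_bot.2 (hst.1.2 s hs).1.1, hle s hs⟩) ⟨n - 1, hcard⟩ a
        (by rw [hφ']; simp)
      rw [hφlen] at h1
      refine Subgroup.eq_of_le_of_card_ge (hle a (by rw [hφ']; simp)) ?_
      rw [hcard]
      exact Nat.le_of_dvd Nat.card_pos h1

end RS

end

end Vale.Agent.P240.R2.H490
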