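import Vale.Agent.P240.R2.H490.P5N

/-!
The block `V_3`.
-/

set_option autoImplicit false
set_option linter.all false

namespace Vale.Agent.P240.R2.H490

open Subgroup Matrix Vale.Agent.P240 Vale.Agent.P240.H195 Vale.Agent.P240.R2.H487

universe u v w

/-- combinations of the base matrices -/
def BB (y : Fin 3 → ZMod 5) : M2 (ZMod 5) := ∑ i, y i • bb i

lemma BB_eq (y : Fin 3 → ZMod 5) : BB y = !![y 1, y 0 - y 2; 2 * (y 0 + y 2), -y 1] := by
  rw [BB, Fin.sum_univ_three]
  ext i j
  fin_cases i <;> fin_cases j <;> simp [bb] <;> ring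

lemma BB_trace (y : Fin 3 → ZMod 5) : (BB y).trace = 0 := by
  rw [BB_eq, Matrix.trace_fin_two]
  show y 1 + -y 1 = 0
  ring

lemma BB_det (y : Fin 3 → ZMod 5) : (BB y).det = ip db y y := by
  rw [BB_eq, Matrix.det_fin_two, ip, Fin.sum_univ_three]
  show y 1 * -y 1 - (y 0 - y 2) * (2 * (y 0 + y 2)) = 3 * y 0 * y 0 + 4 * y 1 * y 1 + 2 * y 2 * y 2
  have h5 : (5 : ZMod 5) = 0 := rfl
  linear_combination (-(y 0 * y 0) - y 1 * y 1) * h5

lemma types3 : (List.ofFn db).map (fun x => IsSquare x) =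
    List.replicate 1 False ++ (List.replicate 1 True ++ [False]) := by
  have h1 : List.ofFn db = [3, 4, 2] := rfl
  have e3 : IsSquare (3 : ZMod 5) = False := eq_false (by decide)
  have e4 : IsSquare (4 : ZMod 5) = True := eq_true (by decide)
  have e2 : IsSquare (2 : ZMod 5) = False := eq_false (by decide)
  rw [h1]
  simp only [List.map_cons, List.map_nil, e3, e4, e2]
  rfl

section
variable {F : Type u} [Field F] {a m : ℕ} (ι : ZMod 5 →+* F) (σ : Fin (m + 1) ≃ (Fin a → Fin 2))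

lemma BB_map (y : Fin 3 → ZMod 5) : (BB y).map ι = ∑ i, ι (y i) • bF ι i := by
  rw [BB, Fin.sum_univ_three, Fin.sum_univ_three]
  ext i j
  simp only [Matrix.map_apply, Matrix.add_apply, Matrix.smul_apply, smul_eq_mul, map_add, map_mul,
    bF]

lemma CC3 (j : Fin a) (y : Fin 3 → ZMod 5) :
    CC ι (fun i => TT σ j (bF ι i)) y = TT σ j ((BB y).map ι) := by
  rw [BB_map, CC, Fin.sum_univ_three, Fin.sum_univ_three, TT_add, TT_add, TT_smul, TT_smul, TT_smul]

/-- independence of the base matrices -/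
lemma bF_ind {g : Fin 3 → F} (h : ∑ i, g i • bF ι i = 0) : ∀ i, g i = 0 := by
  rw [Fin.sum_univ_three, bF_0, bF_1, bF_2] at h
  have h2 := two_ne0 ι
  have e00 := congrFun (congrFun h 0) 0
  have e01 := congrFun (congrFun h 0) 1
  have e10 := congrFun (congrFun h 1) 0
  simp at e00 e01 e10
  have e1 : (2 * 2) * g 0 = 0 := by linear_combination e10 + 2 * e01
  have e0 : g 0 = 0 := by
    rcases mul_eq_zero.1 e1 with h3 | h3
    · exact absurd h3 (mul_ne_zero h2 h2)
    · exact h3
  intro i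
  fin_cases i
  · exact e0
  · exact e00
  · show g 2 = 0
    rw [e0] at e01
    linear_combination -e01

theorem cs3 (r : ℕ) [Fact r.Prime] [CharP F r] (hm : 1 ≤ m) (j : Fin a) :
    CS ι db (fun i => TT σ j (bF ι i)) (fun i => -TT σ j (bF ι i)) (pgl m F) 1 where
  two := two_ne0 ι
  sq i := by rw [mul_neg, TT_mul, bF_sq, TT_scalar, neg_smul, neg_neg]
  sq' i := by rw [neg_mul, TT_mul, bF_sq, TT_scalar, neg_smul, neg_neg]
  anti i k h := by rw [mul_neg, mul_neg, TT_mul, TT_mul, bF_anti ι i k h, TT_neg]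
  anti' i k h := by rw [neg_mul, neg_mul, TT_mul, TT_mul, bF_anti ι i k h, TT_neg]
  ind := by
    rw [Fintype.linearIndependent_iff]
    intro g hg
    refine bF_ind ι (TT_inj σ (j := j) ?_)
    rw [← hg, Fin.sum_univ_three, Fin.sum_univ_three, TT_add, TT_add, TT_smul, TT_smul, TT_smul]
  ker U := pgl_ker r hm U
  del := one_mul _
  conj x hx U U' hU hU' := by
    rw [one_mul, mul_one, pgl_eq r hm]
    refine ⟨-1, ?_⟩
    rw [hU, hU', CC, CC, neg_one_smul, ← Finset.sum_neg_distrib]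
    exact Finset.sum_congr rfl fun i _ => by rw [smul_neg, neg_neg]

/-- commutation of generated groups -/
lemma closure_comm {G : Type*} [Group G] {s t : Set G} (h : ∀ x ∈ s, ∀ y ∈ t, x * y = y * x) :
    ∀ x ∈ closure s, ∀ y ∈ closure t, x * y = y * x := by
  have h1 : closure s ≤ centralizer t := (closure_le _).2 fun x hx =>
    mem_centralizer_iff.2 fun y hy => (h x hx y hy).symm
  have h2 : closure t ≤ centralizer (closure s : Set G) := (closure_le _).2 fun y hy =>
    mem_centralizer_iff.2 fun x hx => (mem_centralizer_iff.1 (h1 hx) y hy).symm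
  exact fun x hx y hy => (mem_centralizer_iff.1 (h2 hy) x hx)

lemma M3_le (j : Fin a) : M3 ι σ j ≤ (pgl m F).range := by
  refine (closure_le _).2 ?_
  rintro _ ⟨B, g, -, -, rfl⟩
  exact ⟨_, rfl⟩

lemma gT_comm {j l : Fin a} (h : j ≠ l) (x y : GL (Fin 2) F) :
    gT (m := m) σ j x * gT σ l y = gT σ l y * gT σ j x := by
  apply Units.ext
  rw [Units.val_mul, Units.val_mul, gT_val, gT_val, TT_comm σ h]

lemma M3_comm (j l : Fin a) (h : l ≠ j) (x : GL (Fin 2) F) :
    ∀ g ∈ M3 ι σ j, g * pgl m F (gT σ l x) = pgl m F (gT σ l x) * g := by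
  have h1 : M3 ι σ j ≤ centralizer {pgl m F (gT σ l x)} := by
    refine (closure_le _).2 ?_
    rintro _ ⟨B, g, -, -, rfl⟩
    refine mem_centralizer_iff.2 ?_
    rintro _ rfl
    rw [← map_mul, ← map_mul, gT_comm σ h]
  intro g hg
  exact ((mem_centralizer_iff.1 (h1 hg)) _ rfl).symm

lemma gT_uB_mem {J : Finset (Fin a)} {j : Fin a} (hj : j ∈ J) (i : Fin 3) :
    pgl m F (gT σ j (uB ι i)) ∈ PJ ι σ J := by
  by_cases hi : i = 2
  · subst hi
    have h1 : uB ι 2 = uB ι 0 * uB ι 1 := by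
      apply Units.ext
      rw [Units.val_mul, uB_val, uB_val, uB_val, bF_two']
    rw [h1, map_mul, map_mul]
    exact mul_mem (subset_closure ⟨j, hj, 0, by decide, rfl⟩)
      (subset_closure ⟨j, hj, 1, by decide, rfl⟩)
  · exact subset_closure ⟨j, hj, i, hi, rfl⟩

/-- **The block `V_3`.** -/
theorem tcj3 [Finite F] {𝕜 : Type v} [Field 𝕜] (r : ℕ) [Fact r.Prime] [CharP F r] (hm : 1 ≤ m)
    (hHC : StmtHC ι σ) (j : Fin a) : TCJ 𝕜 (M3 ι σ j) (PJ ι σ {j}) := by
  have h := cs3 ι σ r hm j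
  have he : ∀ i : Fin 3, ip db (Pi.single i 1) (Pi.single i 1) ≠ 0 := fun i => ip_std_ne db_ne i
  have hR : ∀ i : Fin 3, h.R (Pi.single i 1) = pgl m F (gT σ j (uB ι i)) := by
    intro i
    rw [h.R_eq (he i), mul_one]
    congr 1
    apply Units.ext
    rw [h.U_val, CC_single, gT_val, uB_val]
  have hQ : closure (Set.range fun i : Fin 3 => h.R (Pi.single i 1)) = PJ ι σ {j} := by
    apply le_antisymm
    · refine (closure_le _).2 ?_
      rintro _ ⟨i, rfl⟩
      show h.R (Pi.single i 1) ∈ _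
      rw [hR]
      exact gT_uB_mem ι σ (Finset.mem_singleton_self j) i
    · refine (closure_le _).2 ?_
      rintro _ ⟨j', hj', i, hi, rfl⟩
      rw [Finset.mem_singleton] at hj'
      subst hj'
      rw [← hR]
      exact subset_closure ⟨i, rfl⟩
  have hMM : ∀ y, ip db y y ≠ 0 → h.R y ∈ M3 ι σ j := by
    intro y hy
    rw [h.R_eq hy, mul_one]
    obtain ⟨g, hg⟩ := exists_unit (F := F) ι (BB y) (by rwa [BB_det])
    refine subset_closure ⟨BB y, g, BB_trace y, hg, ?_⟩
    congr 1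
    apply Units.ext
    rw [h.U_val, CC3, gT_val, hg]
  have h1 := h.vr.tcj (𝕜 := 𝕜) (RingEquiv.refl _) db_ne (by norm_num) (M := M3 ι σ j) ?_ hMM ?_
    (le_refl 1) types3
  · rwa [hQ] at h1
  · -- the standard product
    rw [List.ofFn_succ, List.ofFn_succ, List.ofFn_succ, List.ofFn_zero]
    simp only [List.prod_cons, List.prod_nil, mul_one]
    show h.R (Pi.single 0 1) * (h.R (Pi.single 1 1) * h.R (Pi.single 2 1)) = 1
    rw [hR, hR, hR, ← map_mul, ← map_mul, ← map_mul, ← map_mul, pgl_ker r hm, gT_val,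
      Units.val_mul, Units.val_mul, uB_val, uB_val, uB_val, ← mul_assoc, bF_two', bF_sq, TT_scalar]
    exact ⟨_, rfl⟩
  · intro g hg hgR
    refine hHC (J := {j}) (δ := 1) (one_mem _) (M := M3 ι σ j) ?_ ?_ ?_ (one_mem _) g hg ?_
    · exact (M3_le ι σ j).trans le_sup_left
    · intro g hg l hl x _
      exact M3_comm ι σ j l (fun h => hl (Finset.mem_singleton.2 h)) x g hg
    · intro j' hj' i hi
      rw [Finset.mem_singleton] at hj'
      subst hj'
      rw [← hR]
      exact subset_closure ⟨i, rfl⟩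
    · intro y hy
      have h3 : closure (Set.range fun i : Fin 3 => h.R (Pi.single i 1)) ≤ centralizer {g} := by
        refine (closure_le _).2 ?_
        rintro _ ⟨i, rfl⟩
        refine mem_centralizer_iff.2 ?_
        rintro _ rfl
        exact hgR i
      exact (mem_centralizer_iff.1 (h3 hy)) g rfl

end

end Vale.Agent.P240.R2.H490
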