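import Vale.Agent.P240.R2.H490.P5V3
import Vale.Agent.P240.R2.H487.EDefs

/-!
The property `AutTop` from blocks.
-/

set_option autoImplicit false
set_option linter.all false

namespace Vale.Agent.P240.R2.H490

open Subgroup Matrix Vale.Agent.P240 Vale.Agent.P240.K Vale.Agent.P240.H195 Vale.Agent.P240.R2.H487

universe u v w

/-- the property `AutTop` from a self-centralizing group and a complement in its centralizer -/
theorem autTop_of_D {Λ : Type u} [Group Λ] {𝕜 : Type v} [Field 𝕜]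
    {P Dm : Subgroup (MulAut Λ)} (hPA : P ∈ ApS 2 (MulAut Λ)) (hPI : P ≤ (MulAut.conj (G := Λ)).range)
    (hPC : ∀ x ∈ (MulAut.conj (G := Λ)).range, (∀ y ∈ P, x * y = y * x) → x ∈ P)
    (hC : ∀ x, (∀ y ∈ P, x * y = y * x) → x ∈ P ⊔ Dm) (hDP : ∀ y ∈ P, ∀ d ∈ Dm, y * d = d * y)
    (hDD : ∀ x ∈ Dm, ∀ y ∈ Dm, x * y = y * x)
    (h : ∀ D₁ ≤ Dm, ∃ B₀ ≤ Dm, D₁ ⊔ B₀ = Dm ∧ D₁ ⊓ B₀ = ⊥ ∧ ∃ M, TCJ 𝕜 M (P ⊔ D₁) ∧
      M ≤ (MulAut.conj (G := Λ)).range ⊔ D₁ ∧ ∀ x ∈ M, ∀ y ∈ B₀, x * y = y * x) :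
    AutTop 𝕜 Λ := by
  refine ⟨{P}, ⟨P, rfl⟩, ?_, ?_⟩
  · intro A hA
    rw [Set.mem_singleton_iff] at hA
    subst hA
    exact ⟨hPI, hPA, hPC⟩
  intro E hEc hE2 E₁ hE₁ hA
  obtain ⟨A, hA, hPE⟩ := hA
  rw [Set.mem_singleton_iff] at hA
  subst hA
  obtain ⟨B₀, hB₀, h1, h2, M, hM1, hM2, hM3⟩ := h (E₁ ⊓ Dm) inf_le_right
  have hdec : ∀ x ∈ E, ∃ p ∈ A, ∃ d ∈ Dm, p * d = x := by
    intro x hx
    have h3 := hC x fun y hy => hEc x hx y (hE₁ (hPE hy))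
    obtain ⟨p, hp, d, hd, h4⟩ := H487.mem_sup_comm hDP h3
    exact ⟨p, hp, d, hd, h4⟩
  have hE₁' : A ⊔ (E₁ ⊓ Dm) = E₁ := by
    apply le_antisymm (sup_le hPE inf_le_left)
    intro x hx
    obtain ⟨p, hp, d, hd, rfl⟩ := hdec x (hE₁ hx)
    have h3 : d ∈ E₁ := by
      have h4 := mul_mem (inv_mem (hPE hp)) hx
      rwa [inv_mul_cancel_left] at h4
    exact mul_mem (mem_sup_left hp) (mem_sup_right ⟨h3, hd⟩)
  refine ⟨E ⊓ B₀, inf_le_left, ?_, ?_, E₁, ?_, ?_, ⟨A, rfl, hPE⟩, rfl, le_rfl, ?_⟩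
  · apply le_antisymm (sup_le hE₁ inf_le_left)
    intro x hx
    obtain ⟨p, hp, d, hd, rfl⟩ := hdec x hx
    have h3 : d ∈ E := by
      have h4 := mul_mem (inv_mem (hE₁ (hPE hp))) hx
      rwa [inv_mul_cancel_left] at h4
    rw [← h1] at hd
    obtain ⟨d₁, hd₁, b, hb, rfl⟩ := H487.mem_sup_comm (A := E₁ ⊓ Dm) (B := B₀)
      (fun x hx y hy => hDD x hx.2 y (hB₀ hy)) hd
    have h5 : b ∈ E := by
      have h4 := mul_mem (inv_mem (hE₁ hd₁.1)) h3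
      rwa [inv_mul_cancel_left] at h4
    rw [← mul_assoc]
    exact mul_mem (mem_sup_left (mul_mem (hPE hp) hd₁.1)) (mem_sup_right ⟨h5, hb⟩)
  · rw [eq_bot_iff, ← h2]
    rintro x ⟨hx1, hx2⟩
    exact ⟨⟨hx1, hB₀ hx2.2⟩, hx2.2⟩
  · refine le_inf le_sup_right fun x hx => ?_
    rw [mem_centralizer_iff]
    intro y hy
    exact hEc y hy.1 x (hE₁ hx)
  · refine ⟨fun h0 => hPA.1 ?_, fun x hx y hy => hEc x (hE₁ hx) y (hE₁ hy),
      fun x hx => hE2 x (hE₁ hx)⟩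
    rw [eq_bot_iff, ← h0]
    exact hPE
  · rw [hE₁'] at hM1
    refine hM1.mono (le_inf (hM2.trans (sup_le_sup_left inf_le_left _)) fun x hx => ?_)
    rw [mem_centralizer_iff]
    intro y hy
    exact (hM3 x hx y hy.2).symm

section
variable {F : Type u} [Field F] {a m : ℕ} (ι : ZMod 5 →+* F) (σ : Fin (m + 1) ≃ (Fin a → Fin 2))

/-- generators of the Pauli group commute -/
lemma PJ_comm (r : ℕ) [Fact r.Prime] [CharP F r] (hm : 1 ≤ m) {J J' : Finset (Fin a)} :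
    ∀ x ∈ PJ ι σ J, ∀ y ∈ PJ ι σ J', x * y = y * x := by
  refine closure_comm ?_
  rintro _ ⟨j, -, i, -, rfl⟩ _ ⟨l, -, k, -, rfl⟩
  by_cases h : j = l
  · subst h
    rw [pgl_comm r hm]
    by_cases h' : i = k
    · subst h'
      exact ⟨1, (one_smul _ _).symm⟩
    · refine ⟨-1, ?_⟩
      rw [gT_val, gT_val, TT_mul, TT_mul, uB_val, uB_val, bF_anti ι i k h', TT_neg, neg_smul,
        one_smul]
  · rw [← map_mul, ← map_mul, gT_comm σ h]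

lemma PJ_sq (r : ℕ) [Fact r.Prime] [CharP F r] (hm : 1 ≤ m) {J : Finset (Fin a)} :
    ∀ x ∈ PJ ι σ J, x ^ 2 = 1 := by
  intro x hx
  induction hx using closure_induction with
  | mem x hx =>
    obtain ⟨j, -, i, -, rfl⟩ := hx
    rw [← map_pow, pgl_ker r hm, pow_two, Units.val_mul, gT_val, TT_mul, uB_val, bF_sq, TT_scalar]
    exact ⟨_, rfl⟩
  | one => exact one_pow 2
  | mul x y hx hy h1 h2 =>
    have h3 : Commute x y := PJ_comm ι σ r hm x hx y hy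
    rw [h3.mul_pow, h1, h2, mul_one]
  | inv x hx h1 => rw [inv_pow, h1, inv_one]

lemma PJ_ne (r : ℕ) [Fact r.Prime] [CharP F r] (hm : 1 ≤ m) {J : Finset (Fin a)} {j : Fin a}
    (hj : j ∈ J) : PJ ι σ J ≠ ⊥ := by
  intro h0
  have h1 : pgl m F (gT σ j (uB ι 0)) ∈ PJ ι σ J := gT_uB_mem ι σ hj 0
  rw [h0, mem_bot, pgl_ker r hm, gT_val, uB_val] at h1
  obtain ⟨c, hc⟩ := h1
  have h2 : TT σ j (bF ι 0 - c • 1) = 0 := by
    rw [TT_sub, TT_smul, TT_one, hc, sub_self]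
  have h3 := TT_inj σ h2
  rw [bF_0] at h3
  have h4 := congrFun (congrFun h3 0) 1
  simp at h4

lemma PJ_ApS (r : ℕ) [Fact r.Prime] [CharP F r] (hm : 1 ≤ m) {J : Finset (Fin a)} {j : Fin a}
    (hj : j ∈ J) : PJ ι σ J ∈ ApS 2 (MulAut (PL m F)) :=
  ⟨PJ_ne ι σ r hm hj, PJ_comm ι σ r hm, PJ_sq ι σ r hm⟩

/-- linear elements of the centralizer -/
lemma PJ_self (r : ℕ) [Fact r.Prime] [CharP F r] (hm : 1 ≤ m) {M : GLm m F}
    (h : ∀ y ∈ PJ ι σ Finset.univ, pgl m F M * y = y * pgl m F M) :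
    pgl m F M ∈ PJ ι σ Finset.univ := by
  obtain ⟨v, hv⟩ := z1 ι σ r hm (M := M) fun j i _ => h _ (gT_uB_mem ι σ (Finset.mem_univ j) i)
  rw [hv]
  exact GT_mem σ fun j => vv_mem ι σ (fun i _ => gT_uB_mem ι σ (Finset.mem_univ j) i) _

lemma PJ_DM (r : ℕ) [Fact r.Prime] [CharP F r] (hm : 1 ≤ m) {J : Finset (Fin a)} :
    ∀ y ∈ PJ ι σ J, ∀ d ∈ DM σ, y * d = d * y := by
  intro y hy d hd
  have h1 : PJ ι σ J ≤ centralizer {d} := by
    refine (closure_le _).2 ?_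
    rintro _ ⟨j, -, i, -, rfl⟩
    refine mem_centralizer_iff.2 ?_
    rintro _ rfl
    exact DM_gT σ r hm hd (uB_rat ι i)
  exact ((mem_centralizer_iff.1 (h1 hy)) _ rfl).symm

/-- the centralizer of the Pauli group -/
lemma PJ_cen (r : ℕ) [Fact r.Prime] [CharP F r] (hm : 1 ≤ m)
    (haut : ∀ g : MulAut (PL m F), ∃ M τ, g = sem M τ ∨ g = sem M τ * ind (itA m F))
    (x : MulAut (PL m F)) (h : ∀ y ∈ PJ ι σ Finset.univ, x * y = y * x) :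
    x ∈ PJ ι σ Finset.univ ⊔ DM σ := by
  obtain ⟨M, d, hd, rfl⟩ := aut_DM σ haut x
  refine mul_mem (mem_sup_left (PJ_self ι σ r hm fun y hy => ?_)) (mem_sup_right hd)
  exact comm_cancel (h y hy) (PJ_DM ι σ r hm y hy d hd).symm

/-- unions -/
lemma PJ_union (J J' : Finset (Fin a)) : PJ ι σ (J ∪ J') = PJ ι σ J ⊔ PJ ι σ J' := by
  rw [PJ, PJ, PJ, ← Subgroup.closure_union]
  congr 1
  ext x
  simp only [Set.mem_setOf_eq, Set.mem_union]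
  constructor
  · rintro ⟨j, hj, i, hi, rfl⟩
    rcases Finset.mem_union.1 hj with hj | hj
    · exact Or.inl ⟨j, hj, i, hi, rfl⟩
    · exact Or.inr ⟨j, hj, i, hi, rfl⟩
  · rintro (⟨j, hj, i, hi, rfl⟩ | ⟨j, hj, i, hi, rfl⟩)
    · exact ⟨j, Finset.mem_union_left _ hj, i, hi, rfl⟩
    · exact ⟨j, Finset.mem_union_right _ hj, i, hi, rfl⟩

lemma PJ_sup (J : Finset (Fin a)) : J.sup (fun j => PJ ι σ {j}) = PJ ι σ J := by
  apply le_antisymm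
  · refine Finset.sup_le fun j hj => (closure_le _).2 ?_
    rintro _ ⟨j', hj', i, hi, rfl⟩
    rw [Finset.mem_singleton] at hj'
    subst hj'
    exact gT_uB_mem ι σ hj i
  · refine (closure_le _).2 ?_
    rintro _ ⟨j, hj, i, hi, rfl⟩
    exact (Finset.le_sup (f := fun j => PJ ι σ {j}) hj) (gT_uB_mem ι σ (Finset.mem_singleton_self j) i)

end

end Vale.Agent.P240.R2.H490
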