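import Vale.Agent.P240.R2.H490.P5W1

/-!
Inner automorphisms and commutation of blocks.
-/

set_option autoImplicit false
set_option linter.all false

namespace Vale.Agent.P240.R2.H490

open Subgroup Matrix Vale.Agent.P240 Vale.Agent.P240.K Vale.Agent.P240.H195 Vale.Agent.P240.R2.H487

universe u v w

section
variable {F : Type u} [Field F] {a m : ℕ} (ι : ZMod 5 →+* F) (σ : Fin (m + 1) ≃ (Fin a → Fin 2))

lemma inner_of_det {U : GLm m F} (h : U.1.det = 1) :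
    pgl m F U ∈ (MulAut.conj (G := PL m F)).range := by
  obtain ⟨X, hX⟩ : ∃ X : SLm m F, X.1 = U.1 := ⟨⟨U.1, h⟩, rfl⟩
  refine ⟨pr m F X, ?_⟩
  rw [conj_eq_sem]
  have h1 : tog X = U := Units.ext hX
  rw [h1]
  rfl

/-- powers of elements of the prime field -/
lemma pow_one5 (ha : 3 ≤ a) {b : ZMod 5} (hb : b ≠ 0) : (ι b) ^ 2 ^ (a - 1) = 1 := by
  have h1 : ∀ b : ZMod 5, b ≠ 0 → b ^ 4 = 1 := by decide
  have h2 : 2 ^ (a - 1) = 4 * 2 ^ (a - 3) := by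
    have h3 : a - 1 = 2 + (a - 3) := by omega
    rw [h3, pow_add]
    norm_num
  rw [h2, pow_mul, ← map_pow, h1 b hb, map_one, one_pow]

lemma gT_det (j : Fin a) (g : GL (Fin 2) F) : (gT (m := m) σ j g).1.det = g.1.det ^ 2 ^ (a - 1) := by
  rw [gT_val, TT_det]

lemma gT_inner (ha : 3 ≤ a) (j : Fin a) {g : GL (Fin 2) F} {b : ZMod 5} (h : g.1.det = ι b) :
    pgl m F (gT σ j g) ∈ (MulAut.conj (G := PL m F)).range := by
  apply inner_of_det
  rw [gT_det, h, pow_one5 ι ha]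
  rintro rfl
  rw [map_zero] at h
  exact ((Matrix.isUnit_iff_isUnit_det _).1 g.isUnit).ne_zero h

lemma M3_inner (ha : 3 ≤ a) (j : Fin a) : M3 ι σ j ≤ (MulAut.conj (G := PL m F)).range := by
  refine (closure_le _).2 ?_
  rintro _ ⟨B, g, -, hg, rfl⟩
  refine gT_inner ι σ ha j (b := B.det) ?_
  rw [hg]
  exact (RingHom.map_det ι B).symm

lemma det4 {α : F} (hα : α * α = ι 2) {B : M2 (ZMod 5)} (hB : B.trace = 0) (t : ZMod 5) :
    (B.map ι + (α * ι t) • (1 : M2 F)).det = ι (B.det + 2 * t * t) := by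
  rw [Matrix.trace_fin_two] at hB
  have h1 : B 1 1 = -B 0 0 := by linear_combination hB
  rw [Matrix.det_fin_two, Matrix.det_fin_two]
  simp only [Matrix.add_apply, Matrix.map_apply, Matrix.smul_apply, Matrix.one_apply_eq,
    smul_eq_mul, mul_one, Matrix.one_apply_ne (show (0 : Fin 2) ≠ 1 by decide),
    Matrix.one_apply_ne (show (1 : Fin 2) ≠ 0 by decide), mul_zero, add_zero, h1, map_add, map_sub,
    map_mul, map_neg]
  have h2 : ι 2 = α * α := hα.symm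
  rw [h2]
  ring

lemma M4_inner (ha : 3 ≤ a) {α : F} (hα : α * α = ι 2) (j : Fin a) (δ : MulAut (PL m F)) :
    M4 ι σ α j δ ≤ (MulAut.conj (G := PL m F)).range ⊔ zpowers δ := by
  refine (closure_le _).2 ?_
  rintro _ ⟨B, t, g, hB, hg, rfl⟩
  refine mul_mem (mem_sup_left ?_) (mem_sup_right (mem_zpowers _))
  refine gT_inner ι σ ha j (b := B.det + 2 * t * t) ?_
  rw [hg, det4 ι hα hB]

/-! ### commutation -/

lemma g0_gT (r : ℕ) [Fact r.Prime] [CharP F r] (hm : 1 ≤ m) (j : Fin a) (g : GL (Fin 2) F) :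
    g0 σ * pgl m F (gT σ j g) = pgl m F (gT σ j g) * g0 σ := g0_GT σ r hm _

lemma M3_DM (r : ℕ) [Fact r.Prime] [CharP F r] (hm : 1 ≤ m) (j : Fin a) :
    ∀ x ∈ M3 ι σ j, ∀ d ∈ DM σ, x * d = d * x := by
  intro x hx d hd
  have h1 := closure_comm (s := {x | ∃ (B : M2 (ZMod 5)) (g : GL (Fin 2) F), B.trace = 0 ∧
    g.1 = B.map ι ∧ x = pgl m F (gT σ j g)}) (t := {d}) (by
      rintro _ ⟨B, g, -, hg, rfl⟩ _ rfl
      exact (DM_gT σ r hm hd (rat_of ι hg)).symm)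
  exact h1 x hx d (subset_closure rfl)

lemma M3_M3 {j l : Fin a} (h : j ≠ l) : ∀ x ∈ M3 ι σ j, ∀ y ∈ M3 ι σ l, x * y = y * x := by
  refine closure_comm ?_
  rintro _ ⟨B, g, -, -, rfl⟩ _ ⟨B', g', -, -, rfl⟩
  rw [← map_mul, ← map_mul, gT_comm σ h]

lemma M4_M3 (r : ℕ) [Fact r.Prime] [CharP F r] (hm : 1 ≤ m) {α : F} {j l : Fin a} (h : j ≠ l)
    {δ : MulAut (PL m F)} (hδ : δ ∈ DM σ) :
    ∀ x ∈ M4 ι σ α j δ, ∀ y ∈ M3 ι σ l, x * y = y * x := by
  refine closure_comm ?_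
  rintro _ ⟨B, t, g, -, -, rfl⟩ _ ⟨B', g', -, hg', rfl⟩
  rw [mul_assoc, DM_gT σ r hm hδ (rat_of ι hg'), ← mul_assoc, ← map_mul, gT_comm σ h, map_mul,
    mul_assoc]

/-- sums of two factors commute with other factors -/
lemma TT2_comm {j j' l : Fin a} (h : j ≠ l) (h' : j' ≠ l) {U : GLm m F} {C C' : M2 F}
    (hU : U.1 = TT σ j C + TT σ j' C') (g : GL (Fin 2) F) :
    U * gT σ l g = gT σ l g * U := by
  apply Units.ext
  rw [Units.val_mul, Units.val_mul, gT_val, hU, add_mul, mul_add, TT_comm σ h, TT_comm σ h']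

lemma M6_gT (r : ℕ) [Fact r.Prime] [CharP F r] (hm : 1 ≤ m) {j j' l : Fin a} (h : j ≠ l)
    (h' : j' ≠ l) (g : GL (Fin 2) F) :
    ∀ x ∈ M6 ι σ j j', x * pgl m F (gT σ l g) = pgl m F (gT σ l g) * x := by
  have h1 := closure_comm (s := {x | ∃ (B B' : M2 (ZMod 5)) (U : GLm m F), B.trace = 0 ∧
    B'.trace = 0 ∧ U.1 = TT σ j (B.map ι) + TT σ j' (B'.map ι) ∧ x = pgl m F U * g0 σ})
    (t := {pgl m F (gT σ l g)}) (by
      rintro _ ⟨B, B', U, -, -, hU, rfl⟩ _ rfl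
      rw [mul_assoc, g0_gT σ r hm, ← mul_assoc, ← map_mul, TT2_comm σ h h' hU, map_mul, mul_assoc])
  exact fun x hx => h1 x hx _ (subset_closure rfl)

lemma M6_M3 (r : ℕ) [Fact r.Prime] [CharP F r] (hm : 1 ≤ m) {j j' l : Fin a} (h : j ≠ l)
    (h' : j' ≠ l) : ∀ x ∈ M6 ι σ j j', ∀ y ∈ M3 ι σ l, x * y = y * x := by
  intro x hx y hy
  have h1 : M3 ι σ l ≤ centralizer {x} := by
    refine (closure_le _).2 ?_
    rintro _ ⟨B, g, -, -, rfl⟩
    refine mem_centralizer_iff.2 ?_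
    intro z hz
    rw [Set.mem_singleton_iff] at hz
    rw [hz]
    exact M6_gT ι σ r hm h h' g x hx
  exact (mem_centralizer_iff.1 (h1 hy)) x rfl

lemma M4_g0 (r : ℕ) [Fact r.Prime] [CharP F r] (hm : 1 ≤ m) {α : F} {j : Fin a} {τ : RingAut F}
    {δ : MulAut (PL m F)} (hδ : δ = fa τ ∨ δ = fa τ * g0 σ) :
    ∀ x ∈ M4 ι σ α j δ, x * g0 σ = g0 σ * x := by
  have h0 : δ * g0 σ = g0 σ * δ := by
    rcases hδ with rfl | rfl
    · exact fa_g0 σ τ
    · rw [mul_assoc, g0_sq, ← mul_assoc, ← fa_g0, mul_assoc, g0_sq]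
  have h1 := closure_comm (s := {x | ∃ (B : M2 (ZMod 5)) (t : ZMod 5) (g : GL (Fin 2) F),
    B.trace = 0 ∧ g.1 = B.map ι + (α * ι t) • 1 ∧ x = pgl m F (gT σ j g) * δ})
    (t := {g0 σ}) (by
      rintro _ ⟨B, t, g, -, -, rfl⟩ _ rfl
      rw [mul_assoc, h0, ← mul_assoc, ← g0_gT σ r hm, mul_assoc])
  exact fun x hx => h1 x hx _ (subset_closure rfl)

/-- rational sums -/
lemma M6_rat {j j' : Fin a} {U : GLm m F} {B B' : M2 (ZMod 5)}
    (hU : U.1 = TT σ j (B.map ι) + TT σ j' (B'.map ι)) (τ : RingAut F) :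
    fa τ * pgl m F U = pgl m F U * fa τ := by
  refine fa_S' τ ?_
  rw [hU]
  have h1 := TT_map σ (τ : F →+* F) j (B.map ι)
  have h2 := TT_map σ (τ : F →+* F) j' (B'.map ι)
  have h3 := rat_map ι τ B
  have h4 := rat_map ι τ B'
  ext i k
  have h5 := congrFun (congrFun h1 i) k
  have h6 := congrFun (congrFun h2 i) k
  have h3' : (B.map ι).map (τ : F →+* F) = B.map ι := h3
  have h4' : (B'.map ι).map (τ : F →+* F) = B'.map ι := h4
  rw [h3', Matrix.map_apply] at h5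
  rw [h4', Matrix.map_apply] at h6
  rw [Matrix.map_apply, Matrix.add_apply, map_add]
  exact congrArg₂ _ h5 h6

lemma M6_fa {j j' : Fin a} (τ : RingAut F) : ∀ x ∈ M6 ι σ j j', x * fa τ = fa τ * x := by
  have h1 := closure_comm (s := {x | ∃ (B B' : M2 (ZMod 5)) (U : GLm m F), B.trace = 0 ∧
    B'.trace = 0 ∧ U.1 = TT σ j (B.map ι) + TT σ j' (B'.map ι) ∧ x = pgl m F U * g0 σ})
    (t := {fa τ}) (by
      rintro _ ⟨B, B', U, -, -, hU, rfl⟩ _ rfl
      rw [mul_assoc, ← fa_g0, ← mul_assoc, ← M6_rat ι σ hU, mul_assoc])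
  exact fun x hx => h1 x hx _ (subset_closure rfl)

lemma M4_M6 (r : ℕ) [Fact r.Prime] [CharP F r] (hm : 1 ≤ m) {α : F} {j l l' : Fin a} (h : l ≠ j)
    (h' : l' ≠ j) (τ : RingAut F) :
    ∀ x ∈ M4 ι σ α j (fa τ), ∀ y ∈ M6 ι σ l l', x * y = y * x := by
  intro x hx y hy
  have h1 : M4 ι σ α j (fa τ) ≤ centralizer {y} := by
    refine (closure_le _).2 ?_
    rintro _ ⟨B, t, g, -, -, rfl⟩
    refine mem_centralizer_iff.2 ?_
    intro z hz
    rw [Set.mem_singleton_iff] at hz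
    rw [hz, ← mul_assoc, M6_gT ι σ r hm h h' g y hy, mul_assoc, M6_fa ι σ τ y hy, ← mul_assoc]
  exact ((mem_centralizer_iff.1 (h1 hx)) y rfl).symm

end

section
variable {F : Type} [Field F] {a m : ℕ} (ι : ZMod 5 →+* F) (σ : Fin (m + 1) ≃ (Fin a → Fin 2))

lemma M6_inner (hdet : StmtDet6) (ha : 3 ≤ a) {j j' : Fin a} (hj : j ≠ j') :
    M6 ι σ j j' ≤ (MulAut.conj (G := PL m F)).range ⊔ zpowers (g0 σ) := by
  refine (closure_le _).2 ?_
  rintro _ ⟨B, B', U, hB, hB', hU, rfl⟩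
  refine mul_mem (mem_sup_left (inner_of_det ?_)) (mem_sup_right (mem_zpowers _))
  have hu : U.1.det ≠ 0 := ((Matrix.isUnit_iff_isUnit_det _).1 U.isUnit).ne_zero
  have htr : ∀ C : M2 (ZMod 5), C.trace = 0 → (C.map ι).trace = 0 := by
    intro C hC
    rw [Matrix.trace_fin_two] at hC ⊢
    rw [Matrix.map_apply, Matrix.map_apply, ← map_add, hC, map_zero]
  have h1 := hdet F a m ι σ j j' hj (B.map ι) (B'.map ι) (htr B hB) (htr B' hB')
  rw [← hU] at h1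
  have h2 : (B.map ι).det - (B'.map ι).det = ι (B.det - B'.det) := by
    rw [map_sub]
    exact congrArg₂ _ (RingHom.map_det ι B).symm (RingHom.map_det ι B').symm
  rw [h1, h2, pow_one5 ι ha]
  intro h0
  apply hu
  rw [h1, h2, h0, map_zero, zero_pow (by positivity)]

end

end Vale.Agent.P240.R2.H490
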