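import Vale.Agent.P240.R2.H490.P5W2

/-!
The cases of the property `AutTop`.
-/

set_option autoImplicit false
set_option linter.all false

namespace Vale.Agent.P240.R2.H490

open Subgroup Matrix Vale.Agent.P240 Vale.Agent.P240.K Vale.Agent.P240.H195 Vale.Agent.P240.R2.H487

universe u v w

section
variable {G : Type u} [Group G]

lemma sup_cm {J : Type*} [DecidableEq J] {s : Finset J} {M : J → Subgroup G} {y : G}
    (h : ∀ j ∈ s, ∀ x ∈ M j, x * y = y * x) : ∀ x ∈ s.sup M, x * y = y * x := by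
  have h1 : s.sup M ≤ centralizer {y} := Finset.sup_le fun j hj x hx => by
    rw [mem_centralizer_iff]
    intro z hz
    rw [Set.mem_singleton_iff] at hz
    rw [hz]
    exact (h j hj x hx).symm
  intro x hx
  exact ((mem_centralizer_iff.1 (h1 hx)) y rfl).symm

lemma sup2_cm {A B : Subgroup G} {y : G} (h : ∀ x ∈ A, x * y = y * x)
    (h' : ∀ x ∈ B, x * y = y * x) : ∀ x ∈ A ⊔ B, x * y = y * x := by
  have h1 : A ⊔ B ≤ centralizer {y} := sup_le (fun x hx => by
    rw [mem_centralizer_iff]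
    intro z hz
    rw [Set.mem_singleton_iff] at hz
    rw [hz]
    exact (h x hx).symm) fun x hx => by
    rw [mem_centralizer_iff]
    intro z hz
    rw [Set.mem_singleton_iff] at hz
    rw [hz]
    exact (h' x hx).symm
  intro x hx
  exact ((mem_centralizer_iff.1 (h1 hx)) y rfl).symm

lemma zp_cm {A : Subgroup G} {d : G} (h : ∀ x ∈ A, x * d = d * x) :
    ∀ x ∈ A, ∀ y ∈ zpowers d, x * y = y * x := by
  rintro x hx _ ⟨k, rfl⟩
  exact (comm_zpow (h x hx).symm k).symm

lemma zp_two {d : G} (h : d * d = 1) {x : G} (hx : x ∈ zpowers d) : x = 1 ∨ x = d := by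
  obtain ⟨k, rfl⟩ := hx
  rcases Int.even_or_odd' k with ⟨l, rfl | rfl⟩
  · left
    show d ^ (2 * l) = 1
    rw [_root_.zpow_mul, zpow_two, h, _root_.one_zpow]
  · right
    show d ^ (2 * l + 1) = d
    rw [_root_.zpow_add, _root_.zpow_mul, zpow_two, h, _root_.one_zpow, one_mul, zpow_one]

lemma zp_inf {c d : G} (hc : c * c = 1) (hd : d * d = 1) (h : c ≠ d) :
    zpowers c ⊓ zpowers d = ⊥ := by
  rw [eq_bot_iff]
  rintro x ⟨h1, h2⟩
  rw [mem_bot]
  rcases zp_two hc h1 with h3 | h3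
  · exact h3
  rcases zp_two hd h2 with h4 | h4
  · exact h4
  exact absurd (h3.symm.trans h4) h

end

section
variable {F : Type u} [Field F] {a m : ℕ} (ι : ZMod 5 →+* F) (σ : Fin (m + 1) ≃ (Fin a → Fin 2))

include ι in
/-- the graph automorphism is not a field automorphism -/
lemma g0_ne (r : ℕ) [Fact r.Prime] [CharP F r] (hm : 1 ≤ m) {j j' : Fin a} (hj : j ≠ j')
    (τ : RingAut F) : g0 σ ≠ fa τ := by
  intro h
  -- the elements
  have hA : TT (m := m) σ j (bF ι 0) * TT σ j (bF ι 0) = ι 2 • 1 := by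
    rw [TT_mul, bF_sq, TT_scalar, ← map_neg]
    rfl
  have hE : TT (m := m) σ j' (bF ι 2) * TT σ j' (bF ι 2) = ι 3 • 1 := by
    rw [TT_mul, bF_sq, TT_scalar, ← map_neg]
    rfl
  have hc := TT_comm (m := m) σ hj (bF ι 0) (bF ι 2)
  have h15 : ι 3 - ι 2 = 1 := by
    rw [← map_sub, ← map_one ι]
    rfl
  have e1 : (TT (m := m) σ j (bF ι 0) + TT σ j' (bF ι 2)) * (-TT σ j (bF ι 0) + TT σ j' (bF ι 2)) = 1 := by
    rw [add_mul, mul_add, mul_add, mul_neg, mul_neg, hA, hE, hc]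
    have h16 : (ι 3 - ι 2) • (1 : Matrix (Fin (m + 1)) (Fin (m + 1)) F) = 1 := by
      rw [h15, one_smul]
    refine Eq.trans ?_ h16
    module
  have e2 : (-TT σ j (bF ι 0) + TT σ j' (bF ι 2)) * (TT (m := m) σ j (bF ι 0) + TT σ j' (bF ι 2)) = 1 := by
    rw [add_mul, mul_add, mul_add, neg_mul, neg_mul, hA, hE, hc]
    have h16 : (ι 3 - ι 2) • (1 : Matrix (Fin (m + 1)) (Fin (m + 1)) F) = 1 := by
      rw [h15, one_smul]
    refine Eq.trans ?_ h16
    module
  obtain ⟨U, hU⟩ : ∃ U : GLm m F, U.1 = TT σ j (bF ι 0) + TT σ j' (bF ι 2) := ⟨⟨_, _, e1, e2⟩, rfl⟩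
  obtain ⟨W, hW⟩ : ∃ W : GLm m F, W.1 = -TT σ j (bF ι 0) + TT σ j' (bF ι 2) := ⟨⟨_, _, e2, e1⟩, rfl⟩
  have h1 : g0 σ * pgl m F U * g0 σ = pgl m F W := by
    refine g0_conj σ r hm (c := -1) ?_
    rw [hU, br_add, br_TT_neg σ _ _ (bF_trace ι 0), br_TT_neg σ _ _ (bF_trace ι 2), hW, ← neg_add,
      neg_mul, e1, neg_smul, one_smul]
  have h2 : g0 σ * pgl m F U = pgl m F U * g0 σ := by
    rw [h]
    exact M6_rat ι σ (B := bb 0) (B' := bb 2) hU τ
  rw [h2, mul_assoc, g0_sq, mul_one, pgl_eq r hm] at h1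
  obtain ⟨c, hc⟩ := h1
  rw [hU, hW] at hc
  -- commutators
  have k1 := TT_comm (m := m) σ hj.symm (bF ι 2) (bF ι 1)
  have k2 := TT_comm (m := m) σ hj (bF ι 0) (bF ι 1)
  have h01 := bF_anti ι 0 1 (by decide)
  have h21 := bF_anti ι 2 1 (by decide)
  have c1 : c = -1 := by
    have h5 := congrArg (fun T => T * TT σ j (bF ι 1) - TT σ j (bF ι 1) * T) hc
    simp only [add_mul, mul_add, smul_mul_assoc, mul_smul_comm, neg_mul, mul_neg, TT_mul, k1] at h5
    have h6 : TT (m := m) σ j ((1 + c) • (bF ι 0 * bF ι 1 - bF ι 1 * bF ι 0)) = 0 := by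
      rw [TT_smul, TT_sub]
      have h7 := sub_eq_zero.2 h5
      rw [← h7]
      module
    have h8 := TT_inj σ h6
    rcases smul_eq_zero.1 h8 with h9 | h9
    · linear_combination h9
    · exfalso
      have h10 : bF ι 1 * bF ι 0 = -(bF ι 0 * bF ι 1) := by rw [h01, neg_neg]
      rw [h10, sub_neg_eq_add, ← two_smul F, bF_two'] at h9
      rcases smul_eq_zero.1 h9 with h11 | h11
      · exact two_ne0 ι h11
      · exact bF_ne ι 2 h11
  have c2 : c = 1 := by
    have h5 := congrArg (fun T => T * TT σ j' (bF ι 1) - TT σ j' (bF ι 1) * T) hc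
    simp only [add_mul, mul_add, smul_mul_assoc, mul_smul_comm, neg_mul, mul_neg, TT_mul, k2] at h5
    have h6 : TT (m := m) σ j' ((1 - c) • (bF ι 2 * bF ι 1 - bF ι 1 * bF ι 2)) = 0 := by
      rw [TT_smul, TT_sub]
      have h7 := sub_eq_zero.2 h5
      rw [← h7]
      module
    have h8 := TT_inj σ h6
    rcases smul_eq_zero.1 h8 with h9 | h9
    · linear_combination -h9
    · exfalso
      have h10 : bF ι 1 * bF ι 2 = -(bF ι 2 * bF ι 1) := by rw [h21, neg_neg]
      rw [h10, sub_neg_eq_add, ← two_smul F, ← bF_two', mul_assoc, bF_sq] at h9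
      rcases smul_eq_zero.1 h9 with h11 | h11
      · exact two_ne0 ι h11
      · rw [mul_smul_comm, mul_one] at h11
        rcases smul_eq_zero.1 h11 with h12 | h12
        · rw [neg_eq_zero, map_eq_zero] at h12
          exact db_ne 1 h12
        · exact bF_ne ι 0 h12
  rw [c1] at c2
  exact two_ne0 ι (by linear_combination -c2)

end

end Vale.Agent.P240.R2.H490
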