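import Vale.Agent.P240.R2.H490.P5W3
import Vale.Agent.P240.R2.H953.Det6
import Vale.Agent.P240.R2.H399.V4
import Vale.Agent.P240.R2.H667.V6

/-!
The property `AutTop` for `PSL_n(F)`, `n` a power of two, `|F| = 5, 25`.
-/

set_option autoImplicit false
set_option linter.all false

namespace Vale.Agent.P240.R2.H490

open Subgroup Matrix Vale.Agent.P240 Vale.Agent.P240.K Vale.Agent.P240.H195 Vale.Agent.P240.R2.H487

universe u v w

section
variable {F : Type} [Field F] {a m : ℕ} (ι : ZMod 5 →+* F) (σ : Fin (m + 1) ≃ (Fin a → Fin 2))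

lemma fa_ne (r : ℕ) [Fact r.Prime] [CharP F r] (hm : 1 ≤ m) {τ : RingAut F} (h : τ ≠ 1) :
    fa (m := m) τ ≠ 1 := by
  intro h1
  exact h (sem_trivial (r := r) (N := (1 : GLm m F)) h1 hm).1

lemma fa_sq {τ : RingAut F} (h : τ * τ = 1) : fa (m := m) τ * fa τ = 1 := by
  rw [← map_mul, h, map_one]

lemma DM_comm {τ : RingAut F} (hall : ∀ τ' : RingAut F, τ' = 1 ∨ τ' = τ) :
    ∀ x ∈ DM (F := F) σ, ∀ y ∈ DM σ, x * y = y * x := by
  have h0 : ∀ τ' τ'' : RingAut F, τ' * τ'' = τ'' * τ' := by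
    intro τ' τ''
    rcases hall τ' with rfl | rfl <;> rcases hall τ'' with rfl | rfl <;> simp
  have h1 : ∀ τ' τ'' : RingAut F, fa (m := m) τ' * fa τ'' = fa τ'' * fa τ' := by
    intro τ' τ''
    rw [← map_mul, h0, map_mul]
  rintro _ ⟨τ', rfl | rfl⟩ _ ⟨τ'', rfl | rfl⟩
  · exact h1 _ _
  · rw [← mul_assoc, h1, mul_assoc, fa_g0, ← mul_assoc]
  · rw [mul_assoc, ← fa_g0, ← mul_assoc, h1, mul_assoc]
  · calc fa τ' * g0 σ * (fa τ'' * g0 σ) = fa τ' * (g0 σ * fa τ'') * g0 σ := by group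
      _ = fa τ' * fa τ'' * g0 σ * g0 σ := by rw [← fa_g0]; group
      _ = fa τ'' * fa τ' * g0 σ * g0 σ := by rw [h1]
      _ = fa τ'' * (g0 σ * fa τ') * g0 σ := by rw [← fa_g0]; group
      _ = _ := by group

/-- generators of the outer group -/
lemma DM_eq {τ : RingAut F} (hall : ∀ τ' : RingAut F, τ' = 1 ∨ τ' = τ) {D : Subgroup (MulAut (PL m F))}
    (h1 : fa τ ∈ D) (h2 : g0 σ ∈ D) : DM σ ≤ D := by
  rintro _ ⟨τ', h | h⟩
  · rw [h]
    rcases hall τ' with rfl | rfl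
    · rw [map_one]; exact one_mem _
    · exact h1
  · rw [h]
    refine mul_mem ?_ h2
    rcases hall τ' with rfl | rfl
    · rw [map_one]; exact one_mem _
    · exact h1

variable [Finite F]

include σ in
/-- **The property `AutTop`.** -/
theorem autTop5 {𝕜 : Type v} [Field 𝕜] [CharP F 5] (ha : 3 ≤ a) (hm : 1 ≤ m)
    (haut : ∀ g : MulAut (PL m F), ∃ M τ, g = sem M τ ∨ g = sem M τ * ind (itA m F))
    {τ : RingAut F} (hττ : τ * τ = 1) (hall : ∀ τ' : RingAut F, τ' = 1 ∨ τ' = τ)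
    (hα : τ ≠ 1 → ∃ α : F, α * α = ι 2 ∧ τ α = -α) : AutTop 𝕜 (PL m F) := by
  have hHC : StmtHC ι σ := stmtHC ι σ 5 hm haut
  have h3 : ∀ j, TCJ 𝕜 (M3 ι σ j) (PJ ι σ {j}) := fun j => tcj3 ι σ 5 hm hHC j
  have h6 : ∀ j j' : Fin a, j ≠ j' → TCJ 𝕜 (M6 ι σ j j') (PJ ι σ {j, j'} ⊔ zpowers (g0 σ)) :=
    H667.V6.stmtV6 𝕜 F a m ι σ hm hHC
  obtain ⟨i0, i1, i2, h01, h02, h12⟩ : ∃ i0 i1 i2 : Fin a, i0 ≠ i1 ∧ i0 ≠ i2 ∧ i1 ≠ i2 :=
    ⟨⟨0, by omega⟩, ⟨1, by omega⟩, ⟨2, by omega⟩, by simp, by simp, by simp⟩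
  -- joins of small blocks
  have hs : ∀ s : Finset (Fin a), TCJ 𝕜 (s.sup (M3 ι σ)) (PJ ι σ s) := by
    intro s
    rw [← PJ_sup]
    exact TCJ.sup s (fun j _ => h3 j) fun i _ j _ hij => M3_M3 ι σ hij
  have hsI : ∀ s : Finset (Fin a), s.sup (M3 ι σ) ≤ (MulAut.conj (G := PL m F)).range :=
    fun s => Finset.sup_le fun j _ => M3_inner ι σ ha j
  have hsD : ∀ s : Finset (Fin a), ∀ d ∈ DM σ, ∀ x ∈ s.sup (M3 ι σ), x * d = d * x :=
    fun s d hd => sup_cm fun j _ x hx => M3_DM ι σ 5 hm j x hx d hd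
  have hcs : ∀ (M : Subgroup (MulAut (PL m F))) (s : Finset (Fin a)),
      (∀ l ∈ s, ∀ x ∈ M, ∀ y ∈ M3 ι σ l, x * y = y * x) →
      ∀ x ∈ M, ∀ y ∈ s.sup (M3 ι σ), x * y = y * x := by
    intro M s h x hx y hy
    exact (sup_cm (y := x) (fun l hl y hy => (h l hl x hx y hy).symm) y hy).symm
  have hg0 := g0_mem (F := F) σ
  have hgne : ∀ τ' : RingAut F, g0 σ ≠ fa τ' := g0_ne ι σ 5 hm h01
  have hfs := fa_sq (m := m) hττ
  have hg1 : g0 (F := F) σ ≠ 1 := by
    rw [← map_one (fa (F := F) (m := m))]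
    exact hgne 1
  have hcompl : ∀ J : Finset (Fin a), PJ ι σ J ⊔ PJ ι σ (Finset.univ \ J) = PJ ι σ Finset.univ := by
    intro J
    rw [← PJ_union, Finset.union_sdiff_of_subset (Finset.subset_univ J)]
  refine autTop_of_D (P := PJ ι σ Finset.univ) (Dm := DM σ)
    (PJ_ApS ι σ 5 hm (Finset.mem_univ i0)) ?_ ?_ (PJ_cen ι σ 5 hm haut) (PJ_DM ι σ 5 hm)
    (DM_comm σ hall) ?_
  · exact (hs _).le.trans (hsI _)
  · rintro _ ⟨y, rfl⟩ hy
    obtain ⟨X, rfl⟩ := QuotientGroup.mk'_surjective _ y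
    have h7 : MulAut.conj (pr m F X) = pgl m F (tog X) := conj_eq_sem X
    have h8 : ∀ y ∈ PJ ι σ Finset.univ, pgl m F (tog X) * y = y * pgl m F (tog X) := by
      rw [← h7]
      exact hy
    have h9 := PJ_self ι σ 5 hm h8
    rw [← h7] at h9
    exact h9
  -- the four cases
  have caseA : ∃ B₀ ≤ DM σ, (⊥ : Subgroup (MulAut (PL m F))) ⊔ B₀ = DM σ ∧ ⊥ ⊓ B₀ = ⊥ ∧
      ∃ M, TCJ 𝕜 M (PJ ι σ Finset.univ ⊔ ⊥) ∧ M ≤ (MulAut.conj (G := PL m F)).range ⊔ ⊥ ∧
        ∀ x ∈ M, ∀ y ∈ B₀, x * y = y * x := by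
    refine ⟨DM σ, le_rfl, bot_sup_eq _, bot_inf_eq _, Finset.univ.sup (M3 ι σ), ?_, ?_, ?_⟩
    · rw [sup_bot_eq]
      exact hs _
    · rw [sup_bot_eq]
      exact hsI _
    · exact fun x hx y hy => hsD _ y hy x hx
  have caseB : ∃ B₀ ≤ DM σ, zpowers (g0 (F := F) σ) ⊔ B₀ = DM σ ∧ zpowers (g0 σ) ⊓ B₀ = ⊥ ∧
      ∃ M, TCJ 𝕜 M (PJ ι σ Finset.univ ⊔ zpowers (g0 σ)) ∧
        M ≤ (MulAut.conj (G := PL m F)).range ⊔ zpowers (g0 σ) ∧
        ∀ x ∈ M, ∀ y ∈ B₀, x * y = y * x := by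
    refine ⟨zpowers (fa τ), (zpowers_le).2 (fa_mem σ τ), ?_, zp_inf (g0_sq σ) hfs (hgne τ),
      M6 ι σ i0 i1 ⊔ (Finset.univ \ {i0, i1}).sup (M3 ι σ), ?_, ?_, ?_⟩
    · exact le_antisymm (sup_le ((zpowers_le).2 hg0) ((zpowers_le).2 (fa_mem σ τ)))
        (DM_eq σ hall (mem_sup_right (mem_zpowers _)) (mem_sup_left (mem_zpowers _)))
    · have h7 := TCJ.join (h6 i0 i1 h01) (hs (Finset.univ \ {i0, i1})) (hcs _ _ fun l hl => by
        rw [Finset.mem_sdiff, Finset.mem_insert, Finset.mem_singleton, not_or] at hl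
        exact M6_M3 ι σ 5 hm (Ne.symm hl.2.1) (Ne.symm hl.2.2))
      have h8 : PJ ι σ {i0, i1} ⊔ zpowers (g0 σ) ⊔ PJ ι σ (Finset.univ \ {i0, i1}) =
          PJ ι σ Finset.univ ⊔ zpowers (g0 σ) := by
        rw [sup_right_comm, hcompl]
      rwa [h8] at h7
    · exact sup_le (M6_inner ι σ H953.stmtDet6 ha h01) ((hsI _).trans le_sup_left)
    · exact zp_cm (sup2_cm (M6_fa ι σ τ) (hsD _ _ (fa_mem σ τ)))
  have caseC : τ ≠ 1 → ∀ δ : MulAut (PL m F), (δ = fa τ ∨ δ = fa τ * g0 σ) →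
      ∃ B₀ ≤ DM σ, zpowers δ ⊔ B₀ = DM σ ∧ zpowers δ ⊓ B₀ = ⊥ ∧
      ∃ M, TCJ 𝕜 M (PJ ι σ Finset.univ ⊔ zpowers δ) ∧
        M ≤ (MulAut.conj (G := PL m F)).range ⊔ zpowers δ ∧
        ∀ x ∈ M, ∀ y ∈ B₀, x * y = y * x := by
    intro hτ δ hδ
    obtain ⟨α, hα1, hα2⟩ := hα hτ
    have hδD : δ ∈ DM σ := by
      rcases hδ with rfl | rfl
      · exact fa_mem σ τ
      · exact mul_mem (fa_mem σ τ) hg0
    have hδ2 : δ * δ = 1 := by
      rcases hδ with rfl | rfl
      · exact hfs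
      · calc fa τ * g0 σ * (fa τ * g0 σ) = fa τ * (g0 σ * fa τ) * g0 σ := by group
          _ = fa τ * fa τ * (g0 σ * g0 σ) := by rw [← fa_g0]; group
          _ = 1 := by rw [hfs, g0_sq, mul_one]
    have hδg : δ ≠ g0 σ := by
      rcases hδ with rfl | rfl
      · exact (hgne τ).symm
      · intro h7
        exact fa_ne 5 hm hτ (mul_eq_right.1 h7)
    refine ⟨zpowers (g0 σ), (zpowers_le).2 hg0, ?_, zp_inf hδ2 (g0_sq σ) hδg,
      M4 ι σ α i0 δ ⊔ (Finset.univ \ {i0}).sup (M3 ι σ), ?_, ?_, ?_⟩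
    · refine le_antisymm (sup_le ((zpowers_le).2 hδD) ((zpowers_le).2 hg0)) (DM_eq σ hall ?_
        (mem_sup_right (mem_zpowers _)))
      rcases hδ with rfl | rfl
      · exact mem_sup_left (mem_zpowers _)
      · have h7 : fa τ * g0 σ * g0 σ ∈ zpowers (fa τ * g0 σ) ⊔ zpowers (g0 σ) :=
          mul_mem (mem_sup_left (mem_zpowers _)) (mem_sup_right (mem_zpowers _))
        rwa [mul_assoc, g0_sq, mul_one] at h7
    · have h7 := TCJ.join (H399.V4.stmtV4 𝕜 F a m ι σ hm hHC α hα1 τ hα2 hττ hall δ hδ i0)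
        (hs (Finset.univ \ {i0})) (hcs _ _ fun l hl => by
          rw [Finset.mem_sdiff, Finset.mem_singleton] at hl
          exact M4_M3 ι σ 5 hm (Ne.symm hl.2) hδD)
      have h8 : PJ ι σ {i0} ⊔ zpowers δ ⊔ PJ ι σ (Finset.univ \ {i0}) =
          PJ ι σ Finset.univ ⊔ zpowers δ := by
        rw [sup_right_comm, hcompl]
      rwa [h8] at h7
    · exact sup_le (M4_inner ι σ ha hα1 i0 δ) ((hsI _).trans le_sup_left)
    · exact zp_cm (sup2_cm (M4_g0 ι σ 5 hm hδ) (hsD _ _ hg0))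
  have caseE : τ ≠ 1 → ∃ B₀ ≤ DM σ, DM (F := F) σ ⊔ B₀ = DM σ ∧ DM σ ⊓ B₀ = ⊥ ∧
      ∃ M, TCJ 𝕜 M (PJ ι σ Finset.univ ⊔ DM σ) ∧
        M ≤ (MulAut.conj (G := PL m F)).range ⊔ DM σ ∧
        ∀ x ∈ M, ∀ y ∈ B₀, x * y = y * x := by
    intro hτ
    obtain ⟨α, hα1, hα2⟩ := hα hτ
    refine ⟨⊥, bot_le, sup_bot_eq _, inf_bot_eq _,
      M4 ι σ α i0 (fa τ) ⊔ (M6 ι σ i1 i2 ⊔ (Finset.univ \ {i0, i1, i2}).sup (M3 ι σ)),
      ?_, ?_, ?_⟩
    · have h7 := TCJ.join (h6 i1 i2 h12) (hs (Finset.univ \ {i0, i1, i2})) (hcs _ _ fun l hl => by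
        rw [Finset.mem_sdiff, Finset.mem_insert, Finset.mem_insert, Finset.mem_singleton, not_or,
          not_or] at hl
        exact M6_M3 ι σ 5 hm (Ne.symm hl.2.2.1) (Ne.symm hl.2.2.2))
      have h8 := TCJ.join (H399.V4.stmtV4 𝕜 F a m ι σ hm hHC α hα1 τ hα2 hττ hall (fa τ)
        (Or.inl rfl) i0) h7 (by
          intro x hx
          have h9 := fun y hy => (M4_M6 ι σ 5 hm (α := α) h01.symm h02.symm τ x hx y hy).symm
          have h10 := fun y hy => (hcs (M4 ι σ α i0 (fa τ)) (Finset.univ \ {i0, i1, i2})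
            (fun l hl => by
              rw [Finset.mem_sdiff, Finset.mem_insert, not_or] at hl
              exact M4_M3 ι σ 5 hm (Ne.symm hl.2.1) (fa_mem σ τ)) x hx y hy).symm
          exact fun y hy => (sup2_cm h9 h10 y hy).symm)
      have h9 : PJ ι σ {i0} ⊔ zpowers (fa τ) ⊔
          (PJ ι σ {i1, i2} ⊔ zpowers (g0 σ) ⊔ PJ ι σ (Finset.univ \ {i0, i1, i2})) =
          PJ ι σ Finset.univ ⊔ DM σ := by
        have h10 : zpowers (fa τ) ⊔ zpowers (g0 σ) = DM σ :=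
          le_antisymm (sup_le ((zpowers_le).2 (fa_mem σ τ)) ((zpowers_le).2 hg0))
            (DM_eq σ hall (mem_sup_left (mem_zpowers _)) (mem_sup_right (mem_zpowers _)))
        have h11 : PJ ι σ {i0} ⊔ PJ ι σ {i1, i2} = PJ ι σ {i0, i1, i2} := by
          rw [← PJ_union]
          rfl
        rw [← hcompl {i0, i1, i2}, ← h11, ← h10]
        ac_rfl
      rwa [h9] at h8
    · refine sup_le ((M4_inner ι σ ha hα1 i0 _).trans ?_) (sup_le
        ((M6_inner ι σ H953.stmtDet6 ha h12).trans ?_) ((hsI _).trans le_sup_left))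
      · exact sup_le_sup_left ((zpowers_le).2 (fa_mem σ τ)) _
      · exact sup_le_sup_left ((zpowers_le).2 hg0) _
    · intro x _ y hy
      rw [mem_bot] at hy
      rw [hy, mul_one, one_mul]
  -- the enumeration
  intro D₁ hD₁
  have hτ1 : fa τ ∉ D₁ → τ ≠ 1 := by
    rintro h7 rfl
    apply h7
    rw [map_one]
    exact one_mem _
  by_cases hg : g0 σ ∈ D₁
  · by_cases hf : fa τ ∈ D₁
    · have hD : D₁ = DM σ := le_antisymm hD₁ (DM_eq σ hall hf hg)
      by_cases hτ : τ = 1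
      · have hD' : D₁ = zpowers (g0 σ) := by
          apply le_antisymm _ ((zpowers_le).2 hg)
          rw [hD]
          refine DM_eq σ hall ?_ (mem_zpowers _)
          rw [hτ, map_one]
          exact one_mem _
        rw [hD']
        exact caseB
      · rw [hD]
        exact caseE hτ
    · have hD' : D₁ = zpowers (g0 σ) := by
        apply le_antisymm _ ((zpowers_le).2 hg)
        intro x hx
        obtain ⟨τ', h7 | h7⟩ := hD₁ hx
        · rcases hall τ' with rfl | rfl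
          · rw [h7, map_one]; exact one_mem _
          · exact absurd (h7 ▸ hx) hf
        · rcases hall τ' with rfl | rfl
          · rw [h7, map_one, one_mul]; exact mem_zpowers _
          · exfalso
            apply hf
            have h8 : fa τ' = x * (g0 σ)⁻¹ := by rw [h7, mul_inv_cancel_right]
            rw [h8]
            exact mul_mem hx (inv_mem hg)
      rw [hD']
      exact caseB
  · by_cases hf : fa τ ∈ D₁
    · by_cases hτ : τ = 1
      · have hD' : D₁ = ⊥ := by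
          rw [eq_bot_iff]
          intro x hx
          rw [mem_bot]
          have h9 : ∀ τ' : RingAut F, fa (m := m) τ' = 1 := by
            intro τ'
            rcases hall τ' with h8 | h8 <;> rw [h8]
            · exact map_one _
            · rw [hτ]; exact map_one _
          obtain ⟨τ', h7 | h7⟩ := hD₁ hx
          · rw [h7, h9]
          · rw [h9, one_mul] at h7
            exact absurd (h7 ▸ hx) hg
        rw [hD']
        exact caseA
      · have hD' : D₁ = zpowers (fa τ) := by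
          apply le_antisymm _ ((zpowers_le).2 hf)
          intro x hx
          obtain ⟨τ', h7 | h7⟩ := hD₁ hx
          · rcases hall τ' with rfl | rfl
            · rw [h7, map_one]; exact one_mem _
            · rw [h7]; exact mem_zpowers _
          · exfalso
            apply hg
            have h8 : g0 σ = (fa τ')⁻¹ * x := by rw [h7, inv_mul_cancel_left]
            rw [h8]
            refine mul_mem (inv_mem ?_) hx
            rcases hall τ' with rfl | rfl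
            · rw [map_one]; exact one_mem _
            · exact hf
        rw [hD']
        exact caseC hτ _ (Or.inl rfl)
    · by_cases hfg : fa τ * g0 σ ∈ D₁
      · have hD' : D₁ = zpowers (fa τ * g0 σ) := by
          apply le_antisymm _ ((zpowers_le).2 hfg)
          intro x hx
          obtain ⟨τ', h7 | h7⟩ := hD₁ hx
          · rcases hall τ' with rfl | rfl
            · rw [h7, map_one]; exact one_mem _
            · exact absurd (h7 ▸ hx) hf
          · rcases hall τ' with rfl | rfl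
            · rw [map_one, one_mul] at h7
              exact absurd (h7 ▸ hx) hg
            · rw [h7]; exact mem_zpowers _
        rw [hD']
        exact caseC (hτ1 hf) _ (Or.inr rfl)
      · have hD' : D₁ = ⊥ := by
          rw [eq_bot_iff]
          intro x hx
          rw [mem_bot]
          obtain ⟨τ', h7 | h7⟩ := hD₁ hx
          · rcases hall τ' with rfl | rfl
            · rw [h7, map_one]
            · exact absurd (h7 ▸ hx) hf
          · rcases hall τ' with rfl | rfl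
            · rw [map_one, one_mul] at h7
              exact absurd (h7 ▸ hx) hg
            · exact absurd (h7 ▸ hx) hfg
        rw [hD']
        exact caseA

end

end Vale.Agent.P240.R2.H490
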